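import Vale.Agent.P261Z.L.Defs

/-!
# P261Z, block C1: the prime field
-/

noncomputable section

namespace P261.C1

variable {p : ℕ} [hp : Fact p.Prime] {K L : Type} [CommRing K] [CommRing L] [Ch p K]

variable (p K) in
/-- the map from the prime field -/
def zc : ZMod p →+* K :=
  (Ideal.Quotient.lift (Ideal.span {(p : ℤ)}) (Int.castRingHom K) fun a ha => by
    obtain ⟨b, rfl⟩ := Ideal.mem_span_singleton'.1 ha
    simp [Ch.char (p := p) (K := K)]).comp (Int.quotientSpanNatEquivZMod p).symm.toRingHom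

@[simp] theorem zc_int (n : ℤ) : zc p K (n : ZMod p) = n := map_intCast _ n

@[simp] theorem zc_nat (n : ℕ) : zc p K (n : ZMod p) = n := map_natCast _ n

theorem zc_apply (x : ZMod p) : zc p K x = (x.val : K) := by
  rw [← zc_nat (p := p), ZMod.natCast_zmod_val]

theorem zc_castRingHom (n : ℤ) : zc p K (Int.castRingHom (ZMod p) n) = Int.castRingHom K n :=
  zc_int n

theorem map_zc [Ch p L] (f : K →+* L) (x : ZMod p) : f (zc p K x) = zc p L x := by
  rw [zc_apply, zc_apply, map_natCast]

theorem zc_pow (x : ZMod p) : zc p K x ^ p = zc p K x := by rw [← map_pow, ZMod.pow_card]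

theorem zc_mem (F : Fil p K) (x : ZMod p) : zc p K x ∈ F.F 0 := by
  rw [zc_apply]
  exact natCast_mem F.zero _

theorem zc_mul_inv {x : ZMod p} (hx : x ≠ 0) : zc p K x * zc p K x⁻¹ = 1 := by
  rw [← map_mul, mul_inv_cancel₀ hx, map_one]

variable {E : Type} [Fintype E] {h : ℕ}

theorem eb_eq (v : LV p E h K) (l : E → ZMod p) (i : E ⊕ Fin h) :
    v.eb l i = ∑ e, zc p K (l e) * (v.ν i (Sum.inl e)).coeff 0 := by
  simp only [LV.eb, zc_apply]

theorem eb_add (v : LV p E h K) (l l' : E → ZMod p) (i : E ⊕ Fin h) :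
    v.eb (l + l') i = v.eb l i + v.eb l' i := by
  simp only [eb_eq, Pi.add_apply, map_add, add_mul, Finset.sum_add_distrib]

theorem eb_smul (v : LV p E h K) (c : ZMod p) (l : E → ZMod p) (i : E ⊕ Fin h) :
    v.eb (c • l) i = zc p K c * v.eb l i := by
  simp only [eb_eq, Pi.smul_apply, smul_eq_mul, map_mul, mul_assoc, Finset.mul_sum]

theorem eb_zero (v : LV p E h K) (i : E ⊕ Fin h) : v.eb 0 i = 0 := by
  simp only [eb_eq, Pi.zero_apply, map_zero, zero_mul, Finset.sum_const_zero]

theorem eb_single [DecidableEq E] (v : LV p E h K) (e : E) (i : E ⊕ Fin h) :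
    v.eb (Pi.single e 1) i = (v.ν i (Sum.inl e)).coeff 0 := by
  rw [eb_eq, Finset.sum_eq_single e (fun b _ hb => by rw [Pi.single_eq_of_ne hb, map_zero, zero_mul])
    (by simp), Pi.single_eq_same, map_one, one_mul]

end P261.C1
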