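import Vale.Agent.P261Z.C1.Defs
import Vale.Agent.P261Z.C1.Zc
import Vale.Agent.P261Z.W.Pole

/-!
# P261Z, block C1: two lattices in the same bounded module agree
-/

set_option linter.unusedSectionVars false

noncomputable section

open Matrix

namespace P261

variable {p : ℕ} [hp : Fact p.Prime] {E : Type} [Fintype E] [DecidableEq E] {h : ℕ}

namespace C1

section mat

variable {A : Type} [CommRing A]

omit hp in
theorem V0_mul_B0 : V0 p E h A * B0 p E h A = (p : A) • 1 := by
  rw [V0, B0, fromBlocks_multiply, ← fromBlocks_one, fromBlocks_smul]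
  simp only [Matrix.mul_zero, Matrix.zero_mul, add_zero, zero_add, Matrix.one_mul, smul_zero]
  congr 1
  ext i j
  have hi := i.2
  have hj := j.2
  rw [Matrix.mul_apply, Finset.sum_eq_single
    (if e : (i : ℕ) = 0 then ⟨h - 1, by omega⟩ else ⟨i - 1, by omega⟩ : Fin h)]
  · simp only [of_apply, Matrix.smul_apply, Matrix.one_apply, Fin.ext_iff, smul_eq_mul]
    split_ifs <;> first | (simp; done) | (simp at *; done) | (simp at *; omega)
  · intro l _ hl
    have hl' := l.2
    simp only [of_apply, ne_eq, Fin.ext_iff] at hl ⊢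
    split_ifs at hl ⊢ <;> first | (simp; done) | (simp at *; done) | (simp at *; omega)
  · simp

omit hp in
theorem B0_mul_V0 : B0 p E h A * V0 p E h A = (p : A) • 1 := by
  rw [V0, B0, fromBlocks_multiply, ← fromBlocks_one, fromBlocks_smul]
  simp only [Matrix.mul_zero, Matrix.zero_mul, add_zero, zero_add, Matrix.mul_one, smul_zero]
  congr 1
  ext i j
  have hi := i.2
  have hj := j.2
  rw [Matrix.mul_apply, Finset.sum_eq_single
    (if e : (i : ℕ) + 1 = h then ⟨0, by omega⟩ else ⟨i + 1, by omega⟩ : Fin h)]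
  · simp only [of_apply, Matrix.smul_apply, Matrix.one_apply, Fin.ext_iff, smul_eq_mul]
    split_ifs <;> first | (simp; done) | (simp at *; done) | (simp at *; omega)
  · intro l _ hl
    have hl' := l.2
    simp only [of_apply, ne_eq, Fin.ext_iff] at hl ⊢
    split_ifs at hl ⊢ <;> first | (simp; done) | (simp at *; done) | (simp at *; omega)
  · simp

end mat

end C1

variable {K : Type} [CommRing K] [Pf p K] {F : Fil p K} {v v' : LV p E h K}

namespace C1

theorem Ua_mul (a b : E → WittVector p K) : Ua h a * Ua h b = Ua h (a + b) := by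
  simp only [Ua, fromBlocks_multiply, Matrix.mul_one, Matrix.mul_zero, Matrix.zero_mul, add_zero,
    zero_add, Matrix.one_mul]
  congr 1
  ext i j : 2
  simp only [Matrix.add_apply, of_apply, Pi.add_apply, map_add, add_comm]

theorem Ua_zero : Ua h (0 : E → WittVector p K) = 1 := by
  rw [Ua, ← fromBlocks_one]
  congr 1
  ext i j : 2
  simp only [of_apply, Pi.zero_apply, map_zero, Matrix.zero_apply]

end C1

namespace Fil

variable {I J : Type} {s t : ℝ} {X Y : Matrix I J (WittVector p K)}

theorem MW.le (hX : F.MW s X) (hs : s ≤ t) : F.MW t X := fun i j => WL_le (hX i j) hs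

theorem MW.si (hX : F.MW t X) : F.MW (t / p) (X.map (si p K)) := fun i j => WS_si (hX i j)

theorem MW.add (hX : F.MW t X) (hY : F.MW t Y) : F.MW t (X + Y) :=
  fun i j => add_mem (hX i j) (hY i j)

theorem MW.sub (hX : F.MW t X) (hY : F.MW t Y) : F.MW t (X - Y) :=
  fun i j => sub_mem (hX i j) (hY i j)

theorem MW.zero : F.MW t (0 : Matrix I J (WittVector p K)) := fun _ _ => zero_mem _

theorem MW.one [DecidableEq I] : F.MW 0 (1 : Matrix I I (WittVector p K)) := fun i j => by
  rw [Matrix.one_apply]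
  split_ifs
  exacts [WL_one, zero_mem _]

theorem MW.p_smul : F.MW t ((p : WittVector p K) • X) ↔ F.MW t X :=
  forall₂_congr fun _ _ => WL_p_mul

theorem MW.of_pow (hF : F.Closed) {b : ℝ} (hX : ∀ k : ℕ, F.MW (b / p ^ k) X) : F.MW 0 X :=
  fun i j => mem_WL.2 fun l => hF.of_pow (b := p ^ l * b) fun k =>
    F.mono (by rw [mul_zero, zero_add, mul_div_assoc]) (mem_WL.1 (hX k i j) l)

theorem MW.step (hF : F.Closed) (hX : F.MW t X) (e : ∀ s, F.MW s X → F.MW (s / p) X) :
    F.MW 0 X := by
  refine MW.of_pow hF (b := t) fun k => ?_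
  induction k with
  | zero => simpa using hX
  | succ k ih => simpa only [div_div, ← pow_succ] using e _ ih

/-- the contraction argument -/
theorem MW.contr (hF : F.Closed) [Fintype I] [Fintype J] {A : Matrix I I (WittVector p K)}
    {B : Matrix J J (WittVector p K)} (hA : F.MW 0 A) (hB : F.MW 0 B) (hX : F.MW t X)
    (e : (p : WittVector p K) • X = A * X.map (P261.si p K) * B) : F.MW 0 X :=
  MW.step hF hX fun s hs => by
    have := (hA.mul hs.si).mul hB
    rw [← e, zero_add, add_zero] at this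
    exact MW.p_smul.1 this

theorem MW.coeff (hX : F.MW 0 X) (i : I) (j : J) : (X i j).coeff 0 ∈ F.F 0 := by
  simpa using mem_WL.1 (hX i j) 0

end Fil

namespace C1

omit [Fintype E] in
theorem Ua_mem {a : E → WittVector p K} {t : ℝ} (ht : 0 ≤ t) (ha : ∀ i, a i ∈ F.WL t) :
    F.MW t (Ua h a) := by
  rintro (i | i) (j | j)
  · exact Fil.WL_le (Fil.MW.one i j) ht
  · exact Fil.WL_le (Fil.WS_si_pow (ha i) j)
      (div_le_self ht (one_le_pow₀ (by linarith [two_le_p (p := p)])))
  · exact zero_mem _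
  · exact Fil.WL_le (Fil.MW.one i j) ht

theorem map_si_inv {I : Type} [Fintype I] [DecidableEq I] {X Y : Matrix I I (WittVector p K)}
    (e : X * Y = 1) : X.map (si p K) * Y.map (si p K) = 1 := by
  rw [← Matrix.map_mul, e, Matrix.map_one _ (map_zero _) (map_one _)]

theorem p_smul_eq (hv : v.μ * v.ν = 1) (hv' : v'.μ * v'.ν = 1) :
    (p : WittVector p K) • (v.ν * v'.μ) = v.mA * (v.ν * v'.μ).map (si p K) * v'.mB := by
  simp only [LV.mA, LV.mB, Matrix.map_mul, Matrix.mul_assoc]
  rw [← Matrix.mul_assoc (v'.μ.map _), map_si_inv hv', Matrix.one_mul,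
    ← Matrix.mul_assoc (v.μ.map _), map_si_inv hv, Matrix.one_mul, ← Matrix.mul_assoc (V0 p E h _),
    V0_mul_B0, Matrix.smul_mul, Matrix.one_mul, Matrix.mul_smul]

omit [Fintype E] in
theorem V0_mem : F.MW 0 (V0 p E h (WittVector p K)) := by
  rintro (i | i) (j | j)
  · exact Fil.MW.one i j
  · exact zero_mem _
  · exact zero_mem _
  · simp only [V0, fromBlocks_apply₂₂, of_apply]
    split_ifs
    exacts [Fil.WL_one, nat_mem F p, zero_mem _]

omit [Fintype E] in
theorem B0_mem : F.MW 0 (B0 p E h (WittVector p K)) := by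
  rintro (i | i) (j | j)
  · exact Fil.MW.p_smul.2 Fil.MW.one i j
  · exact zero_mem _
  · exact zero_mem _
  · simp only [B0, fromBlocks_apply₂₂, of_apply]
    split_ifs
    exacts [nat_mem F p, Fil.WL_one, zero_mem _]

theorem si_pow_mulVec {ρ : Type} {π : Matrix ρ E (WittVector p K)} (hπ : π.map (si p K) = π)
    (a : E → WittVector p K) (j : ℕ) (r : ρ) :
    (si p K ^ j) ((π *ᵥ a) r) = ∑ e, π r e * (si p K ^ j) (a e) := by
  have h1 : ∀ e, (si p K ^ j) (π r e) = π r e := fun e => by
    induction j with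
    | zero => rfl
    | succ j ih =>
      rw [pow_succ', RingHom.mul_def, RingHom.comp_apply, ih]
      exact congrFun (congrFun hπ r) e
  simp only [mulVec, dotProduct, map_sum, map_mul, h1]

/-- two lattices with compatible lifts are compatible -/
theorem okz : OKZ p := by
  intro E _ _ h K _ _ F v v' hF hv hv' ha
  refine ⟨ha, fun _ _ => Fil.MW.contr hF hv.hA hv'.hB (t := 3 + 1 + 3) ?_
    (p_smul_eq hv.inv hv'.inv)⟩
  have h1 : F.MW 1 (Ua h (v'.a - v.a)) := Ua_mem zero_le_one fun i => by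
    rw [← neg_sub]
    exact neg_mem (ha i)
  have := (hv.b2.mul h1).mul hv'.b1
  rwa [Matrix.mul_assoc v.ν, Ua_mul, Matrix.mul_assoc, ← Matrix.mul_assoc (Ua h _), Ua_mul,
    show v.a + (v'.a - v.a) + -v'.a = 0 by ring, Ua_zero, Matrix.one_mul] at this

/-- bounded fixed projections are integral -/
theorem pin : PIN p := by
  intro E ρ _ _ h K _ _ F v π hF hv hπ h0 h1
  have h2 : F.MW 1 (fromCols π (0 : Matrix ρ (Fin h) (WittVector p K)) * Ua h v.a) := by
    rw [Ua, fromCols_mul_fromBlocks]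
    simp only [Matrix.mul_one, Matrix.zero_mul, add_zero]
    rintro r (e | j)
    · exact Fil.WL_le (h0 r e) zero_le_one
    · have := Fil.WS_si_pow (h1 r) j
      rw [si_pow_mulVec hπ] at this
      exact Fil.WL_le this (div_le_self zero_le_one (one_le_pow₀ (by linarith [two_le_p (p := p)])))
  have h3 := h2.mul hv.b1
  rw [Matrix.mul_assoc, ← Matrix.mul_assoc (Ua h _), Ua_mul, add_neg_cancel, Ua_zero,
    Matrix.one_mul] at h3
  refine Fil.MW.step hF h3 fun s hs => Fil.MW.p_smul.1 ?_
  have h4 := hs.si.mul hv.hB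
  have h5 : (fromCols π (0 : Matrix ρ (Fin h) (WittVector p K))).map (si p K) = fromCols π 0 := by
    rw [fromCols_map, hπ, Matrix.map_zero _ (map_zero _)]
  have h6 : fromCols π (0 : Matrix ρ (Fin h) (WittVector p K)) * B0 p E h (WittVector p K) =
      (p : WittVector p K) • fromCols π 0 := by
    rw [B0, fromCols_mul_fromBlocks]
    ext r (e | j) : 2 <;> simp
  simp only [LV.mB, Matrix.map_mul, Matrix.mul_assoc] at h4
  rwa [← Matrix.mul_assoc (v.μ.map _), map_si_inv hv.inv, Matrix.one_mul, h5, ← Matrix.mul_assoc, h6,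
    Matrix.smul_mul, add_zero] at h4

theorem ui_single (v : LV p E h K) {U : Sbs p E} {l : E → ZMod p} {i : E ⊕ Fin h} {y : K}
    (hl : l ∈ U) (hy : y ∈ F.F 0) (e : v.eb l i * y = 1) : UI F v U := by
  classical
  refine ⟨fun l' i' => if l' = l then if i' = i then y else 0 else 0, fun l' i' => ?_,
    fun l' i' h1 => if_neg fun h2 : l' = l => h1 (h2 ▸ hl), ?_⟩
  · beta_reduce
    split_ifs
    exacts [hy, zero_mem _, zero_mem _]
  · rw [Finset.sum_eq_single l (fun b _ hb => by simp [hb]) (by simp)]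
    simp only [if_true, ite_mul, zero_mul, Finset.sum_ite_eq', Finset.mem_univ]
    rw [mul_comm, e]

theorem eb_change {u : LV p E h K} (hv : v.μ * v.ν = 1) (l : E → ZMod p) (i : E ⊕ Fin h) :
    u.eb l i = ∑ j, ((u.ν * v.μ) i j).coeff 0 * v.eb l j := by
  have h1 : ∀ e, (u.ν i (Sum.inl e)).coeff 0 =
      ∑ j, ((u.ν * v.μ) i j).coeff 0 * (v.ν j (Sum.inl e)).coeff 0 := fun e => by
    conv_lhs => rw [← Matrix.mul_one u.ν, ← hv, ← Matrix.mul_assoc, Matrix.mul_apply]
    exact (map_sum (WittVector.constantCoeff : WittVector p K →+* K) _ _).trans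
      (Finset.sum_congr rfl fun j _ => WittVector.mul_coeff_zero _ _)
  simp only [LV.eb, h1, Finset.mul_sum]
  rw [Finset.sum_comm]
  exact Finset.sum_congr rfl fun j _ => Finset.sum_congr rfl fun e _ => mul_left_comm _ _ _

/-- linear forms -/
theorem forms : FORMS p := by
  intro E _ _ h K _ _ F
  refine ⟨fun v 𝒰 hv U hU => ⟨v.φ U, hv.mem U, fun l i hl => hv.zero U l i (Or.inr hl),
    hv.one U hU⟩, fun v 𝒰 hv hU => ?_, fun v u U hv hu ho ⟨φ, h1, h2, h3⟩ => ?_,
    fun v U l i y => ui_single v, ?_⟩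
  · classical
    choose φ h1 h2 h3 using hU
    refine ⟨{ v with φ := fun U => if hU : U ∈ 𝒰 then φ U hU else 0, ix := 0 },
      ⟨hv.isA, hv.lat, hv.inv, hv.hA, hv.hB, hv.b1, hv.b2⟩, ⟨fun U l i => ?_, fun U l i hl => ?_,
      fun U hU => ?_⟩, rfl, rfl⟩
    · dsimp only
      split_ifs with hU
      exacts [h1 U hU l i, zero_mem _]
    · dsimp only
      split_ifs with hU
      exacts [h2 U hU l i (hl.resolve_left (not_not.2 hU)), rfl]
    · dsimp only
      rw [dif_pos hU]
      exact h3 U hU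
  · have hg := ho.lat hu.lat hv.lat
    refine ⟨fun l j => ∑ i, φ l i * ((u.ν * v.μ) i j).coeff 0, fun l j => sum_mem fun i _ =>
      Fil.mul_le (h1 l i) (hg.coeff i j) (add_zero _).le, fun l j hl =>
      Finset.sum_eq_zero fun i _ => by rw [h2 l i hl, zero_mul], ?_⟩
    rw [← h3]
    refine Finset.sum_congr rfl fun l _ => ?_
    simp only [eb_change (u := u) hv.inv l, Finset.mul_sum, Finset.sum_mul, mul_assoc]
    exact Finset.sum_comm
  · have h1 : (1 : Matrix (E ⊕ Fin h) (E ⊕ Fin h) (WittVector p K)).map (si p K) = 1 :=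
      Matrix.map_one _ (map_zero _) (map_one _)
    refine ⟨⟨0, true, 1, 1, 0, 0⟩, ⟨fun i => ?_, rfl, Matrix.one_mul _, ?_, ?_, ?_, ?_⟩, rfl,
      fun U hU => ?_⟩
    · show Dop p K h 0 ∈ _
      rw [map_zero]
      exact zero_mem _
    · rw [LV.mA, h1, Matrix.one_mul, Matrix.mul_one]
      exact V0_mem
    · rw [LV.mB, h1, Matrix.one_mul, Matrix.mul_one]
      exact B0_mem
    · rw [neg_zero, Ua_zero, Matrix.one_mul]
      exact Fil.MW.one.le (by norm_num)
    · rw [Ua_zero, Matrix.one_mul]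
      exact Fil.MW.one.le (by norm_num)
    · obtain ⟨l, hl, h0⟩ := (Submodule.ne_bot_iff U).1 hU
      obtain ⟨e, he⟩ := Function.ne_iff.1 h0
      refine ui_single _ (i := Sum.inl e) hl (zc_mem F (l e)⁻¹) ?_
      rw [eb_eq, Finset.sum_eq_single e (fun b _ hb => by
        simp [Matrix.one_apply_ne, hb.symm]) (by simp)]
      simpa using zc_mul_inv (K := K) he

end C1

end P261
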