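import Vale.Agent.P261Z.C1.Defs
import Vale.Agent.P261Z.S.CF

/-!
# P261Z, block C1: the system of projections and lattices; the inputs from block S
-/

noncomputable section

open Matrix

namespace P261.C1

variable {p : ℕ} [hp : Fact p.Prime] {k : Type} [Field k]

/-- vertices: a projection, a lattice, or a projection with a lattice in the kernel -/
inductive VP (p : ℕ) [Fact p.Prime] (E E' ρ : Type) (h : ℕ) (K : Type) [CommRing K]
  | lam (l : Matrix ρ E' (WittVector p K))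
  | pos (v : LV p E h K)
  | par (l : Matrix ρ E' (WittVector p K)) (v : LV p E' h K)

variable {E E' ρ : Type} [Fintype E] [DecidableEq E] [Fintype E'] [DecidableEq E'] [Fintype ρ]
  [DecidableEq ρ] {L : Sbs p E} {h : ℕ}

namespace VP

variable {K K' : Type} [CommRing K] [CommRing K']

/-- change of rings -/
def map (f : K →+* K') : VP p E E' ρ h K → VP p E E' ρ h K'
  | lam l => lam (l.map (wm p f))
  | pos v => pos (v.map f)
  | par l v => par (l.map (wm p f)) (v.map f)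

/-- there is a projection -/
def HasL : VP p E E' ρ h K → Prop
  | lam _ => True
  | pos _ => False
  | par _ _ => True

/-- there is a position -/
def HasA : VP p E E' ρ h K → Prop
  | lam _ => False
  | pos _ => True
  | par _ _ => True

/-- the projection -/
def l : VP p E E' ρ h K → Matrix ρ E' (WittVector p K)
  | lam l => l
  | pos _ => 0
  | par l _ => l

/-- the position -/
def a (S : Spl L E' ρ) : VP p E E' ρ h K → E → WittVector p K
  | lam _ => 0
  | pos v => v.a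
  | par l v => S.eta l *ᵥ v.a

/-- the scalars -/
def sc [Pf p K] (s : ℕ) : VP p E E' ρ h K → VP p E E' ρ h K
  | lam l => lam l
  | pos v => pos (v.sc' s)
  | par l v => par l (v.sc' s)

/-- compatibility -/
structure Ok (S : Spl L E' ρ) (F : Fil p K) (x y : VP p E E' ρ h K) : Prop where
  aa : x.HasA → y.HasA → W1 F (x.a S - y.a S)
  la : x.HasL → y.HasA → W1 F (S.pi x.l *ᵥ y.a S)
  al : y.HasL → x.HasA → W1 F (S.pi y.l *ᵥ x.a S)
  ll : x.HasL → y.HasL → x.HasA ∨ y.HasA → x.l = y.l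

omit [Fintype E] [DecidableEq E] [Fintype E'] [DecidableEq E'] [Fintype ρ] [DecidableEq ρ] in
theorem hasL_map (f : K →+* K') (x : VP p E E' ρ h K) : (x.map f).HasL ↔ x.HasL := by
  cases x <;> exact Iff.rfl

omit [Fintype E] [DecidableEq E] [Fintype E'] [DecidableEq E'] [Fintype ρ] [DecidableEq ρ] in
theorem hasA_map (f : K →+* K') (x : VP p E E' ρ h K) : (x.map f).HasA ↔ x.HasA := by
  cases x <;> exact Iff.rfl

omit [Fintype E] [DecidableEq E] [Fintype E'] [DecidableEq E'] [Fintype ρ] [DecidableEq ρ] in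
theorem l_map (f : K →+* K') (x : VP p E E' ρ h K) : (x.map f).l = x.l.map (wm p f) := by
  cases x
  · rfl
  · exact (Matrix.map_zero _ (map_zero _)).symm
  · rfl

end VP

section alg

variable {A B : Type} [CommRing A] [CommRing B]

theorem ci_map (f : A →+* B) {I J : Type} (M : Matrix I J ℤ) : (ci A M).map f = ci B M :=
  Matrix.ext fun i j => map_intCast f (M i j)

theorem Spl.pi_map (S : Spl L E' ρ) (f : A →+* B) (lam : Matrix ρ E' A) :
    (S.pi lam).map f = S.pi (lam.map f) := by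
  rw [Spl.pi, Spl.pi, Matrix.map_add _ (map_add f), Matrix.map_mul, ci_map, ci_map]

theorem Spl.eta_map (S : Spl L E' ρ) (f : A →+* B) (lam : Matrix ρ E' A) :
    (S.eta lam).map f = S.eta (lam.map f) := by
  rw [Spl.eta, Spl.eta, Matrix.map_sub _ (map_sub f), Matrix.map_mul, ci_map, ci_map]

theorem mulVec_map (f : A →+* B) {I J : Type} [Fintype J] (M : Matrix I J A) (x : J → A) :
    (fun i => f ((M *ᵥ x) i)) = M.map f *ᵥ fun j => f (x j) :=
  funext fun i => RingHom.map_mulVec f M x i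

end alg

namespace VP

variable {K K' : Type} [CommRing K] [CommRing K'] (S : Spl L E' ρ)

theorem a_map (f : K →+* K') (x : VP p E E' ρ h K) :
    (x.map f).a S = fun e => wm p f (x.a S e) := by
  cases x
  · exact funext fun _ => (map_zero _).symm
  · rfl
  · rw [a, mulVec_map, Spl.eta_map]
    rfl

variable [Pf p K]

omit [Fintype ρ] [DecidableEq ρ] in
theorem hasL_sc (s : ℕ) (x : VP p E E' ρ h K) : (x.sc s).HasL ↔ x.HasL := by
  cases x <;> exact Iff.rfl

omit [Fintype ρ] [DecidableEq ρ] in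
theorem hasA_sc (s : ℕ) (x : VP p E E' ρ h K) : (x.sc s).HasA ↔ x.HasA := by
  cases x <;> exact Iff.rfl

omit [Fintype ρ] [DecidableEq ρ] in
theorem l_sc (s : ℕ) (x : VP p E E' ρ h K) : (x.sc s).l = x.l := by
  cases x <;> rfl

end VP

/-- the scalar by which a natural number acts -/
def sN (p s : ℕ) : ℕ := if s % p = 1 then s else 1

theorem sc'_a {K : Type} [CommRing K] [Pf p K] (s : ℕ) (v : LV p E h K) :
    (v.sc' s).a = (sN p s : WittVector p K) • v.a := by
  unfold LV.sc' sN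
  split_ifs
  · rfl
  · rw [Nat.cast_one, one_smul]

theorem VP.a_sc {K : Type} [CommRing K] [Pf p K] (S : Spl L E' ρ) (s : ℕ) (x : VP p E E' ρ h K) :
    (x.sc s).a S = (sN p s : WittVector p K) • x.a S := by
  cases x
  · exact (smul_zero _).symm
  · exact sc'_a s _
  · rw [VP.sc, VP.a, VP.a, sc'_a, Matrix.mulVec_smul]

theorem W1.map {T T' : FP p k} (φ : T.Hom T') {I : Type} {x : I → T.W} (hx : W1 T.F x) :
    W1 T'.F fun i => φ.w (x i) := fun i => φ.wl (hx i)

theorem W1.nat {K : Type} [CommRing K] {F : Fil p K} {I : Type} {x : I → WittVector p K}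
    (hx : W1 F x) (n : ℕ) : W1 F ((n : WittVector p K) • x) := fun i =>
  Fil.WS_mul_zero (Fil.WL_natCast n) (hx i)

theorem VP.Ok.map {S : Spl L E' ρ} {T T' : FP p k} (φ : T.Hom T') {x y : VP p E E' ρ h T.K}
    (H : VP.Ok S T.F x y) : VP.Ok S T'.F (x.map φ.r) (y.map φ.r) where
  aa h1 h2 := by
    rw [VP.a_map, VP.a_map]
    intro i
    have := (H.aa ((VP.hasA_map _ _).1 h1) ((VP.hasA_map _ _).1 h2)).map φ i
    simpa only [Pi.sub_apply, map_sub] using this
  la h1 h2 := by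
    have := (H.la ((VP.hasL_map _ _).1 h1) ((VP.hasA_map _ _).1 h2)).map φ
    rwa [mulVec_map, Spl.pi_map, ← VP.l_map, ← VP.a_map] at this
  al h1 h2 := by
    have := (H.al ((VP.hasL_map _ _).1 h1) ((VP.hasA_map _ _).1 h2)).map φ
    rwa [mulVec_map, Spl.pi_map, ← VP.l_map, ← VP.a_map] at this
  ll h1 h2 h3 := by
    rw [VP.l_map, VP.l_map, H.ll ((VP.hasL_map _ _).1 h1) ((VP.hasL_map _ _).1 h2)
      (h3.imp (VP.hasA_map _ _).1 (VP.hasA_map _ _).1)]

theorem VP.Ok.sc {S : Spl L E' ρ} {K : Type} [CommRing K] [Pf p K] {F : Fil p K} (s : ℕ)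
    {x y : VP p E E' ρ h K} (H : VP.Ok S F x y) : VP.Ok S F (x.sc s) (y.sc s) where
  aa h1 h2 := by
    rw [VP.a_sc, VP.a_sc, ← smul_sub]
    exact (H.aa ((VP.hasA_sc _ _).1 h1) ((VP.hasA_sc _ _).1 h2)).nat _
  la h1 h2 := by
    rw [VP.a_sc, VP.l_sc, Matrix.mulVec_smul]
    exact (H.la ((VP.hasL_sc _ _).1 h1) ((VP.hasA_sc _ _).1 h2)).nat _
  al h1 h2 := by
    rw [VP.a_sc, VP.l_sc, Matrix.mulVec_smul]
    exact (H.al ((VP.hasL_sc _ _).1 h1) ((VP.hasA_sc _ _).1 h2)).nat _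
  ll h1 h2 h3 := by
    rw [VP.l_sc, VP.l_sc, H.ll ((VP.hasL_sc _ _).1 h1) ((VP.hasL_sc _ _).1 h2)
      (h3.imp (VP.hasA_sc _ _).1 (VP.hasA_sc _ _).1)]

theorem IsLam.map {T T' : FP p k} (φ : T.Hom T') {I J : Type} {lam : Matrix I J T.W}
    (H : IsLam T.F lam) : IsLam T'.F (lam.map φ.w) where
  fix := by rw [← map_si_map, H.fix]
  mem := H.mem.map φ
  zero i j := by
    show φ.r ((lam i j).coeff 0) = 0
    rw [H.zero, map_zero]

variable (p k E E' ρ h) in
/-- the functor of vertices -/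
def VPF : PF p k where
  obj T := VP p E E' ρ h T.K
  map φ v := v.map φ.r
  map_id _ v := by cases v <;> rfl
  map_comp _ _ v := by cases v <;> rfl

variable (h) in
/-- the system -/
def SP (S : Spl L E' ρ) (X : PF p k) : Sys p k where
  X := X
  V := VPF p k E E' ρ h
  ok1 _ _ := True
  ok2 {T} v v' := VP.Ok S T.F v v'
  ok1_map _ _ _ _ := trivial
  ok2_map φ _ _ hv := hv.map φ

variable (h) in
/-- the operators -/
def pact (S : Spl L E' ρ) (X : PF p k) : (SP h S X).Act where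
  e s :=
    { f := fun v => VP.sc s v
      map := fun φ v => by
        cases v
        · rfl
        · exact congrArg VP.pos (LV.sc'_map φ.r)
        · exact congrArg (VP.par _) (LV.sc'_map φ.r)
      ok1 := fun _ => trivial
      ok2 := fun hv => VP.Ok.sc s hv }
  one _ v := by
    cases v
    · rfl
    · exact congrArg VP.pos LV.sc'_one
    · exact congrArg (VP.par _) LV.sc'_one
  mul _ _ hs ht _ v := by
    cases v
    · rfl
    · exact congrArg VP.pos (LV.sc'_mul hs ht)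
    · exact congrArg (VP.par _) (LV.sc'_mul hs ht)

variable (p k E E' ρ h) in
/-- projections -/
def cL : Col (VPF p k E E' ρ h) where
  P {T} x := ∃ l, x = VP.lam l ∧ IsLam T.F l
  map φ _ := fun ⟨_, e, H⟩ => ⟨_, e ▸ rfl, H.map φ⟩

variable (k E' ρ h) in
/-- lattices -/
def cP (𝒰 : Set (Sbs p E)) : Col (VPF p k E E' ρ h) where
  P x := ∃ v, x = VP.pos v ∧ (cJ k h 𝒰).P v
  map φ _ := fun ⟨_, e, H⟩ => ⟨_, e ▸ rfl, (cJ k h 𝒰).map φ H⟩

variable (k E ρ h) in
/-- lattices in the kernel of a projection -/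
def cR (𝒰 : Set (Sbs p E')) : Col (VPF p k E E' ρ h) where
  P {T} x := ∃ l v, x = VP.par l v ∧ IsLam T.F l ∧ (cJ k h 𝒰).P v
  map φ _ := fun ⟨_, _, e, H, H'⟩ => ⟨_, _, e ▸ rfl, H.map φ, (cJ k h 𝒰).map φ H'⟩

/-- the directions -/
inductive D5
  | l
  | P
  | Q
  | Z
  | J
  deriving DecidableEq

/-- a family indexed by the directions -/
def d5 {α : Sort*} (a b c d e : α) : D5 → α
  | .l => a
  | .P => b
  | .Q => c
  | .Z => d
  | .J => e

instance : Finite D5 := Finite.of_surjective (![.l, .P, .Q, .Z, .J] : Fin 5 → D5) fun c => by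
  cases c
  exacts [⟨0, rfl⟩, ⟨1, rfl⟩, ⟨2, rfl⟩, ⟨3, rfl⟩, ⟨4, rfl⟩]

variable (k E' ρ h) in
/-- the colours -/
def c5 (L : Sbs p E) (𝒰 : Set (Sbs p E)) : D5 → Col (VPF p k E E' ρ h) :=
  d5 (cL p k E E' ρ h) (cP k E' ρ h 𝒰) (cP k E' ρ h (insert L 𝒰)) (cR k E ρ h ∅) (cR k E ρ h {⊤})

theorem stab_c5 (S : Spl L E' ρ) (X : PF p k) (𝒰 : Set (Sbs p E)) (c : D5) :
    (pact h S X).Stab (c5 k E' ρ h L 𝒰 c) := by
  intro s T v hv
  cases c
  · obtain ⟨l, rfl, H⟩ := hv
    exact ⟨l, rfl, H⟩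
  · obtain ⟨v, rfl, H⟩ := hv
    exact ⟨_, rfl, stab_cJ X _ s T v H⟩
  · obtain ⟨v, rfl, H⟩ := hv
    exact ⟨_, rfl, stab_cJ X _ s T v H⟩
  · obtain ⟨l, v, rfl, H, H'⟩ := hv
    exact ⟨l, _, rfl, H, stab_cJ X _ s T v H'⟩
  · obtain ⟨l, v, rfl, H, H'⟩ := hv
    exact ⟨l, _, rfl, H, stab_cJ X _ s T v H'⟩

variable (h) in
/-- the filtered complexes -/
@[reducible] def PFA (S : Spl L E' ρ) (X : PF p k) (𝒰 : Set (Sbs p E)) (md : D5 → Mode) :
    FA.{1} p k := (SP h S X).fa (pact h S X) (c5 k E' ρ h L 𝒰) md (stab_c5 S X 𝒰)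

/-- a vertex in a direction of `R` which is compatible with the configuration `z` and with all the
vertices in the directions of `R` which are compatible with `z` -/
def Sec (S : Sys p k) {κ : Type} (P : κ → Col S.V) (md : κ → Mode) (R : κ → Prop) (m : ℕ)
    (T : FP p k) (z : S.Conf P md m T) : Prop :=
  ∃ c, R c ∧ ∃ s : S.V.obj T, (P c).P s ∧ (S.mv P md m).ok1 z s ∧ S.ok2 s s ∧
    ∀ (T' : FP p k) (g : T.Hom T') (c' : κ) (u : S.V.obj T'), R c' → (P c').P u →
      (S.mv P md m).ok1 (z.map g) u → S.ok2 (S.V.map g s) u ∧ S.ok2 u (S.V.map g s)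

variable (p k)

/-- block S: two out of three for one direction -/
def TOG : Prop := ∀ (S : Sys p k) (a : S.Act) (κ : Type) (P : κ → Col S.V)
  (h : ∀ c, a.Stab (P c)) (m₀ m₁ m₂ : κ → Mode) (c : κ) (q : ℕ), 1 ≤ q → m₀ c = .off → m₁ c = .on →
  m₂ c = .red → (∀ c', c' ≠ c → m₀ c' = m₁ c' ∧ m₀ c' = m₂ c') →
    ((S.fa a P m₁ h).Good q → (S.fa a P m₂ h).Good q → (S.fa a P m₀ h).Good q) ∧
    ((S.fa a P m₀ h).Good q → (S.fa a P m₂ h).Good q → (S.fa a P m₁ h).Good q) ∧
    ((S.fa a P m₀ h).Good q → (S.fa a P m₁ h).Good q → (S.fa a P m₂ h).Good q)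

/-- block S: local sections give almost acyclic complexes -/
def SECLOC : Prop := ∀ (S : Sys p k) (κ : Type) (P : κ → Col S.V) (md : κ → Mode) (R : κ → Prop)
  [DecidablePred R], S.Rp P → (∀ c, R c → md c = .red) →
  (∀ (m : ℕ) (T : FP p k) (z : S.Conf P (Sys.drop md R) (m + 1) T), T.F.Exh →
    FLoc T fun T' f => Sec S P (Sys.drop md R) R (m + 1) T' (z.map f)) → S.AAc P md

/-- the system of lattices is representable -/
def RPL : Prop := ∀ (E : Type) [Fintype E] [DecidableEq E] (h : ℕ) (B : Type) [CommRing B]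
  [Algebra k B] [Pf p B] (κ : Type) [Finite κ] (𝒰 : κ → Set (Sbs p E)), 1 ≤ h →
  (LS p k E h (PF.base p k B)).Rp fun c => cJ k h (𝒰 c)

/-- the system of projections and lattices is representable -/
def RPP : Prop := ∀ (E E' ρ : Type) [Fintype E] [DecidableEq E] [Fintype E'] [DecidableEq E']
  [Fintype ρ] [DecidableEq ρ] (L : Sbs p E) (S : Spl L E' ρ) (h : ℕ) (B : Type) [CommRing B]
  [Algebra k B] [Pf p B] (𝒰 : Set (Sbs p E)), 1 ≤ h →
  (SP h S (PF.base p k B)).Rp (c5 k E' ρ h L 𝒰)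

/-- completions of perfect rings -/
def CPL : Prop := ∀ (C ι : Type) [CommRing C] [Pf p C] [Finite ι] (g : ι → C),
  ∃ (D : Type) (_ : CommRing D) (_ : Algebra C D) (_ : Pf p D),
    IsAdicComplete ((Ideal.span (Set.range g)).map (algebraMap C D)) D ∧
    (∀ d : D, ∃ c : C, d - algebraMap C D c ∈ (Ideal.span (Set.range g)).map (algebraMap C D)) ∧
    ∀ c : C, algebraMap C D c ∈ (Ideal.span (Set.range g)).map (algebraMap C D) →
      c ∈ Ideal.span (Set.range g)

/-- the first retraction -/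
def RET0 : Prop := ∀ (E E' ρ : Type) [Fintype E] [DecidableEq E] [Fintype E'] [DecidableEq E']
  [Fintype ρ] [DecidableEq ρ] (L : Sbs p E) (S : Spl L E' ρ) (h : ℕ) (X : PF p k)
  (𝒰 : Set (Sbs p E)) (q : ℕ), (PFA h S X 𝒰 (d5 .off .on .red .off .off)).Good q →
    (LF2 X (sJ k h 𝒰) (sJ k h (insert L 𝒰)) .on .red).Good q

/-- the second retraction -/
def RET6 : Prop := ∀ (E E' ρ : Type) [Fintype E] [DecidableEq E] [Fintype E'] [DecidableEq E']
  [Fintype ρ] [DecidableEq ρ] (L : Sbs p E) (S : Spl L E' ρ) (h : ℕ) (B : Type) [CommRing B]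
  [Algebra k B] [Pf p B] (𝒰 : Set (Sbs p E)) (q : ℕ),
  (∀ (B₁ : Type) [CommRing B₁] [Algebra k B₁] [Pf p B₁],
    (LF2 (PF.base p k B₁) (sZ p k E' h) (sJ k h {⊤}) .on .red).Good q) →
  (PFA h S (PF.base p k B) 𝒰 (d5 .off .off .off .on .red)).Good q

/-- empty directions can be removed -/
def REIDX : Prop := ∀ (E : Type) [Fintype E] [DecidableEq E] (h : ℕ) (X : PF p k)
  (c c' : SC p k E h) (m : Mode) (q : ℕ),
  ((LF1 X c m).Good q ↔ (LF2 X c c' m .off).Good q) ∧
    ((LF1 X c' m).Good q ↔ (LF2 X c c' .off m).Good q)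

end P261.C1
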