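import Vale.Agent.P261Z.C1.Defs

/-!
# P261Z, block C1: the block lattice
-/

set_option linter.unusedSectionVars false

noncomputable section

open Matrix

namespace P261.C1

variable {p : ℕ} [hp : Fact p.Prime]

namespace Blk

variable {E E' ρ : Type} [Fintype E] [DecidableEq E] [Fintype E'] [DecidableEq E'] [Fintype ρ]
  [DecidableEq ρ] {h : ℕ} {K : Type} [CommRing K] [Pf p K] {F : Fil p K}

/-! ### residues as elements of `K` -/

variable (p K) in
/-- the map from the prime field -/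
def zc : ZMod p →+* K :=
  (Int.castRingHom (ZMod p)).liftOfSurjective ZMod.intCast_surjective
    ⟨Int.castRingHom K, fun n hn => by
      obtain ⟨m, rfl⟩ := (ZMod.intCast_zmod_eq_zero_iff_dvd n p).1 hn
      rw [RingHom.mem_ker, map_mul, map_natCast, Ch.char (p := p) (K := K), zero_mul]⟩

theorem zc_val (x : ZMod p) : ((x.val : ℕ) : K) = zc p K x := by
  conv_rhs => rw [← ZMod.natCast_zmod_val x]
  rw [map_natCast]

theorem zc_mem (x : ZMod p) : zc p K x ∈ F.F 0 := by
  rw [← zc_val]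
  exact natCast_mem F.zero _

theorem eb_eq (v : LV p E h K) (l : E → ZMod p) (i : E ⊕ Fin h) :
    v.eb l i = ∑ e, zc p K (l e) * WittVector.constantCoeff (v.ν i (Sum.inl e)) := by
  simp only [LV.eb, zc_val]
  rfl

theorem ui_iff (v : LV p E h K) (U : Sbs p E) :
    UI F v U ↔ (1 : K) ∈ Submodule.span F.zero {x | ∃ l ∈ U, ∃ i, x = v.eb l i} := by
  classical
  constructor
  · rintro ⟨φ, h1, h2, h3⟩
    rw [← h3]
    refine sum_mem fun l _ => sum_mem fun i _ => ?_
    by_cases hl : l ∈ U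
    · exact Submodule.smul_mem _ (⟨φ l i, h1 l i⟩ : F.zero)
        (Submodule.subset_span ⟨l, hl, i, rfl⟩)
    · rw [h2 l i hl, zero_mul]
      exact zero_mem _
  · intro h1
    refine Submodule.span_induction (p := fun x _ => ∃ φ : (E → ZMod p) → E ⊕ Fin h → K,
      (∀ l i, φ l i ∈ F.F 0) ∧ (∀ l i, l ∉ U → φ l i = 0) ∧
        ∑ l, ∑ i, φ l i * v.eb l i = x) ?_ ?_ ?_ ?_ h1
    · rintro _ ⟨l, hl, i, rfl⟩
      refine ⟨fun l' i' => if l' = l then (if i' = i then 1 else 0) else 0, fun l' i' => ?_,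
        fun l' i' hl' => if_neg fun e : l' = l => hl' (e ▸ hl), ?_⟩
      · dsimp only
        split_ifs
        exacts [F.one_mem, zero_mem _, zero_mem _]
      · rw [Finset.sum_eq_single l (fun l' _ e => by simp [e]) (by simp)]
        simp
    · exact ⟨0, fun _ _ => zero_mem _, fun _ _ _ => rfl, by simp⟩
    · rintro x y _ _ ⟨φ, a1, a2, rfl⟩ ⟨ψ, b1, b2, rfl⟩
      refine ⟨φ + ψ, fun l i => add_mem (a1 l i) (b1 l i), fun l i hl => ?_, ?_⟩
      · rw [Pi.add_apply, Pi.add_apply, a2 l i hl, b2 l i hl, add_zero]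
      · simp only [Pi.add_apply, add_mul, Finset.sum_add_distrib]
    · rintro c x _ ⟨φ, a1, a2, rfl⟩
      refine ⟨fun l i => c * φ l i, fun l i => F.zero.mul_mem c.2 (a1 l i), fun l i hl => ?_, ?_⟩
      · dsimp only
        rw [a2 l i hl, mul_zero]
      · simp only [Subring.smul_def, smul_eq_mul, Finset.mul_sum, mul_assoc]

/-! ### weights of block matrices -/

section mw

variable {I J M N : Type} {t : ℝ}

theorem mw_zero : F.MW t (0 : Matrix I J (WittVector p K)) := fun _ _ => zero_mem _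

theorem mw_one [DecidableEq I] : F.MW 0 (1 : Matrix I I (WittVector p K)) := fun i j => by
  rw [Matrix.one_apply]
  split_ifs
  exacts [F.WL_one, zero_mem _]

theorem mw_ci (X : Matrix I J ℤ) : F.MW 0 (ci (WittVector p K) X) := fun i j =>
  Fil.WL_intCast (X i j)

theorem mw_le {s : ℝ} {X : Matrix I J (WittVector p K)} (hX : F.MW s X) (hs : s ≤ t) :
    F.MW t X := fun i j => Fil.WL_le (hX i j) hs

theorem mw_blocks {A : Matrix I M (WittVector p K)} {B : Matrix I N (WittVector p K)}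
    {C : Matrix J M (WittVector p K)} {D : Matrix J N (WittVector p K)} (hA : F.MW t A)
    (hB : F.MW t B) (hC : F.MW t C) (hD : F.MW t D) : F.MW t (fromBlocks A B C D) := by
  rintro (i | i) (j | j)
  exacts [hA i j, hB i j, hC i j, hD i j]

theorem mw_cols {A : Matrix I M (WittVector p K)} {B : Matrix I N (WittVector p K)}
    (hA : F.MW t A) (hB : F.MW t B) : F.MW t (fromCols A B) := by
  rintro i (j | j)
  exacts [hA i j, hB i j]

theorem mw_rows {A : Matrix I M (WittVector p K)} {B : Matrix J M (WittVector p K)}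
    (hA : F.MW t A) (hB : F.MW t B) : F.MW t (fromRows A B) := by
  rintro (i | i) j
  exacts [hA i j, hB i j]

theorem ci_fix (X : Matrix I J ℤ) :
    (ci (WittVector p K) X).map (si p K) = ci (WittVector p K) X :=
  Matrix.ext fun i j => map_intCast (si p K) (X i j)

theorem fix_pow {G : Matrix I J (WittVector p K)} (hG : G.map (si p K) = G) (n : ℕ) (i : I)
    (j : J) : (si p K ^ n) (G i j) = G i j := by
  induction n with
  | zero => rfl
  | succ n ih =>
    have e : si p K (G i j) = G i j := congrFun (congrFun hG i) j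
    rw [pow_succ, RingHom.mul_def, RingHom.comp_apply, e, ih]

/-- the twists of a vector -/
def Xm (h : ℕ) (x : I → WittVector p K) : Matrix I (Fin h) (WittVector p K) :=
  Matrix.of fun i (j : Fin h) => (si p K ^ (j : ℕ)) (x i)

theorem mul_Xm [Fintype J] {G : Matrix I J (WittVector p K)} (hG : G.map (si p K) = G)
    (x : J → WittVector p K) : G * Xm h x = Xm h (G *ᵥ x) := by
  refine Matrix.ext fun i j => ?_
  simp only [Xm, Matrix.mul_apply, Matrix.of_apply, mulVec, dotProduct, map_sum, map_mul,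
    fix_pow hG]

theorem Xm_zero : Xm h (0 : I → WittVector p K) = 0 :=
  Matrix.ext fun _ j => map_zero (si p K ^ (j : ℕ))

end mw

theorem Ua_eq (a : E → WittVector p K) : Ua h a = fromBlocks 1 (Xm h a) 0 1 := rfl

/-! ### the block lattice -/

/-- a fixed integral decomposition -/
structure Dat (F : Fil p K) (η : Matrix E E' (WittVector p K)) (c : Matrix E' E (WittVector p K))
    (b : Matrix E ρ (WittVector p K)) (π : Matrix ρ E (WittVector p K)) : Prop where
  cη : c * η = 1
  πη : π * η = 0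
  πb : π * b = 1
  cb : c * b = 0
  tot : η * c + b * π = 1
  fη : η.map (si p K) = η
  fc : c.map (si p K) = c
  fb : b.map (si p K) = b
  fπ : π.map (si p K) = π
  mη : F.MW 0 η
  mc : F.MW 0 c
  mb : F.MW 0 b
  mπ : F.MW 0 π

/-- extension by the identity -/
def GG (h : ℕ) {I J A : Type} [CommRing A] (G : Matrix I J A) :
    Matrix (I ⊕ Fin h) (J ⊕ Fin h) A := fromBlocks G 0 0 1

/-- the lattice -/
def lat (e : E ⊕ Fin h ≃ (E' ⊕ Fin h) ⊕ ρ) (η : Matrix E E' (WittVector p K))
    (c : Matrix E' E (WittVector p K)) (b : Matrix E ρ (WittVector p K))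
    (π : Matrix ρ E (WittVector p K)) (v : LV p E' h K) : LV p E h K where
  a := η *ᵥ v.a
  lat := true
  μ := (fromCols (GG h η * v.μ) (fromRows b 0)).submatrix id e
  ν := (fromRows (v.ν * GG h c) (fromCols π 0)).submatrix e id
  φ := 0
  ix := 0

variable {η : Matrix E E' (WittVector p K)} {c : Matrix E' E (WittVector p K)}
  {b : Matrix E ρ (WittVector p K)} {π : Matrix ρ E (WittVector p K)}

theorem GG_fix {I J : Type} {G : Matrix I J (WittVector p K)} (hG : G.map (si p K) = G) :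
    (GG h G).map (si p K) = GG h G := by
  rw [GG, fromBlocks_map, hG, Matrix.map_zero _ (map_zero _), Matrix.map_zero _ (map_zero _),
    Matrix.map_one _ (map_zero _) (map_one _)]

theorem GG_mw {I J : Type} {G : Matrix I J (WittVector p K)} (hG : F.MW 0 G) :
    F.MW 0 (GG h G) := mw_blocks hG mw_zero mw_zero mw_one

theorem Dat.prod (D : Dat F η c b π) (X Y : Matrix (E' ⊕ Fin h) (E' ⊕ Fin h) (WittVector p K))
    (s : WittVector p K) :
    fromRows (X * GG h c) (fromCols π 0) * fromCols (GG h η * Y) (s • fromRows b 0) =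
      fromBlocks (X * Y) 0 0 (s • 1) := by
  have h1 : GG h c * GG h η = 1 := by simp [GG, fromBlocks_multiply, D.cη]
  have h2 : GG h c * fromRows b (0 : Matrix (Fin h) ρ (WittVector p K)) = 0 := by
    simp [GG, fromBlocks_mul_fromRows, D.cb]
  have h3 : fromCols π (0 : Matrix ρ (Fin h) (WittVector p K)) * GG h η = 0 := by
    simp [GG, fromCols_mul_fromBlocks, D.πη]
  have h4 : fromCols π (0 : Matrix ρ (Fin h) (WittVector p K)) *
      fromRows b (0 : Matrix (Fin h) ρ (WittVector p K)) = 1 := by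
    simp [fromCols_mul_fromRows, D.πb]
  rw [fromRows_mul_fromCols, Matrix.mul_assoc X, ← Matrix.mul_assoc (GG h c), h1, Matrix.one_mul,
    Matrix.mul_smul, Matrix.mul_assoc X, h2, ← Matrix.mul_assoc, h3, Matrix.mul_smul, h4]
  simp

theorem Dat.isZ (D : Dat F η c b π) (e : E ⊕ Fin h ≃ (E' ⊕ Fin h) ⊕ ρ) {v : LV p E' h K}
    (hv : v.IsZ F) : (lat e η c b π v).IsZ F := by
  have fb : (fromRows b (0 : Matrix (Fin h) ρ (WittVector p K))).map (si p K) = fromRows b 0 := by
    rw [fromRows_map, D.fb, Matrix.map_zero _ (map_zero _)]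
  have fπ : (fromCols π (0 : Matrix ρ (Fin h) (WittVector p K))).map (si p K) = fromCols π 0 := by
    rw [fromCols_map, D.fπ, Matrix.map_zero _ (map_zero _)]
  refine ⟨fun i => ?_, rfl, ?_, ?_, ?_, ?_, ?_⟩
  · have h1 : Dop p K h ((η *ᵥ v.a) i) = ∑ j, η i j * Dop p K h (v.a j) := by
      simp only [Dop_apply, mulVec, dotProduct, map_sum, map_mul, fix_pow D.fη,
        mul_sub, Finset.sum_sub_distrib, mul_left_comm]
    show Dop p K h ((η *ᵥ v.a) i) ∈ _
    rw [h1]
    exact sum_mem fun j _ => Fil.WS_mul_zero (D.mη i j) (hv.isA j)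
  · have h1 : GG h η * GG h c + fromRows b (0 : Matrix (Fin h) ρ (WittVector p K)) *
        fromCols π (0 : Matrix ρ (Fin h) (WittVector p K)) = 1 := by
      rw [fromRows_mul_fromCols]
      simp [GG, fromBlocks_multiply, fromBlocks_add, D.tot]
    simp only [lat]
    rw [submatrix_mul_equiv, submatrix_id_id, fromCols_mul_fromRows, Matrix.mul_assoc,
      ← Matrix.mul_assoc v.μ, hv.inv, Matrix.one_mul, h1]
  · have h1 : V0 p E h (WittVector p K) * GG h η =
        GG h η * V0 p E' h (WittVector p K) := by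
      simp [V0, GG, fromBlocks_multiply]
    have h2 : V0 p E h (WittVector p K) * fromRows b (0 : Matrix (Fin h) ρ (WittVector p K)) =
        (1 : WittVector p K) • fromRows b 0 := by
      simp [V0, fromBlocks_mul_fromRows]
    have h3 : (lat e η c b π v).mA =
        (fromBlocks v.mA 0 0 ((1 : WittVector p K) • 1)).submatrix e e := by
      simp only [LV.mA, lat]
      rw [← submatrix_map, Matrix.mul_assoc, Matrix.mul_assoc, ← D.prod, fromCols_map,
        Matrix.map_mul, GG_fix D.fη, fb, ← Matrix.mul_assoc (GG h η), ← h1, ← h2,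
        Matrix.mul_assoc (V0 p E h _), ← mul_fromCols]
      rfl
    rw [h3, one_smul]
    exact fun i j => mw_blocks hv.hA mw_zero mw_zero mw_one _ _
  · have h1 : B0 p E h (WittVector p K) * GG h η =
        GG h η * B0 p E' h (WittVector p K) := by
      simp [B0, GG, fromBlocks_multiply]
    have h2 : B0 p E h (WittVector p K) * fromRows b (0 : Matrix (Fin h) ρ (WittVector p K)) =
        (p : WittVector p K) • fromRows b 0 := by
      rw [B0, fromBlocks_mul_fromRows]
      refine Matrix.ext fun i j => ?_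
      rcases i with i | i <;> simp
    have h3 : (lat e η c b π v).mB =
        (fromBlocks v.mB 0 0 ((p : WittVector p K) • 1)).submatrix e e := by
      simp only [LV.mB, lat]
      rw [← submatrix_map, Matrix.mul_assoc, Matrix.mul_assoc, ← D.prod, fromRows_map,
        Matrix.map_mul, GG_fix D.fc, fπ, ← Matrix.mul_assoc (GG h η), ← h1, ← h2,
        Matrix.mul_assoc (B0 p E h _), ← mul_fromCols]
      rfl
    rw [h3]
    exact fun i j => mw_blocks hv.hB mw_zero mw_zero
      (fun i j => Fil.WS_mul_zero (Fil.WL_natCast p) (mw_one i j)) _ _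
  · have h1 : Ua h (-(η *ᵥ v.a)) * GG h η = GG h η * Ua h (-v.a) := by
      simp [Ua_eq, GG, fromBlocks_multiply, mul_Xm D.fη, mulVec_neg]
    have h2 : Ua h (-(η *ᵥ v.a)) * fromRows b (0 : Matrix (Fin h) ρ (WittVector p K)) =
        fromRows b 0 := by
      simp [Ua_eq, fromBlocks_mul_fromRows]
    have h3 : Ua h (-(lat e η c b π v).a) * (lat e η c b π v).μ =
        (fromCols (GG h η * (Ua h (-v.a) * v.μ)) (fromRows b 0)).submatrix id e := by
      rw [← Matrix.mul_assoc, ← h1, Matrix.mul_assoc]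
      conv_rhs => rw [← h2, ← mul_fromCols]
      rfl
    rw [h3]
    exact fun i j => mw_cols (mw_le ((GG_mw D.mη).mul hv.b1) (by norm_num))
      (mw_rows (mw_le D.mb (by norm_num)) mw_zero) _ _
  · have h1 : GG h c * Ua h (η *ᵥ v.a) = Ua h v.a * GG h c := by
      simp [Ua_eq, GG, fromBlocks_multiply, mul_Xm D.fc, D.cη]
    have h2 : fromCols π (0 : Matrix ρ (Fin h) (WittVector p K)) * Ua h (η *ᵥ v.a) =
        fromCols π 0 := by
      simp [Ua_eq, fromCols_mul_fromBlocks, mul_Xm D.fπ, D.πη, Xm_zero]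
    have h3 : (lat e η c b π v).ν * Ua h (lat e η c b π v).a =
        (fromRows (v.ν * Ua h v.a * GG h c) (fromCols π 0)).submatrix e id := by
      rw [Matrix.mul_assoc, ← h1, ← Matrix.mul_assoc]
      conv_rhs => rw [← h2, ← fromRows_mul]
      rfl
    rw [h3]
    exact fun i j => mw_rows (mw_le (hv.b2.mul (GG_mw D.mc)) (by norm_num))
      (mw_cols (mw_le D.mπ (by norm_num)) mw_zero) _ _

variable {L : Sbs p E} (S : Spl L E' ρ) {lam : Matrix ρ E' (WittVector p K)}

theorem ci_mul (A : Type) [CommRing A] {I J M : Type} [Fintype J] (X : Matrix I J ℤ)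
    (Y : Matrix J M ℤ) : ci A X * ci A Y = ci A (X * Y) := Matrix.map_mul.symm

theorem ci_one (A : Type) [CommRing A] {I : Type} [DecidableEq I] :
    ci A (1 : Matrix I I ℤ) = 1 := Matrix.map_one _ (map_zero _) (map_one _)

theorem ci_zero (A : Type) [CommRing A] {I J : Type} : ci A (0 : Matrix I J ℤ) = 0 :=
  Matrix.map_zero _ (map_zero _)

theorem dat (hl : IsLam F lam) : Dat F (S.eta lam) (ci _ S.c1) (ci _ S.b2) (S.pi lam) := by
  have a1 : ci (WittVector p K) S.c1 * ci (WittVector p K) S.b1 = 1 := by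
    rw [ci_mul, S.c1b1, ci_one]
  have a2 : ci (WittVector p K) S.c1 * ci (WittVector p K) S.b2 = 0 := by
    rw [ci_mul, S.c1b2, ci_zero]
  have a3 : ci (WittVector p K) S.c2 * ci (WittVector p K) S.b1 = 0 := by
    rw [ci_mul, S.c2b1, ci_zero]
  have a4 : ci (WittVector p K) S.c2 * ci (WittVector p K) S.b2 = 1 := by
    rw [ci_mul, S.c2b2, ci_one]
  have a5 : ci (WittVector p K) S.b1 * ci (WittVector p K) S.c1 +
      ci (WittVector p K) S.b2 * ci (WittVector p K) S.c2 = 1 := by
    rw [ci_mul, ci_mul, ← ci_one, ← S.tot]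
    exact (Matrix.map_add _ (map_add _) _ _).symm
  have c1η : ci (WittVector p K) S.c1 * S.eta lam = 1 := by
    rw [Spl.eta, Matrix.mul_sub, ← Matrix.mul_assoc, a1, a2, Matrix.zero_mul, sub_zero]
  refine ⟨c1η, ?_, ?_, a2, ?_, ?_, ci_fix _, ci_fix _, ?_, ?_, mw_ci _, mw_ci _, ?_⟩
  · rw [Spl.pi, Matrix.add_mul, Matrix.mul_assoc, c1η, Spl.eta, Matrix.mul_sub,
      ← Matrix.mul_assoc, a3, a4]
    simp
  · rw [Spl.pi, Matrix.add_mul, Matrix.mul_assoc, a2, a4, Matrix.mul_zero, add_zero]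
  · rw [Spl.pi, Spl.eta, Matrix.sub_mul, Matrix.mul_add, Matrix.mul_assoc, ← a5]
    abel
  · rw [Spl.eta, Matrix.map_sub _ (map_sub _), Matrix.map_mul, ci_fix, ci_fix, hl.fix]
  · rw [Spl.pi, Matrix.map_add _ (map_add _), Matrix.map_mul, ci_fix, ci_fix, hl.fix]
  · exact fun i j => sub_mem (mw_ci _ i j) (mw_le ((mw_ci _).mul hl.mem) (by norm_num) i j)
  · exact fun i j => add_mem (mw_ci _ i j) (mw_le (hl.mem.mul (mw_ci _)) (by norm_num) i j)

theorem sum_zc {I : Type} (X : Matrix I E ℤ) (l : E → ZMod p) (i : I) :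
    ∑ e, zc p K (l e) * (X i e : K) = zc p K ((ci (ZMod p) X *ᵥ l) i) := by
  simp only [mulVec, dotProduct, map_sum, map_mul, Matrix.map_apply, eq_intCast, map_intCast,
    mul_comm]

theorem eb_inl (e : E ⊕ Fin h ≃ (E' ⊕ Fin h) ⊕ ρ) (X : Matrix E' E ℤ) (v : LV p E' h K)
    (l : E → ZMod p) (i : E' ⊕ Fin h) :
    (lat e η (ci _ X) b π v).eb l (e.symm (Sum.inl i)) = v.eb (ci (ZMod p) X *ᵥ l) i := by
  have h1 : ∀ x, (lat e η (ci _ X) b π v).ν (e.symm (Sum.inl i)) (Sum.inl x) =
      ∑ y, v.ν i (Sum.inl y) * (X y x : WittVector p K) := fun x => by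
    simp [lat, GG, Matrix.mul_apply]
  simp only [eb_eq, h1, map_sum, map_mul, map_intCast, ← sum_zc, Finset.mul_sum, Finset.sum_mul]
  rw [Finset.sum_comm]
  exact Finset.sum_congr rfl fun _ _ => Finset.sum_congr rfl fun _ _ => by ring

theorem eb_inr (hl : IsLam F lam) (e : E ⊕ Fin h ≃ (E' ⊕ Fin h) ⊕ ρ) (v : LV p E' h K)
    (l : E → ZMod p) (j : ρ) :
    (lat e η c b (S.pi lam) v).eb l (e.symm (Sum.inr j)) =
      zc p K ((ci (ZMod p) S.c2 *ᵥ l) j) := by
  have h0 : ∀ i j, WittVector.constantCoeff (lam i j) = 0 := hl.zero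
  have h1 : ∀ x, WittVector.constantCoeff ((lat e η c b (S.pi lam) v).ν (e.symm (Sum.inr j))
      (Sum.inl x)) = (S.c2 j x : K) := fun x => by
    have h2 : (lat e η c b (S.pi lam) v).ν (e.symm (Sum.inr j)) (Sum.inl x) =
        (S.c2 j x : WittVector p K) + ∑ y, lam j y * (S.c1 y x : WittVector p K) := by
      simp [lat, Spl.pi, Matrix.mul_apply]
    simp only [h2, map_add, map_sum, map_mul, map_intCast, h0, zero_mul, Finset.sum_const_zero,
      add_zero]
  simp only [eb_eq, h1, sum_zc]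

end Blk

open Blk

theorem blk : BLK p := by
  intro E E' ρ _ _ _ _ _ _ L S h K _ _ F v lam hv hl
  let e : E ⊕ Fin h ≃ (E' ⊕ Fin h) ⊕ ρ := (S.e.sumCongr (Equiv.refl _)).trans
    ((Equiv.sumAssoc _ _ _).trans (((Equiv.refl _).sumCongr (Equiv.sumComm _ _)).trans
      (Equiv.sumAssoc _ _ _).symm))
  refine ⟨lat e (S.eta lam) (ci _ S.c1) (ci _ S.b2) (S.pi lam) v, (dat S hl).isZ e hv, rfl,
    fun U hU => ?_, ?_⟩
  · obtain ⟨l, hlU, hlL⟩ := SetLike.not_le_iff_exists.1 hU
    obtain ⟨j, hj⟩ := Function.ne_iff.1 (mt (S.mem l).2 hlL)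
    have h1 := Submodule.smul_mem _ (⟨zc p K ((ci (ZMod p) S.c2 *ᵥ l) j)⁻¹, zc_mem _⟩ : F.zero)
      (Submodule.subset_span (s := {x | ∃ l ∈ U, ∃ i, x = (lat e (S.eta lam) (ci _ S.c1)
        (ci _ S.b2) (S.pi lam) v).eb l i}) ⟨l, hlU, e.symm (Sum.inr j), rfl⟩)
    rw [eb_inr S hl, Subring.smul_def, smul_eq_mul, ← map_mul, inv_mul_cancel₀ hj, map_one] at h1
    exact (ui_iff _ _).2 h1
  · rw [ui_iff, ui_iff]
    refine ⟨fun h1 => Submodule.span_le.2 ?_ h1, fun h1 => Submodule.span_le.2 ?_ h1⟩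
    · rintro _ ⟨l, hlL, i, rfl⟩
      obtain ⟨i | j, rfl⟩ := e.symm.surjective i
      · rw [eb_inl]
        exact Submodule.subset_span ⟨_, trivial, i, rfl⟩
      · rw [eb_inr S hl, (S.mem l).1 hlL, Pi.zero_apply, map_zero]
        exact zero_mem _
    · rintro _ ⟨l, -, i, rfl⟩
      refine Submodule.subset_span ⟨ci (ZMod p) S.b1 *ᵥ l, (S.mem _).2 ?_, e.symm (Sum.inl i), ?_⟩
      · rw [mulVec_mulVec, ci_mul, S.c2b1, ci_zero, zero_mulVec]
      · rw [eb_inl, mulVec_mulVec, ci_mul, S.c1b1, ci_one, one_mulVec]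

end P261.C1
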