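import Vale.Agent.P261Z.C1.Defs
import Vale.Agent.P261Z.W.Hull

/-!
# P261Z, block C1: adapted bases and the scheme of parameters
-/

noncomputable section

open Matrix

namespace P261.C1

variable {p : ℕ} [hp : Fact p.Prime]

namespace SplH

theorem of_mat {E E' ρ : Type} [Fintype E] [DecidableEq E] [Fintype E'] [DecidableEq E']
    [Fintype ρ] [DecidableEq ρ] (L : Sbs p E) (e : E' ⊕ ρ ≃ E) (C : Matrix ρ E ℤ)
    (h1 : ∀ r r', C r (e (Sum.inr r')) = if r = r' then 1 else 0)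
    (h2 : ∀ l, l ∈ L ↔ C.map (Int.castRingHom (ZMod p)) *ᵥ l = 0) : Nonempty (Spl L E' ρ) := by
  obtain ⟨P, hP⟩ : ∃ P : Matrix E' E ℤ, ∀ s x, P s x = if e (Sum.inl s) = x then 1 else 0 :=
    ⟨Matrix.of fun s x => _, fun _ _ => rfl⟩
  obtain ⟨Q, hQ⟩ : ∃ Q : Matrix E ρ ℤ, ∀ x r, Q x r = if e (Sum.inr r) = x then 1 else 0 :=
    ⟨Matrix.of fun x r => _, fun _ _ => rfl⟩
  have a1 : P * Pᵀ = 1 := by
    ext s s'
    simp [mul_apply, hP, one_apply, eq_comm]
  have a2 : P * Q = 0 := by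
    ext s r
    simp [mul_apply, hP, hQ]
  have a3 : C * Q = 1 := by
    ext r r'
    simp [mul_apply, hQ, h1, one_apply]
  have a4 : Pᵀ * P = 1 - Q * Qᵀ := by
    ext x y
    obtain ⟨x, rfl⟩ := e.surjective x
    obtain ⟨y, rfl⟩ := e.surjective y
    rcases x with x | x <;> rcases y with y | y <;>
      simp [mul_apply, hP, hQ, one_apply, eq_comm]
  refine ⟨⟨Pᵀ - Q * (C * Pᵀ), Q, P, C, e.symm, ?_, a2, ?_, a3, ?_, h2⟩⟩
  · rw [Matrix.mul_sub, a1, ← Matrix.mul_assoc, a2, Matrix.zero_mul, sub_zero]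
  · rw [Matrix.mul_sub, ← Matrix.mul_assoc, a3, Matrix.one_mul, sub_self]
  · rw [Matrix.sub_mul, Matrix.mul_assoc, Matrix.mul_assoc, a4, Matrix.mul_sub, Matrix.mul_one,
      ← Matrix.mul_assoc C, a3, Matrix.one_mul, Matrix.mul_sub]
    abel

theorem exists_ring (k : Type) [Field k] (B : Type) [CommRing B] [Algebra k B] [Pf p B]
    (σ : Type) (Z : Set σ) :
    ∃ (B₁ : Type) (_ : CommRing B₁) (_ : Algebra k B₁) (_ : Pf p B₁) (ι : B →ₐ[k] B₁)
      (t : σ → B₁), (∀ s, t s ^ p = t s) ∧ (∀ s ∈ Z, t s = 0) ∧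
      ∀ (K : Type) [CommRing K] [Algebra k K] [Pf p K],
        (∀ (F : Fil p K) (x : B →ₐ[k] K) (c : σ → K), (∀ b, x b ∈ F.F 0) → (∀ s, c s ∈ F.F 0) →
          (∀ s, c s ^ p = c s) → (∀ s ∈ Z, c s = 0) → ∃ g : B₁ →ₐ[k] K, (∀ z, g z ∈ F.F 0) ∧
            (∀ b, g (ι b) = x b) ∧ ∀ s, g (t s) = c s) ∧
        ∀ g g' : B₁ →ₐ[k] K, (∀ b, g (ι b) = g' (ι b)) → (∀ s, g (t s) = g' (t s)) → g = g' := by
  let I : Ideal (MvPolynomial σ B) := Ideal.span
    ((Set.range fun s => MvPolynomial.X s ^ p - MvPolynomial.X s) ∪ MvPolynomial.X '' Z)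
  let q : MvPolynomial σ B →ₐ[k] PH p (MvPolynomial σ B ⧸ I) :=
    (IsScalarTower.toAlgHom k _ _).comp (Ideal.Quotient.mkₐ k I)
  have hq : ∀ a ∈ I, q a = 0 := fun a ha => by
    change algebraMap _ (PH p (MvPolynomial σ B ⧸ I)) (Ideal.Quotient.mk I a) = 0
    rw [Ideal.Quotient.eq_zero_iff_mem.2 ha, map_zero]
  refine ⟨_, inferInstance, inferInstance, inferInstance,
    q.comp (IsScalarTower.toAlgHom k B _), fun s => q (MvPolynomial.X s), fun s => ?_,
    fun s hs => hq _ (Ideal.subset_span (Or.inr ⟨s, hs, rfl⟩)), fun K _ _ _ =>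
    ⟨fun F x c h1 h2 h3 h4 => ?_, fun g g' h1 h2 => PH.homA_ext fun a => ?_⟩⟩
  · rw [← map_pow, ← sub_eq_zero, ← map_sub]
    exact hq _ (Ideal.subset_span (Or.inl ⟨s, rfl⟩))
  · have h0 : ∀ a ∈ I, MvPolynomial.aevalTower x c a = 0 := fun a ha => by
      refine (Ideal.span_le (I := RingHom.ker (MvPolynomial.aevalTower x c))).2 ?_ ha
      rintro _ (⟨s, rfl⟩ | ⟨s, hs, rfl⟩)
      · simp [h3]
      · simp [h4 s hs]
    have e : ∀ a, PH.liftA (Ideal.Quotient.liftₐ I (MvPolynomial.aevalTower x c) h0) (q a) =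
        MvPolynomial.aevalTower x c a := fun a => PH.liftA_of _ _
    refine ⟨PH.liftA (Ideal.Quotient.liftₐ I (MvPolynomial.aevalTower x c) h0), fun z => ?_,
      fun b => (e _).trans (MvPolynomial.aevalTower_C x c b),
      fun s => (e _).trans (MvPolynomial.aevalTower_X x c s)⟩
    obtain ⟨n, a, ha⟩ := PH.exists_pow z
    obtain ⟨a, rfl⟩ := Ideal.Quotient.mk_surjective a
    refine Fil.root_pow n ?_
    rw [mul_zero, ← map_pow, ha]
    refine (e a).symm ▸ (?_ : MvPolynomial.aevalTower x c a ∈ F.zero)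
    clear ha
    induction a using MvPolynomial.induction_on with
    | C b => rw [MvPolynomial.aevalTower_C]; exact h1 b
    | add a b ha hb => rw [map_add]; exact add_mem ha hb
    | mul_X a s ha => rw [map_mul, MvPolynomial.aevalTower_X]; exact mul_mem ha (h2 s)
  · obtain ⟨a, rfl⟩ := Ideal.Quotient.mk_surjective a
    exact DFunLike.congr_fun (MvPolynomial.ringHom_ext (f := (g.comp q).toRingHom)
      (g := (g'.comp q).toRingHom) h1 h2) a

end SplH

theorem spl : SPL p := by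
  intro E _ _ L
  obtain ⟨κ, a, ha, h1, h2⟩ := exists_linearIndependent' (ZMod p)
    fun x : E => L.mkQ (Pi.single x 1)
  have := Finite.of_injective a ha
  obtain ⟨r, ⟨er⟩⟩ := Finite.exists_equiv_fin κ
  obtain ⟨c, ⟨ec⟩⟩ := Finite.exists_equiv_fin ((Set.range a)ᶜ : Set E)
  have h3 : ⊤ ≤ Submodule.span (ZMod p) (Set.range ((fun x : E => L.mkQ (Pi.single x 1)) ∘ a)) := by
    rw [h1, show (fun x : E => L.mkQ (Pi.single x 1)) = L.mkQ ∘ Pi.basisFun (ZMod p) E from
      funext fun x => by simp, Set.range_comp, ← Submodule.map_span, Module.Basis.span_eq,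
      Submodule.map_top, Submodule.range_mkQ]
  let b := (Module.Basis.mk h2 h3).reindex er
  let f : (E → ZMod p) →ₗ[ZMod p] Fin r → ZMod p := b.equivFun.toLinearMap ∘ₗ L.mkQ
  classical
  refine ⟨c, r, SplH.of_mat L ((Equiv.sumComm _ _).trans ((Equiv.sumCongr
    (er.symm.trans (Equiv.ofInjective a ha)) ec.symm).trans (Equiv.Set.sumCompl _)))
    (Matrix.of fun i x => ((f (Pi.single x 1) i).val : ℤ)) (fun i j => ?_) fun l => ?_⟩
  · have e : L.mkQ (Pi.single (a (er.symm j)) 1) = b j := by simp [b]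
    change ((b.equivFun (L.mkQ (Pi.single (a (er.symm j)) 1)) i).val : ℤ) = _
    rw [e, Module.Basis.equivFun_self]
    by_cases h : i = j
    · rw [if_pos h, if_pos h.symm, ZMod.val_one, Nat.cast_one]
    · rw [if_neg h, if_neg (Ne.symm h), ZMod.val_zero, Nat.cast_zero]
  · have e : (Matrix.of fun i x => ((f (Pi.single x 1) i).val : ℤ)).map
        (Int.castRingHom (ZMod p)) = LinearMap.toMatrix' f := by
      ext i x
      simp [LinearMap.toMatrix'_apply]
    rw [e, LinearMap.toMatrix'_mulVec]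
    simp [f]

theorem base : BASE p := by
  intro k _ B _ _ _ I J
  obtain ⟨B₁, _, _, _, ι, t, t1, t2, H⟩ :=
    SplH.exists_ring (p := p) k B (I × J × ℕ) {s | s.2.2 = 0}
  have t0 : Nonempty (∀ T : FP p k, (PF.base p k B).obj T → (PF.base p k B₁).obj T) :=
    ⟨fun T x => ⟨_, ((H T.K).1 T.F x.1 0 x.2 (fun _ => zero_mem _)
      (fun _ => zero_pow hp.out.ne_zero) fun _ _ => rfl).choose_spec.1⟩⟩
  obtain ⟨d⟩ := t0
  have key : ∀ (T : FP p k) (x : (PF.base p k B).obj T) (lam : Matrix I J T.W),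
      ∃ g : (PF.base p k B₁).obj T, IsLam T.F lam →
        (∀ b, g.1 (ι b) = x.1 b) ∧ ∀ s, g.1 (t s) = (lam s.1 s.2.1).coeff s.2.2 := by
    intro T x lam
    by_cases h : IsLam T.F lam
    · obtain ⟨g, g1, g2⟩ := (H T.K).1 T.F x.1 (fun s => (lam s.1 s.2.1).coeff s.2.2) x.2
        (fun s => by simpa using Fil.mem_WL.1 (h.mem s.1 s.2.1) s.2.2)
        (fun s => by
          have e : rt p T.K ((lam s.1 s.2.1).coeff s.2.2) = (lam s.1 s.2.1).coeff s.2.2 :=
            congrArg (fun M : Matrix I J T.W => (M s.1 s.2.1).coeff s.2.2) h.fix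
          exact (congrArg (· ^ p) e).symm.trans (rt_pow _))
        fun s hs => by rw [show s.2.2 = 0 from hs]; exact h.zero _ _
      exact ⟨⟨g, g1⟩, fun _ => g2⟩
    · exact ⟨d T x, fun h' => absurd h' h⟩
  choose bw hbw using key
  refine ⟨B₁, inferInstance, inferInstance, inferInstance,
    fun T y => ⟨y.1.comp ι, fun b => y.2 _⟩,
    fun T y => Matrix.of fun i j => WittVector.mk p fun n => y.1 (t (i, j, n)), bw,
    fun T y => ⟨?_, fun i j => Fil.mem_WL.2 fun n => ?_, fun i j => ?_⟩, fun _ _ _ _ => rfl,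
    fun _ _ _ _ => rfl, fun T T' φ x lam h => ?_, fun T x lam h => ⟨?_, ?_⟩⟩
  · refine Matrix.ext fun i j => WittVector.ext fun n => ?_
    change rt p T.K (y.1 (t (i, j, n))) = y.1 (t (i, j, n))
    exact pow_p_inj (by rw [rt_pow, ← map_pow, t1])
  · rw [mul_zero]
    exact y.2 _
  · change y.1 (t (i, j, 0)) = 0
    rw [t2 _ rfl, map_zero]
  · have h' : IsLam T'.F (lam.map φ.w) := ⟨by rw [← map_si_map, h.fix], h.mem.map φ, fun i j => by
      change φ.r ((lam i j).coeff 0) = 0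
      rw [h.zero, map_zero]⟩
    refine Subtype.ext ((H T'.K).2 _ _ (fun b => ?_) fun s => ?_)
    · exact ((hbw _ _ _ h').1 b).trans (congrArg φ.f ((hbw _ _ _ h).1 b)).symm
    · exact ((hbw _ _ _ h').2 s).trans (congrArg φ.f ((hbw _ _ _ h).2 s)).symm
  · exact Subtype.ext (AlgHom.ext (hbw _ _ _ h).1)
  · exact Matrix.ext fun i j => WittVector.ext fun n => (hbw _ _ _ h).2 (i, j, n)

end P261.C1
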