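import Vale.Agent.P261Z.C1.Sys
import Vale.Agent.P261Z.C1.Okz
import Vale.Agent.P261Z.C1.Blk
import Vale.Agent.P261Z.C1.Spl

/-!
# P261Z, block C1: retractions
-/

set_option linter.unusedSectionVars false

noncomputable section

open Matrix

namespace P261.C1

variable {p : ℕ} [hp : Fact p.Prime] {k : Type} [Field k]

namespace Ret

universe u v

omit hp in
theorem map_bd {A : Cs.Cos.{u} k} {B : Cs.Cos.{v} k} (f : Cs.Hom A B) {Q : Cs.Sub A}
    {Q' : Cs.Sub B} (h : ∀ n, ∀ x ∈ Q.S n, f.app n x ∈ Q'.S n) {n : ℕ} {x : A.X n}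
    (hx : x ∈ Q.bd n) : f.app n x ∈ Q'.bd n := by
  cases n with
  | zero =>
    simp only [Cs.Sub.bd, Submodule.mem_bot] at hx ⊢
    rw [hx, map_zero]
  | succ n =>
    obtain ⟨y, hy, rfl⟩ := hx
    exact ⟨f.app n y, h n y hy, (f.map_d n y).symm⟩

theorem pow_mod {s e : ℕ} (he : 1 ≤ e) (hs : s % p ^ e = 1) (N : ℕ) : s ^ N % p = 1 := by
  have h1 : s % p = 1 := by
    rw [← Nat.mod_mod_of_dvd s (dvd_pow_self p (by omega : e ≠ 0)), hs,
      Nat.mod_eq_of_lt one_lt_p]
  rw [Nat.pow_mod, h1, one_pow, Nat.mod_eq_of_lt one_lt_p]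

end Ret

open Ret

omit hp in
/-- almost acyclic complexes are good -/
theorem aac_good {A : FA p k} (h : A.AAc) (q : ℕ) : A.Good q := fun n =>
  ⟨⟨1, le_rfl, fun β ε hβ hε => by rw [one_mul]; exact h n β ε hβ hε⟩,
    ⟨0, 0, le_rfl, fun e s _ _ β ε hβ hε x hx hd => by
      rw [zero_mul, zero_div, add_zero, Cs.Hom.sub_app]
      have := h n β ε hβ hε x hx hd
      exact sub_mem (map_bd _ (A.act_F _ _) this) this⟩⟩

/-- retracts of good complexes are good -/
theorem good_of_retract {C C' : CF p k} {a : C.Act} {a' : C'.Act} (F : C.Map C') (G : C'.Map C)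
    (h1 : ∀ n T (z : (C.Z n).obj T), G.f (F.f z) = z)
    (h2 : ∀ s, s % p = 1 → ∀ n T (z : (C'.Z n).obj T), G.f ((a'.e s).f z) = (a.e s).f (G.f z))
    {q : ℕ} (h : (C'.fa a').Good q) : (C.fa a).Good q := by
  have e1 : ∀ n (x : C.Fn n), F.pull.app n (G.pull.app n x) = x := fun n x =>
    Subtype.ext (funext fun T => funext fun z => congrArg (x.1 T) (h1 n T z))
  have e2 : ∀ β n, ∀ x ∈ (C'.step β).S n, F.pull.app n x ∈ (C.step β).S n :=
    fun β n x hx T z => hx T _
  intro n
  obtain ⟨⟨ρ, hρ, r1⟩, ρ', m, hρ', r2⟩ := h n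
  refine ⟨⟨ρ, hρ, fun β ε hβ hε x hx hd => ?_⟩, ρ', m, hρ', fun e s he hs β ε hβ hε x hx hd => ?_⟩
  · have := map_bd F.pull (e2 _) (r1 β ε hβ hε (G.pull.app n x) (fun T z => hx T _)
      (G.pull.map_cocycle hd))
    rwa [Cs.Hom.id_app, e1] at this
  · have := map_bd F.pull (e2 _) (r2 e s he hs β ε hβ hε (G.pull.app n x) (fun T z => hx T _)
      (G.pull.map_cocycle hd))
    have e3 : (a'.e (s ^ p ^ m)).pull.app n (G.pull.app n x) =
        G.pull.app n ((a.e (s ^ p ^ m)).pull.app n x) :=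
      Subtype.ext (funext fun T => funext fun z => congrArg (x.1 T) (h2 _ (pow_mod he hs _) n T z))
    rwa [Cs.Hom.sub_app, Cs.Hom.id_app, e3, map_sub, e1, e1] at this

/-- data for a map of configurations -/
structure Bld (S S' : Sys p k) {κ κ' : Type} (P : κ → Col S.V) (md : κ → Mode)
    (P' : κ' → Col S'.V) (md' : κ' → Mode) : Type 1 where
  /-- the directions -/
  e : κ' → Option κ
  /-- the base point -/
  bx : ∀ {n : ℕ} {T : FP p k}, S.Conf P md (n + 1) T → S'.X.obj T
  /-- the vertices -/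
  g : ∀ {T : FP p k}, S.X.obj T → S.V.obj T → Option (S'.V.obj T)
  bx_map : ∀ {n : ℕ} {T T' : FP p k} (φ : T.Hom T') (z : S.Conf P md (n + 1) T),
    bx (z.map φ) = S'.X.map φ (bx z)
  bx_res : ∀ {m n : ℕ} {T : FP p k} (f : Fin (m + 1) → Fin (n + 1)) (z : S.Conf P md (n + 1) T),
    bx (z.res f) = bx z
  g_map : ∀ {T T' : FP p k} (φ : T.Hom T') (x : S.X.obj T) (v : S.V.obj T),
    g (S.X.map φ x) (S.V.map φ v) = (g x v).map (S'.V.map φ)
  col : ∀ {n : ℕ} {T : FP p k} (z : S.Conf P md (n + 1) T) (c' : κ') (c : κ) (v : S.V.obj T),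
    e c' = some c → (P c).P v → S.ok1 z.x v →
      ∃ v', g z.x v = some v' ∧ (P' c').P v' ∧ S'.ok1 (bx z) v'
  ok : ∀ {T : FP p k} (x : S.X.obj T) (c' : κ') (c : κ) (v : S.V.obj T) (d' : κ') (d : κ)
    (u : S.V.obj T) (v' u' : S'.V.obj T), e c' = some c → e d' = some d → (P c).P v → (P d).P u →
      S.ok2 v u → g x v = some v' → g x u = some u' → S'.ok2 v' u'
  on : ∀ c', md' c' = .on → ∃ c, e c' = some c ∧ md c = .on
  off : ∀ c' c, md' c' = .off → e c' = some c → md c = .off
  full : ∀ c, md c = .red → ∃ c', e c' = some c ∧ md' c' = .red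

namespace Bld

variable {S S' : Sys p k} {κ κ' : Type} {P : κ → Col S.V} {md : κ → Mode} {P' : κ' → Col S'.V}
  {md' : κ' → Mode} (B : Bld S S' P md P' md') {n : ℕ} {T : FP p k}

/-- the vertices of the new configuration -/
def w (z : S.Conf P md (n + 1) T) (c' : κ') (i : Fin (n + 1)) : Option (S'.V.obj T) :=
  (B.e c').bind fun c => (z.w c i).bind (B.g z.x)

theorem w_eq {z : S.Conf P md (n + 1) T} {c' : κ'} {i : Fin (n + 1)} {v' : S'.V.obj T}
    (h : B.w z c' i = some v') : ∃ c v, B.e c' = some c ∧ z.w c i = some v ∧ B.g z.x v = some v' := by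
  obtain ⟨c, h1, h2⟩ := Option.bind_eq_some_iff.1 h
  obtain ⟨v, h3, h4⟩ := Option.bind_eq_some_iff.1 h2
  exact ⟨c, v, h1, h3, h4⟩

theorem w_some {z : S.Conf P md (n + 1) T} {c' : κ'} {c : κ} {i : Fin (n + 1)}
    (h : B.e c' = some c) (h' : (z.w c i).isSome) : (B.w z c' i).isSome := by
  obtain ⟨v, hv⟩ := Option.isSome_iff_exists.1 h'
  obtain ⟨v', h1, -⟩ := B.col z c' c v h (z.col c i v hv).1 (z.col c i v hv).2
  rw [w, h, Option.bind_some, hv, Option.bind_some, h1]
  rfl

/-- the new configuration -/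
def f (z : S.Conf P md (n + 1) T) : S'.Conf P' md' (n + 1) T where
  x := B.bx z
  w := B.w z
  col c' i v' h := by
    obtain ⟨c, v, h1, h2, h3⟩ := B.w_eq h
    obtain ⟨u, h4, h5⟩ := B.col z c' c v h1 (z.col c i v h2).1 (z.col c i v h2).2
    obtain rfl := Option.some.inj (h3.symm.trans h4)
    exact h5
  ok c' i v' d' j u' h h' := by
    obtain ⟨c, v, h1, h2, h3⟩ := B.w_eq h
    obtain ⟨d, u, h4, h5, h6⟩ := B.w_eq h'
    exact B.ok z.x c' c v d' d u v' u' h1 h4 (z.col c i v h2).1 (z.col d j u h5).1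
      (z.ok c i v d j u h2 h5) h3 h6
  on c' i h := by
    obtain ⟨c, h1, h2⟩ := B.on c' h
    exact B.w_some h1 (z.on c i h2)
  off c' i h := by
    refine Option.eq_none_iff_forall_ne_some.2 fun v' hv => ?_
    obtain ⟨c, v, h1, h2, -⟩ := B.w_eq hv
    rw [z.off c i (B.off c' c h h1)] at h2
    cases h2

/-- the map of configurations -/
def toMap : (S.cf P md).Map (S'.cf P' md') where
  f z := B.f z
  map φ z := by
    refine Sys.Conf.ext (B.bx_map φ z) (funext fun c' => funext fun i => ?_)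
    show ((B.e c').bind fun c => ((z.w c i).map (S.V.map φ)).bind (B.g (S.X.map φ z.x))) =
      ((B.e c').bind fun c => (z.w c i).bind (B.g z.x)).map (S'.V.map φ)
    cases B.e c' with
    | none => rfl
    | some c =>
      rw [Option.bind_some, Option.bind_some]
      cases z.w c i with
      | none => rfl
      | some v => exact B.g_map φ z.x v
  res g z := Sys.Conf.ext (B.bx_res g z) rfl
  full z := fun ⟨c, hc, h⟩ => by
    obtain ⟨c', h1, h2⟩ := B.full c hc
    exact ⟨c', h2, fun i => B.w_some h1 (h i)⟩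

end Bld

variable {E E' ρ : Type} [Fintype E] [DecidableEq E] [Fintype E'] [DecidableEq E'] [Fintype ρ]
  [DecidableEq ρ] {L : Sbs p E} {h : ℕ}

/-! ### renaming -/

/-- renaming the directions -/
def ren (S : Sys p k) {κ κ' : Type} (P : κ → Col S.V) (md : κ → Mode) (P' : κ' → Col S.V)
    (md' : κ' → Mode) (e : κ' → Option κ) (h1 : ∀ c' c, e c' = some c → P c = P' c')
    (h2 : ∀ c', md' c' = .on → ∃ c, e c' = some c ∧ md c = .on)
    (h3 : ∀ c' c, md' c' = .off → e c' = some c → md c = .off)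
    (h4 : ∀ c, md c = .red → ∃ c', e c' = some c ∧ md' c' = .red) : Bld S S P md P' md' where
  e := e
  bx z := z.x
  g _ v := some v
  bx_map _ _ := rfl
  bx_res _ _ := rfl
  g_map _ _ _ := rfl
  col _ c' c v e1 e2 e3 := ⟨v, rfl, h1 c' c e1 ▸ e2, e3⟩
  ok _ _ _ _ _ _ _ _ _ _ _ _ _ e1 e2 e3 := by
    cases e2
    cases e3
    exact e1
  on := h2
  off := h3
  full := h4

theorem good_ren {S : Sys p k} {a : S.Act} {κ κ' : Type} {P : κ → Col S.V} {md : κ → Mode}
    {P' : κ' → Col S.V} {md' : κ' → Mode} {hP : ∀ c, a.Stab (P c)} {hP' : ∀ c, a.Stab (P' c)}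
    (e : κ' → Option κ) (e' : κ → Option κ') (h0 : ∀ c c', e c' = some c ↔ e' c = some c')
    (h1 : ∀ c' c, e c' = some c → P c = P' c' ∧ md c = md' c') (h2 : ∀ c', e c' = none → md' c' = .off)
    (h3 : ∀ c, e' c = none → md c = .off) {q : ℕ} (H : (S.fa a P' md' hP').Good q) :
    (S.fa a P md hP).Good q := by
  have a1 : ∀ c', md' c' ≠ .off → ∃ c, e c' = some c := fun c' hc =>
    Option.ne_none_iff_exists'.1 fun e0 => hc (h2 c' e0)
  have a2 : ∀ c, md c ≠ .off → ∃ c', e' c = some c' := fun c hc =>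
    Option.ne_none_iff_exists'.1 fun e0 => hc (h3 c e0)
  refine good_of_retract (a := a.cf P md hP) (a' := a.cf P' md' hP')
    (ren S P md P' md' e (fun c' c e0 => (h1 c' c e0).1) (fun c' hc => ?_)
      (fun c' c hc e0 => (h1 c' c e0).2.trans hc) fun c hc => ?_).toMap
    (ren S P' md' P md e' (fun c c' e0 => (h1 c' c ((h0 c c').2 e0)).1.symm) (fun c hc => ?_)
      (fun c c' hc e0 => (h1 c' c ((h0 c c').2 e0)).2.symm.trans hc) fun c' hc => ?_).toMap
    (fun n T z => ?_) (fun s _ n T z => ?_) H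
  · obtain ⟨c, e0⟩ := a1 c' (by simp [hc])
    exact ⟨c, e0, (h1 c' c e0).2.trans hc⟩
  · obtain ⟨c', e0⟩ := a2 c (by simp [hc])
    exact ⟨c', (h0 c c').2 e0, (h1 c' c ((h0 c c').2 e0)).2.symm.trans hc⟩
  · obtain ⟨c', e0⟩ := a2 c (by simp [hc])
    exact ⟨c', e0, (h1 c' c ((h0 c c').2 e0)).2.symm.trans hc⟩
  · obtain ⟨c, e0⟩ := a1 c' (by simp [hc])
    exact ⟨c, (h0 c c').1 e0, (h1 c' c e0).2.trans hc⟩
  · refine Sys.Conf.ext rfl (funext fun c => funext fun i => ?_)
    show ((e' c).bind fun c' => ((e c').bind fun d => (z.w d i).bind some).bind some) = z.w c i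
    rcases e0 : e' c with _ | c'
    · exact (z.off c i (h3 c e0)).symm
    · rw [Option.bind_some, (h0 c c').2 e0, Option.bind_some, Option.bind_fun_some,
        Option.bind_fun_some]
  · refine Sys.Conf.ext rfl (funext fun c => funext fun i => ?_)
    show ((e' c).bind fun c' => ((z.w c' i).map (a.e s).f).bind some) =
      ((e' c).bind fun c' => (z.w c' i).bind some).map (a.e s).f
    cases e' c with
    | none => rfl
    | some c' => rw [Option.bind_some, Option.bind_some, Option.bind_fun_some, Option.bind_fun_some]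

theorem reidx : REIDX p k := by
  intro E _ _ h X c c' m q
  refine ⟨⟨good_ren (fun _ => some false) (fun b => bif b then none else some ()) ?_ ?_ ?_ ?_,
    good_ren (fun b => bif b then none else some ()) (fun _ => some false) ?_ ?_ ?_ ?_⟩,
    good_ren (fun _ => some true) (fun b => bif b then some () else none) ?_ ?_ ?_ ?_,
    good_ren (fun b => bif b then some () else none) (fun _ => some true) ?_ ?_ ?_ ?_⟩ <;> simp <;> rfl

/-! ### the first retraction -/

/-- the lattice of a vertex -/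
def VP.gp {K : Type} [CommRing K] : VP p E E' ρ h K → Option (LV p E h K)
  | .pos v => some v
  | _ => none

/-- the lattice in the kernel -/
def VP.gr {K : Type} [CommRing K] : VP p E E' ρ h K → Option (LV p E' h K)
  | .par _ v => some v
  | _ => none

theorem ret0 : RET0 p k := by
  intro E E' ρ _ _ _ _ _ _ L S h X 𝒰 q H
  let P : Bool → Col (LVF p k E h) := fun b => (bif b then sJ k h (insert L 𝒰) else sJ k h 𝒰).c
  let md : Bool → Mode := fun b => bif b then .red else .on
  let F : Bld (LS p k E h X) (SP h S X) P md (c5 k E' ρ h L 𝒰) (d5 .off .on .red .off .off) :=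
    { e := d5 none (some false) (some true) none none
      bx := fun z => z.x
      g := fun _ v => some (VP.pos v)
      bx_map := fun _ _ => rfl
      bx_res := fun _ _ => rfl
      g_map := fun _ _ _ => rfl
      col := fun z c' c v e1 e2 _ => by
        cases c' <;> cases e1 <;> exact ⟨_, rfl, ⟨v, rfl, e2⟩, trivial⟩
      ok := fun x _ _ v _ _ u v' u' _ _ _ _ e1 e2 e3 => by
        cases e2
        cases e3
        exact ⟨fun _ _ => e1.a, fun h => h.elim, fun h => h.elim, fun h => h.elim⟩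
      on := fun c' e1 => by cases c' <;> cases e1; exact ⟨_, rfl, rfl⟩
      off := fun c' c e1 e2 => by cases c' <;> cases e1 <;> cases e2
      full := fun c e1 => by cases c <;> cases e1; exact ⟨.Q, rfl, rfl⟩ }
  let G : Bld (SP h S X) (LS p k E h X) (c5 k E' ρ h L 𝒰) (d5 .off .on .red .off .off) P md :=
    { e := fun b => some (bif b then .Q else .P)
      bx := fun z => z.x
      g := fun _ v => VP.gp v
      bx_map := fun _ _ => rfl
      bx_res := fun _ _ => rfl
      g_map := fun _ _ v => by cases v <;> rfl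
      col := fun z c' c v e1 e2 _ => by
        cases c' <;> cases e1 <;> obtain ⟨u, rfl, hu⟩ := e2 <;> exact ⟨u, rfl, hu, trivial⟩
      ok := fun {T} x c' _ v d' _ u v' u' e1 e2 e3 e4 e5 e6 e7 => by
        cases c' <;> cases e1 <;> cases d' <;> cases e2 <;> obtain ⟨v, rfl, hv⟩ := e3 <;>
          obtain ⟨u, rfl, hu⟩ := e4 <;> cases e6 <;> cases e7 <;>
          exact okz E h T.K T.F _ _ T.cl hv.1 hu.1 (e5.aa trivial trivial)
      on := fun c' e1 => by cases c' <;> cases e1; exact ⟨_, rfl, rfl⟩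
      off := fun c' c e1 e2 => by cases c' <;> cases e1
      full := fun c e1 => by cases c <;> cases e1; exact ⟨true, rfl, rfl⟩ }
  refine good_of_retract (a := (lact p k E h X).cf P md fun c => stab_of_sc (SC.sc _))
    (a' := (pact h S X).cf _ _ (stab_c5 S X 𝒰)) F.toMap G.toMap (fun n T z => ?_) (fun s _ n T z => ?_) H
  · refine Sys.Conf.ext rfl (funext fun c => funext fun i => ?_)
    cases c
    · show ((z.w false i).bind fun v => some (VP.pos v)).bind VP.gp = z.w false i
      cases z.w false i <;> rfl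
    · show ((z.w true i).bind fun v => some (VP.pos v)).bind VP.gp = z.w true i
      cases z.w true i <;> rfl
  · refine Sys.Conf.ext rfl (funext fun c => funext fun i => ?_)
    show ((z.w (bif c then .Q else .P) i).map (VP.sc s)).bind VP.gp =
      ((z.w (bif c then .Q else .P) i).bind VP.gp).map (LV.sc' s)
    rcases z.w (bif c then .Q else .P) i with _ | _ | _ | _ <;> rfl

/-! ### the second retraction -/

theorem w1_mulVec {K : Type} [CommRing K] {F : Fil p K} {I J : Type} [Fintype J]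
    {M : Matrix I J (WittVector p K)} {x : J → WittVector p K} (hM : F.MW 0 M) (hx : W1 F x) :
    W1 F (M *ᵥ x) := fun i => sum_mem fun j _ => Fil.WS_mul_zero (hM i j) (hx j)

section

variable {S : Spl L E' ρ} {X : PF p k} {𝒰 : Set (Sbs p E)} {n : ℕ} {T : FP p k}

/-- the projection of a configuration -/
def lam0 (z : (SP h S X).Conf (c5 k E' ρ h L 𝒰) (d5 .off .off .off .on .red) (n + 1) T) :
    Matrix ρ E' T.W := ((z.w .Z 0).map VP.l).getD 0

theorem lam0_eq (z : (SP h S X).Conf (c5 k E' ρ h L 𝒰) (d5 .off .off .off .on .red) (n + 1) T) :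
    IsLam T.F (lam0 z) ∧ (∃ v, z.w .Z 0 = some (VP.par (lam0 z) v)) ∧
      ∀ c i l v, z.w c i = some (VP.par l v) → l = lam0 z := by
  obtain ⟨u, hu⟩ := Option.isSome_iff_exists.1 (z.on .Z 0 rfl)
  obtain ⟨l, v, rfl, h1, -⟩ := (z.col _ _ _ hu).1
  have e : lam0 z = l := by
    rw [lam0, hu]
    rfl
  rw [e]
  exact ⟨h1, ⟨v, hu⟩, fun c i l' v' h2 =>
    (z.ok _ _ _ _ _ _ h2 hu).ll trivial trivial (Or.inl trivial)⟩

end

theorem ret6 : RET6 p k := by
  intro E E' ρ _ _ _ _ _ _ L S h B _ _ _ 𝒰 q H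
  obtain ⟨B₁, _, _, _, fx, fl, bw, b1, b2, b3, b4, b5⟩ := base (p := p) k B ρ E'
  let P : Bool → Col (LVF p k E' h) := fun b => (bif b then sJ k h {⊤} else sZ p k E' h).c
  let md : Bool → Mode := fun b => bif b then .red else .on
  let F : Bld (SP h S (PF.base p k B)) (LS p k E' h (PF.base p k B₁)) (c5 k E' ρ h L 𝒰)
      (d5 .off .off .off .on .red) P md :=
    { e := fun b => some (bif b then .J else .Z)
      bx := fun {n T} z => bw T z.x (lam0 z)
      g := fun _ v => VP.gr v
      bx_map := fun {n T T'} φ z => by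
        obtain ⟨h1, ⟨v, hv⟩, -⟩ := lam0_eq z
        rw [← (lam0_eq (z.map φ)).2.2 .Z 0 ((lam0 z).map φ.w) (v.map φ.r)
          (congrArg (Option.map _) hv)]
        exact b4 T T' φ z.x _ h1
      bx_res := fun f z => by
        obtain ⟨-, ⟨v, hv⟩, -⟩ := lam0_eq (z.res f)
        rw [(lam0_eq z).2.2 .Z (f 0) _ v hv]
        rfl
      g_map := fun _ _ v => by cases v <;> rfl
      col := fun z c' c v e1 e2 _ => by
        cases c' <;> cases e1 <;> obtain ⟨l, u, rfl, -, hu⟩ := e2 <;> exact ⟨u, rfl, hu, trivial⟩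
      ok := fun {T} x c' _ v d' _ u v' u' e1 e2 e3 e4 e5 e6 e7 => by
        have key : ∀ (l l' : Matrix ρ E' T.W) (v u : LV p E' h T.K), IsLam T.F l → IsLam T.F l' →
            v.IsZ T.F → u.IsZ T.F → VP.Ok S T.F (.par l v) (.par l' u) → v.Ok T.F u :=
          fun l l' v u h1 h2 h3 h4 h5 => okz E' h T.K T.F v u T.cl h3 h4 (by
            have := w1_mulVec (Blk.dat S h1).mc (h5.aa trivial trivial)
            rwa [VP.a, VP.a, mulVec_sub, mulVec_mulVec, mulVec_mulVec, (Blk.dat S h1).cη,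
              (Blk.dat S h2).cη, one_mulVec, one_mulVec] at this)
        cases c' <;> cases e1 <;> cases d' <;> cases e2 <;> obtain ⟨l, v, rfl, hl, hv⟩ := e3 <;>
          obtain ⟨l', u, rfl, hl', hu⟩ := e4 <;> cases e6 <;> cases e7 <;>
          exact key _ _ _ _ hl hl' hv.1 hu.1 e5
      on := fun c' e1 => by cases c' <;> cases e1; exact ⟨_, rfl, rfl⟩
      off := fun c' c e1 e2 => by cases c' <;> cases e1
      full := fun c e1 => by cases c <;> cases e1; exact ⟨true, rfl, rfl⟩ }
  let G : Bld (LS p k E' h (PF.base p k B₁)) (SP h S (PF.base p k B)) P md (c5 k E' ρ h L 𝒰)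
      (d5 .off .off .off .on .red) :=
    { e := d5 none none none (some false) (some true)
      bx := fun {n T} z => fx T z.x
      g := fun {T} y v => some (VP.par (fl T y) v)
      bx_map := fun {n T T'} φ z => b2 T T' φ z.x
      bx_res := fun _ _ => rfl
      g_map := fun {T T'} φ y v => congrArg (fun l => some (VP.par l (LV.map φ.r v))) (b3 T T' φ y)
      col := fun {n T} z c' c v e1 e2 _ => by
        cases c' <;> cases e1 <;> exact ⟨_, rfl, ⟨_, v, rfl, b1 T z.x, e2⟩, trivial⟩
      ok := fun {T} y _ _ v _ _ u v' u' _ _ _ _ e1 e2 e3 => by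
        cases e2
        cases e3
        have D := Blk.dat S (b1 T y)
        have h0 : ∀ x : E' → T.W, W1 T.F (S.pi (fl T y) *ᵥ (S.eta (fl T y) *ᵥ x)) := fun x => by
          rw [mulVec_mulVec, D.πη, zero_mulVec]
          exact fun _ => zero_mem _
        refine ⟨fun _ _ => ?_, fun _ _ => h0 _, fun _ _ => h0 _, fun _ _ _ => rfl⟩
        have := w1_mulVec (x := LV.a v - LV.a u) D.mη e1.a
        rwa [mulVec_sub] at this
      on := fun c' e1 => by cases c' <;> cases e1; exact ⟨_, rfl, rfl⟩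
      off := fun c' c e1 e2 => by cases c' <;> cases e1 <;> cases e2
      full := fun c e1 => by cases c <;> cases e1; exact ⟨.J, rfl, rfl⟩ }
  refine good_of_retract (a := (pact h S _).cf _ _ (stab_c5 S _ 𝒰))
    (a' := (lact p k E' h _).cf P md fun c => stab_of_sc (SC.sc _)) F.toMap G.toMap (fun n T z => ?_) (fun s _ n T z => ?_) (H B₁)
  · obtain ⟨h1, -, h2⟩ := lam0_eq z
    have key : ∀ c i, (∀ u, z.w c i = some u → ∃ l v, u = VP.par l v) →
        (((z.w c i).bind VP.gr).bind fun v => some (VP.par (fl T (bw T z.x (lam0 z))) v)) =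
          z.w c i := fun c i hc => by
      rcases e : z.w c i with _ | u
      · rfl
      · obtain ⟨l, v, rfl⟩ := hc u e
        rw [(b5 T z.x _ h1).2, h2 c i l v e]
        rfl
    refine Sys.Conf.ext (b5 T z.x _ h1).1 (funext fun c => funext fun i => ?_)
    cases c
    · exact (z.off .l i rfl).symm
    · exact (z.off .P i rfl).symm
    · exact (z.off .Q i rfl).symm
    · exact key .Z i fun u hu => let ⟨l, v, e, _⟩ := (z.col _ _ _ hu).1; ⟨l, v, e⟩
    · exact key .J i fun u hu => let ⟨l, v, e, _⟩ := (z.col _ _ _ hu).1; ⟨l, v, e⟩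
  · refine Sys.Conf.ext rfl (funext fun c => funext fun i => ?_)
    cases c
    iterate 3 rfl
    · show (((z.w false i).map (LV.sc' s)).bind fun v => some (VP.par (fl T z.x) v)) =
        ((z.w false i).bind fun v => some (VP.par (fl T z.x) v)).map (VP.sc s)
      cases z.w false i <;> rfl
    · show (((z.w true i).map (LV.sc' s)).bind fun v => some (VP.par (fl T z.x) v)) =
        ((z.w true i).bind fun v => some (VP.par (fl T z.x) v)).map (VP.sc s)
      cases z.w true i <;> rfl

end P261.C1
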