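import Vale.Agent.P261Z.C1.Sys
import Vale.Agent.P261Z.S.Sk

/-!
# P261Z, block C1: the system of projections and lattices is representable
-/

set_option linter.unusedSectionVars false

noncomputable section

open Matrix

namespace P261.C1

variable {p : ℕ} [hp : Fact p.Prime] {k : Type} [Field k]

namespace Rpp

theorem cut_W1 (hc : SS.CUT p k) (X : PF p k) {I : Type} (g : ∀ {T : FP p k}, X.obj T → I → T.W)
    (hg : ∀ (T T' : FP p k) (φ : T.Hom T') x i, g (X.map φ x) i = φ.w (g x i)) :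
    X.Cut fun {T} x => W1 T.F (g x) :=
  (hc X).2.2.2.2.1 I (fun i {T} x => g x i ∈ T.F.WL 1) fun i =>
    ((hc X).2.2.2.2.2.2.2.2.2 (fun x => g x i) fun T T' φ x => hg T T' φ x i).1 1

theorem cut_eq (hc : SS.CUT p k) (X : PF p k) {I J : Type}
    (g g' : ∀ {T : FP p k}, X.obj T → Matrix I J T.W)
    (hg : ∀ (T T' : FP p k) (φ : T.Hom T') x, g (X.map φ x) = (g x).map φ.w)
    (hg' : ∀ (T T' : FP p k) (φ : T.Hom T') x, g' (X.map φ x) = (g' x).map φ.w) :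
    X.Cut fun x => g x = g' x := by
  refine (hc X).2.2.2.2.2.2.2.1 (fun x => ∀ a : I × J, g x a.1 a.2 - g' x a.1 a.2 = 0) _
    (fun T x => ⟨fun h => Matrix.ext fun i j => sub_eq_zero.1 (h (i, j)),
      fun h a => by rw [h, sub_self]⟩) ?_
  refine (hc X).2.2.2.2.1 (I × J) (fun a {T} x => g x a.1 a.2 - g' x a.1 a.2 = 0) fun a => ?_
  refine ((hc X).2.2.2.2.2.2.2.2.2 (fun x => g x a.1 a.2 - g' x a.1 a.2) fun T T' φ x => ?_).2
  rw [hg, hg', map_sub]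
  rfl

theorem cut_isLam (hc : SS.CUT p k) (X : PF p k) {I J : Type}
    (g : ∀ {T : FP p k}, X.obj T → Matrix I J T.W)
    (hg : ∀ (T T' : FP p k) (φ : T.Hom T') x, g (X.map φ x) = (g x).map φ.w) :
    X.Cut fun {T} x => IsLam T.F (g x) := by
  refine (hc X).2.2.2.2.2.2.2.1 (fun {T} x => (g x).map (si p T.K) = g x ∧
      (∀ a : I × J, g x a.1 a.2 ∈ T.F.WL 0) ∧ ∀ a : I × J, (g x a.1 a.2).coeff 0 = 0) _
    (fun T x => ⟨fun h => ⟨h.1, fun i j => h.2.1 (i, j), fun i j => h.2.2 (i, j)⟩,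
      fun h => ⟨h.fix, fun a => h.mem a.1 a.2, fun a => h.zero a.1 a.2⟩⟩) ?_
  refine (hc X).2.2.2.1 _ _ (cut_eq hc X (fun {T} x => (g x).map (si p T.K)) g
    (fun T T' φ x => by rw [hg, map_si_map]) hg) ((hc X).2.2.2.1 _ _ ?_ ?_)
  · refine (hc X).2.2.2.2.1 (I × J) (fun a {T} x => g x a.1 a.2 ∈ T.F.WL 0) fun a => ?_
    refine ((hc X).2.2.2.2.2.2.2.2.2 (fun x => g x a.1 a.2) fun T T' φ x => ?_).1 0
    rw [hg]
    rfl
  · refine (hc X).2.2.2.2.1 (I × J) (fun a {T} x => (g x a.1 a.2).coeff 0 = 0) fun a => ?_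
    refine (hc X).2.2.1 ⟨fun x => (g x a.1 a.2).coeff 0, fun φ x => ?_⟩
      ⟨fun _ => 0, fun φ _ => (map_zero φ.f).symm⟩
    rw [hg]
    rfl

variable {E E' ρ : Type} [Fintype E] [DecidableEq E] [Fintype E'] [DecidableEq E'] [Fintype ρ]
  [DecidableEq ρ] {L : Sbs p E} {h : ℕ}

theorem cut_ok (hc : SS.CUT p k) (S : Spl L E' ρ) (X : PF p k) (s t : X.Tr (VPF p k E E' ρ h)) :
    X.Cut fun {T} z => VP.Ok S T.F (s.f z) (t.f z) := by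
  have dL : ∀ s : X.Tr (VPF p k E E' ρ h), X.Disc fun z => (s.f z).HasL := fun s T T' φ x => by
    show VP.HasL (s.f (X.map φ x)) ↔ _
    rw [s.map]
    exact VP.hasL_map φ.r _
  have dA : ∀ s : X.Tr (VPF p k E E' ρ h), X.Disc fun z => (s.f z).HasA := fun s T T' φ x => by
    show VP.HasA (s.f (X.map φ x)) ↔ _
    rw [s.map]
    exact VP.hasA_map φ.r _
  have nl : ∀ (s : X.Tr (VPF p k E E' ρ h)) (T T' : FP p k) (φ : T.Hom T') x,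
      VP.l (s.f (X.map φ x)) = (VP.l (s.f x)).map φ.w := fun s T T' φ x => by
    rw [s.map]
    exact VP.l_map φ.r _
  have na : ∀ (s : X.Tr (VPF p k E E' ρ h)) (T T' : FP p k) (φ : T.Hom T') x,
      VP.a S (s.f (X.map φ x)) = fun e => φ.w (VP.a S (s.f x) e) := fun s T T' φ x => by
    rw [s.map]
    exact VP.a_map S φ.r _
  have hi := (hc X).2.2.2.2.2.1
  have hla : ∀ s t : X.Tr (VPF p k E E' ρ h), X.Cut fun {T} z =>
      (s.f z).HasL → (t.f z).HasA → W1 T.F (S.pi (s.f z).l *ᵥ (t.f z).a S) := fun s t =>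
    hi _ _ (dL s) (hi _ _ (dA t) (cut_W1 hc X (fun z => S.pi (s.f z).l *ᵥ (t.f z).a S)
      fun T T' φ x i => by
        rw [nl, na, ← Spl.pi_map, ← mulVec_map]))
  refine (hc X).2.2.2.2.2.2.2.1 (fun {T} z =>
      ((s.f z).HasA → (t.f z).HasA → W1 T.F ((s.f z).a S - (t.f z).a S)) ∧
      ((s.f z).HasL → (t.f z).HasA → W1 T.F (S.pi (s.f z).l *ᵥ (t.f z).a S)) ∧
      ((t.f z).HasL → (s.f z).HasA → W1 T.F (S.pi (t.f z).l *ᵥ (s.f z).a S)) ∧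
      ((s.f z).HasL → (t.f z).HasL → (s.f z).HasA ∨ (t.f z).HasA → (s.f z).l = (t.f z).l)) _
    (fun T x => ⟨fun h => ⟨h.1, h.2.1, h.2.2.1, h.2.2.2⟩, fun h => ⟨h.aa, h.la, h.al, h.ll⟩⟩) ?_
  refine (hc X).2.2.2.1 _ _ ?_ ((hc X).2.2.2.1 _ _ (hla s t) ((hc X).2.2.2.1 _ _ (hla t s) ?_))
  · refine hi _ _ (dA s) (hi _ _ (dA t) (cut_W1 hc X (fun z => (s.f z).a S - (t.f z).a S)
      fun T T' φ x i => ?_))
    rw [na, na, Pi.sub_apply, Pi.sub_apply, map_sub]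
  · exact hi _ _ (dL s) (hi _ _ (dL t) (hi _ _
      (fun T T' φ x => or_congr (dA s T T' φ x) (dA t T T' φ x))
      (cut_eq hc X (fun z => (s.f z).l) (fun z => (t.f z).l) (nl s) (nl t))))

/-- the matrix with given coordinates -/
def mat {K : Type} [CommRing K] (y : ρ × E' × ℕ → K) : Matrix ρ E' (WittVector p K) :=
  fun i j => WittVector.mk p fun n => y (i, j, n)

theorem rep_cL (hk : Pf p k) (hc : SS.CUT p k) (h0 : SS.REP0 p k) :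
    ((VPF p k E E' ρ h).sub (cL p k E E' ρ h)).FRep := by
  refine (h0 hk).2.2.2 _ (ρ × E' × ℕ) ⟨fun y => VP.lam (mat y), fun _ _ => rfl⟩ _ ?_ ?_ ?_ ?_
  · intro T y y' e
    have e' : mat (p := p) y = mat y' := congrArg VP.l e
    funext a
    exact congrArg (fun M : Matrix ρ E' T.W => (M a.1 a.2.1).coeff a.2.2) e'
  · rintro T _ ⟨l, rfl, -⟩
    exact ⟨fun a => (l a.1 a.2.1).coeff a.2.2, rfl⟩
  · refine (hc _).2.2.2.2.2.2.2.1 (fun {T} y => IsLam T.F (mat y)) _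
      (fun T y => ⟨fun H => ⟨_, rfl, H⟩, fun ⟨l, e, H⟩ => ?_⟩)
      (cut_isLam hc (PF.free p k (ρ × E' × ℕ)) (fun y => mat y) fun _ _ _ _ => rfl)
    have e' : mat (p := p) y = l := congrArg VP.l e
    rwa [e']
  · rintro ⟨i, j, n⟩
    refine ⟨(p : ℝ) ^ n * 0, fun T y ⟨l, e, H⟩ => ?_⟩
    have e' : mat (p := p) y = l := congrArg VP.l e
    rw [← e'] at H
    exact Fil.mem_WL.1 (H.mem i j) n

theorem rep_cP (hk : Pf p k) (h1 : SS.REP1 p k) {𝒰 : Set (Sbs p E)}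
    (H : ((LVF p k E h).sub (cJ k h 𝒰)).FRep) :
    ((VPF p k E E' ρ h).sub (cP k E' ρ h 𝒰)).FRep := by
  refine (h1 hk).2.2.1 ((LVF p k E h).sub (cJ k h 𝒰)) _
    ⟨fun v => ⟨VP.pos v.1, v.1, rfl, v.2⟩, fun _ _ => rfl⟩
    (fun T => ⟨fun v v' e => ?_, ?_⟩) H
  · exact Subtype.ext (VP.pos.inj (congrArg Subtype.val e))
  · rintro ⟨_, v, rfl, hv⟩
    exact ⟨⟨v, hv⟩, rfl⟩

theorem rep_cR (hk : Pf p k) (hc : SS.CUT p k) (h0 : SS.REP0 p k) (h1 : SS.REP1 p k)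
    {𝒰 : Set (Sbs p E')} (H : ((LVF p k E' h).sub (cJ k h 𝒰)).FRep) :
    ((VPF p k E E' ρ h).sub (cR k E ρ h 𝒰)).FRep := by
  refine (h1 hk).2.2.1
    (((VPF p k E E' ρ h).sub (cL p k E E' ρ h)).prod ((LVF p k E' h).sub (cJ k h 𝒰))) _
    ⟨fun z => ⟨VP.par (VP.l z.1.1) z.2.1, _, _, rfl, ?_, z.2.2⟩, ?_⟩
    (fun T => ⟨?_, ?_⟩) ((h1 hk).1 _ _ (rep_cL (E := E) (E' := E') (ρ := ρ) (h := h) hk hc h0) H)
  · obtain ⟨l, e, hl⟩ := z.1.2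
    rw [e]
    exact hl
  · rintro T T' φ ⟨⟨_, l, rfl, hl⟩, v⟩
    rfl
  · rintro ⟨⟨_, l, rfl, hl⟩, v, hv⟩ ⟨⟨_, l', rfl, hl'⟩, v', hv'⟩ e
    obtain ⟨e1, e2⟩ := VP.par.inj (congrArg Subtype.val e)
    exact Prod.ext (Subtype.ext (congrArg VP.lam e1)) (Subtype.ext e2)
  · rintro ⟨_, l, v, rfl, hl, hv⟩
    exact ⟨(⟨VP.lam l, l, rfl, hl⟩, ⟨v, hv⟩), rfl⟩

end Rpp

theorem rpl (hk : Pf p k) (h0 : SS.REP0 p k) (h3 : SS.REP3 p k) : RPL p k := by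
  intro E _ _ h B _ _ _ κ _ 𝒰 hh
  exact (h3 hk E h hh).2.2 _ κ _ ((h0 hk).1 B) fun c => (h3 hk E h hh).2.1 (𝒰 c)

theorem rpp (hk : Pf p k) (hc : SS.CUT p k) (h0 : SS.REP0 p k) (h1 : SS.REP1 p k)
    (h3 : SS.REP3 p k) : RPP p k := by
  intro E E' ρ _ _ _ _ _ _ L S h B _ _ _ 𝒰 hh
  have hJ : ∀ (E : Type) [Fintype E] [DecidableEq E] (𝒰 : Set (Sbs p E)),
      ((LVF p k E h).sub (cJ k h 𝒰)).FRep := fun E _ _ 𝒰 => (h3 hk E h hh).2.1 𝒰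
  refine ⟨inferInstance, (h0 hk).1 B, fun c => ?_, fun c => ?_, fun c c' => ?_⟩
  · cases c
    · exact Rpp.rep_cL hk hc h0
    · exact Rpp.rep_cP hk h1 (hJ E _)
    · exact Rpp.rep_cP hk h1 (hJ E _)
    · exact Rpp.rep_cR hk hc h0 h1 (hJ E' _)
    · exact Rpp.rep_cR hk hc h0 h1 (hJ E' _)
  · exact (hc _).1 _ fun _ _ _ _ => Iff.rfl
  · exact Rpp.cut_ok hc S (((VPF p k E E' ρ h).sub (c5 k E' ρ h L 𝒰 c)).prod
      ((VPF p k E E' ρ h).sub (c5 k E' ρ h L 𝒰 c'))) ⟨fun z => z.1.1, fun _ _ => rfl⟩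
      ⟨fun z => z.2.1, fun _ _ => rfl⟩

end P261.C1
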