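import Vale.Agent.P261Z.C1.Ind
import Vale.Agent.P261Z.C1.Ret
import Vale.Agent.P261Z.C1.Rpp
import Vale.Agent.P261Z.S.ToC1
import Vale.Agent.P261Z.S.Rep0
import Vale.Agent.P261Z.S.Rep1
import Vale.Agent.P261Z.S.Rep3

/-!
# P261Z, block C1: assembly
-/

noncomputable section

namespace P261.C1

variable {p : ℕ} [hp : Fact p.Prime] {k : Type} [Field k]

/-- block C1 from the two local criteria of block S -/
theorem stC1_of (hk : Pf p k) (hT : SS.TOG p k) (hS : SS.SECLOC p k) : StC1 p k := by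
  have h1 : TOG p k := SS.c1_tog (Ch.char (p := p) (K := k)) hT
  have h2 : SECLOC p k := SS.c1_secloc hk hS
  have h3 : ∀ (A : FA.{1} p k) (q : ℕ), A.AAc → A.Good q := fun _ q h => aac_good h q
  exact ind_step h1 h2 (SS.rpl hk SS.rep0) reidx h3
    (step h1 h2 (rpp hk SS.cut SS.rep0 SS.rep1 (SS.rep3' SS.rep0)) ret0 ret6 h3)

end P261.C1
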