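import Vale.Agent.P261Z.C1.Defs
import Vale.Agent.P261Z.L.FV
import Vale.Agent.P261Z.L.Act

/-!
# P261Z, block C1: a basis of the kernel of the projection
-/

set_option linter.unusedSectionVars false

noncomputable section

open Matrix

namespace P261.C1

namespace Bas

section alg

variable {I I' ρ : Type} [Fintype I] [DecidableEq I] [Fintype I'] [DecidableEq I'] [Fintype ρ]
  [DecidableEq ρ]

theorem field {κ : Type} [Field κ] (e : I ≃ I' ⊕ ρ) {Φ : Matrix ρ I κ} {G : Matrix I ρ κ}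
    (h : Φ * G = 1) : ∃ (X : Matrix I I' κ) (Y : Matrix I' I κ), Y * (1 - G * Φ) * X = 1 := by
  have h1 : LinearMap.range (toLin' Φ) = ⊤ := LinearMap.range_eq_top.2 fun y =>
    ⟨G *ᵥ y, by rw [toLin'_apply, mulVec_mulVec, h, one_mulVec]⟩
  have h2 := LinearMap.finrank_range_add_finrank_ker (toLin' Φ)
  rw [h1, finrank_top, Module.finrank_fintype_fun_eq_card, Module.finrank_fintype_fun_eq_card,
    Fintype.card_congr e, Fintype.card_sum] at h2
  let b : (I' → κ) ≃ₗ[κ] LinearMap.ker (toLin' Φ) := LinearEquiv.ofFinrankEq _ _ (by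
    rw [Module.finrank_fintype_fun_eq_card]
    omega)
  obtain ⟨r, hr⟩ := ((LinearMap.ker (toLin' Φ)).subtype ∘ₗ b.toLinearMap
    ).exists_leftInverse_of_injective (LinearMap.ker_eq_bot.2 (Subtype.val_injective.comp
      b.injective))
  refine ⟨LinearMap.toMatrix' ((LinearMap.ker (toLin' Φ)).subtype ∘ₗ b.toLinearMap),
    LinearMap.toMatrix' r, ?_⟩
  have h3 : Φ * LinearMap.toMatrix' ((LinearMap.ker (toLin' Φ)).subtype ∘ₗ b.toLinearMap) = 0 := by
    apply toLin'.injective
    rw [toLin'_mul, toLin'_toMatrix', map_zero]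
    exact LinearMap.ext fun y => (b y).2
  rw [Matrix.mul_assoc, Matrix.sub_mul, Matrix.one_mul, Matrix.mul_assoc, h3, Matrix.mul_zero,
    sub_zero, ← LinearMap.toMatrix'_comp, hr, LinearMap.toMatrix'_id]

theorem cover {C : Type} [CommRing C] (e : I ≃ I' ⊕ ρ) {Φ : Matrix ρ I C} {G : Matrix I ρ C}
    (h : Φ * G = 1) : ∃ (D : Type) (_ : CommRing D) (_ : Algebra C D), Module.FaithfullyFlat C D ∧
      ∃ (X : Matrix I I' D) (Y : Matrix I' I D),
        IsUnit (Y * (1 - G * Φ).map (algebraMap C D) * X).det := by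
  let P := MvPolynomial (I × I' ⊕ I' × I) C
  let X : Matrix I I' P := of fun i j => MvPolynomial.X (Sum.inl (i, j))
  let Y : Matrix I' I P := of fun i j => MvPolynomial.X (Sum.inr (i, j))
  let d : P := (Y * (1 - G * Φ).map (algebraMap C P) * X).det
  have key : ∀ {A : Type} [CommRing A] (g : P →+* A), g d =
      (Y.map g * (1 - G * Φ).map (g.comp (algebraMap C P)) * X.map g).det := fun g => by
    rw [RingHom.map_det, RingHom.mapMatrix_apply, Matrix.map_mul, Matrix.map_mul, Matrix.map_map]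
    rfl
  have : Module.Flat C (Localization.Away d) := Module.Flat.trans C P (Localization.Away d)
  refine ⟨Localization.Away d, _, inferInstance, ⟨fun m hm e1 => ?_⟩, X.map (algebraMap P _),
    Y.map (algebraMap P _), ?_⟩
  · let _ := Ideal.Quotient.field m
    obtain ⟨X₀, Y₀, h1⟩ := field e (Φ := Φ.map (Ideal.Quotient.mk m))
      (G := G.map (Ideal.Quotient.mk m))
      (by rw [← Matrix.map_mul, h, Matrix.map_one _ (map_zero _) (map_one _)])
    let g : P →+* C ⧸ m := MvPolynomial.eval₂Hom (Ideal.Quotient.mk m)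
      (Sum.elim (fun q => X₀ q.1 q.2) fun q => Y₀ q.1 q.2)
    have g1 : g.comp (algebraMap C P) = Ideal.Quotient.mk m := MvPolynomial.eval₂Hom_comp_C _ _
    have g2 : IsUnit (g d) := by
      rw [key, g1, show X.map g = X₀ from Matrix.ext fun i j => MvPolynomial.eval₂Hom_X' _ _ _,
        show Y.map g = Y₀ from Matrix.ext fun i j => MvPolynomial.eval₂Hom_X' _ _ _,
        Matrix.map_sub _ (map_sub _), Matrix.map_one _ (map_zero _) (map_one _), Matrix.map_mul,
        h1, det_one]
      exact isUnit_one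
    rw [Ideal.smul_top_eq_map, Submodule.restrictScalars_eq_top_iff, Ideal.eq_top_iff_one] at e1
    have h2 : m.map (algebraMap C (Localization.Away d)) ≤
        RingHom.ker (IsLocalization.Away.lift d g2) := Ideal.map_le_iff_le_comap.2 fun a ha => by
      rw [Ideal.mem_comap, RingHom.mem_ker, IsScalarTower.algebraMap_apply C P,
        IsLocalization.Away.lift_eq]
      exact (RingHom.congr_fun g1 a).trans (Ideal.Quotient.eq_zero_iff_mem.2 ha)
    exact one_ne_zero ((map_one _).symm.trans (h2 e1))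
  · rw [IsScalarTower.algebraMap_eq C P, ← key]
    exact IsLocalization.Away.algebraMap_isUnit d

theorem split {A : Type} [CommRing A] (e : I ≃ I' ⊕ ρ) {Φ : Matrix ρ I A} {E : Matrix I ρ A}
    (h : Φ * E = 1) (X : Matrix I I' A) (Y : Matrix I' I A)
    (hu : IsUnit (Y * (1 - E * Φ) * X).det) :
    ∃ (G : Matrix I I' A) (H : Matrix I' I A), G * H + E * Φ = 1 ∧ H * E = 0 ∧ Φ * G = 0 := by
  have h1 : (1 - E * Φ) * E = 0 := by
    rw [Matrix.sub_mul, Matrix.one_mul, Matrix.mul_assoc, h, Matrix.mul_one, sub_self]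
  have h2 : Φ * (1 - E * Φ) = 0 := by
    rw [Matrix.mul_sub, Matrix.mul_one, ← Matrix.mul_assoc, h, Matrix.one_mul, sub_self]
  have h3 : (1 - E * Φ) * (1 - E * Φ) = 1 - E * Φ := by
    rw [Matrix.mul_sub, Matrix.mul_one, ← Matrix.mul_assoc, h1, Matrix.zero_mul, sub_zero]
  have h4 : (Y * (1 - E * Φ) * X)⁻¹ * (Y * (1 - E * Φ)) * E = 0 := by
    rw [Matrix.mul_assoc _ _ E, Matrix.mul_assoc _ _ E, h1, Matrix.mul_zero, Matrix.mul_zero]
  have h5 : Φ * ((1 - E * Φ) * X) = 0 := by rw [← Matrix.mul_assoc, h2, Matrix.zero_mul]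
  refine ⟨(1 - E * Φ) * X, (Y * (1 - E * Φ) * X)⁻¹ * (Y * (1 - E * Φ)), ?_, h4, h5⟩
  rw [← fromCols_mul_fromRows, fromCols_mul_fromRows_eq_one_comm e, fromRows_mul_fromCols, h4, h5,
    h, Matrix.mul_assoc _ (Y * _), ← Matrix.mul_assoc (Y * _), Matrix.mul_assoc Y _ (1 - _), h3,
    nonsing_inv_mul _ hu, fromBlocks_one]

end alg

variable {p : ℕ} [hp : Fact p.Prime] {K K' : Type} [CommRing K] [Pf p K] [CommRing K'] [Pf p K']
  {F : Fil p K} {F' : Fil p K'}

theorem mw_map {f : K →+* K'} (hf : Fil.Maps f F F') {t : ℝ} {I J : Type}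
    {M : Matrix I J (WittVector p K)} (h : F.MW t M) : F'.MW t (M.map (wm p f)) :=
  fun i j => Fil.WS_map hf (h i j)

theorem mw_si {I J : Type} {M : Matrix I J (WittVector p K)} (h : F.MW 0 M) :
    F.MW 0 (M.map (si p K)) := fun i j => by simpa using Fil.WS_si (h i j)

theorem mw_lift {I J : Type} {M : Matrix I J (WittVector p K)} (h : F.MW 0 M) :
    ∃ N : Matrix I J (WittVector p F.zero), N.map (wm p F.zero.subtype) = M := by
  choose N hN using fun i j => (mem_wsub (S := F.zero)).2 fun n =>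
    F.mem_zero.2 (by simpa using Fil.mem_WL.1 (h i j) n)
  exact ⟨of N, Matrix.ext hN⟩

theorem mw_sub {I J : Type} (N : Matrix I J (WittVector p F.zero)) :
    F.MW 0 (N.map (wm p F.zero.subtype)) := fun i j => Fil.mem_WL.2 fun n => by
  rw [mul_zero]
  exact ((N i j).coeff n).2

theorem mw_ci {I J : Type} (M : Matrix I J ℤ) : F.MW 0 (ci (WittVector p K) M) :=
  fun _ _ => Fil.WL_intCast _

theorem mw_blk {I J L : Type} [DecidableEq L] {M : Matrix I J (WittVector p K)} (h : F.MW 0 M) :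
    F.MW 0 (fromBlocks M 0 0 (1 : Matrix L L (WittVector p K))) := by
  rintro (i | i) (j | j)
  · exact h i j
  · exact zero_mem _
  · exact zero_mem _
  · by_cases e : i = j <;> simp [e, F.WL_one]

theorem ci_map {A B I J : Type} [CommRing A] [CommRing B] (g : A →+* B) (M : Matrix I J ℤ) :
    (ci A M).map g = ci B M := Matrix.ext fun _ _ => map_intCast g _

variable {E E' ρ : Type} [Fintype E] [DecidableEq E] [Fintype E'] [DecidableEq E'] [Fintype ρ]
  [DecidableEq ρ] {L : Sbs p E} {h : ℕ}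

theorem isZ_map {f : K →+* K'} (hf : Fil.Maps f F F') {v : LV p E h K} (hv : v.IsZ F) :
    (v.map f).IsZ F' := by
  have h1 : ∀ a : E → WittVector p K, (Ua h a).map (wm p f) = Ua h fun i => wm p f (a i) := by
    intro a
    rw [Ua, fromBlocks_map, Matrix.map_one _ (map_zero _) (map_one _),
      Matrix.map_one _ (map_zero _) (map_one _), Matrix.map_zero _ (map_zero _), Ua]
    exact congrArg (fromBlocks 1 · 0 1) (Matrix.ext fun i j => wm_si_pow f _ _)
  have h2 : ∀ M : Matrix (E ⊕ Fin h) (E ⊕ Fin h) (WittVector p K),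
      (M.map (si p K)).map (wm p f) = (M.map (wm p f)).map (si p K') :=
    fun M => Matrix.ext fun i j => wm_si f _
  refine ⟨fun i => ?_, hv.lat, ?_, ?_, ?_, ?_, ?_⟩
  · have := Fil.WS_map hf (hv.isA i)
    rwa [wm_Dop] at this
  · have := congrArg (fun M => M.map (wm p f)) hv.inv
    simp only [Matrix.map_mul, Matrix.map_one _ (map_zero (wm p f)) (map_one _)] at this
    exact this
  · have := mw_map hf hv.hA
    rwa [LV.mA, Matrix.map_mul, Matrix.map_mul, V0_map, h2] at this
  · have := mw_map hf hv.hB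
    rwa [LV.mB, Matrix.map_mul, Matrix.map_mul, B0_map, h2] at this
  · have := mw_map hf hv.b1
    rw [Matrix.map_mul, h1] at this
    have e : (fun i => wm p f ((-v.a) i)) = -(v.map f).a := funext fun i => map_neg _ _
    rwa [e] at this
  · have := mw_map hf hv.b2
    rwa [Matrix.map_mul, h1] at this

theorem lift {C D I I' : Type} [CommRing C] [CommRing D] [Algebra C D] [Fintype I] [DecidableEq I]
    [Fintype I'] [DecidableEq I'] (e : I ≃ I' ⊕ ρ) {Φ : Matrix ρ I (WittVector p C)}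
    {M : Matrix I ρ (WittVector p C)} (h1 : Φ * M = 1) {X : Matrix I I' D} {Y : Matrix I' I D}
    (h3 : IsUnit (Y * (1 - M.map WittVector.constantCoeff * Φ.map WittVector.constantCoeff).map
      (algebraMap C D) * X).det) (ψ : D →+* K) :
    ∃ (G : Matrix I I' (WittVector p K)) (H : Matrix I' I (WittVector p K)),
      G * H + M.map (wm p (ψ.comp (algebraMap C D))) * Φ.map (wm p (ψ.comp (algebraMap C D))) = 1 ∧
      H * M.map (wm p (ψ.comp (algebraMap C D))) = 0 ∧
      Φ.map (wm p (ψ.comp (algebraMap C D))) * G = 0 := by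
  refine split e (by rw [← Matrix.map_mul, h1, Matrix.map_one _ (map_zero _) (map_one _)])
    (X.map fun d => tm p (ψ d)) (Y.map fun d => tm p (ψ d)) (isUnit_of_coeff ?_)
  have k1 : ∀ {I J : Type} (N : Matrix I J D),
      (N.map fun d => tm p (ψ d)).map WittVector.constantCoeff = N.map ψ :=
    fun N => Matrix.ext fun i j => WittVector.teichmuller_coeff_zero p _
  have k2 : ∀ {I J : Type} (N : Matrix I J (WittVector p C)),
      (N.map (wm p (ψ.comp (algebraMap C D)))).map WittVector.constantCoeff =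
        ((N.map WittVector.constantCoeff).map (algebraMap C D)).map ψ :=
    fun N => Matrix.ext fun i j => WittVector.map_coeff (ψ.comp (algebraMap C D)) (N i j) 0
  have k3 := h3.map ψ
  rw [← WittVector.constantCoeff_apply, RingHom.map_det, RingHom.mapMatrix_apply, Matrix.map_mul,
    Matrix.map_mul, Matrix.map_sub _ (map_sub _), Matrix.map_one _ (map_zero _) (map_one _),
    Matrix.map_mul, k1, k1, k2, k2]
  rwa [RingHom.map_det, RingHom.mapMatrix_apply, Matrix.map_mul, Matrix.map_mul,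
    Matrix.map_sub _ (map_sub _), Matrix.map_one _ (map_zero _) (map_one _), Matrix.map_mul,
    Matrix.map_sub _ (map_sub _), Matrix.map_one _ (map_zero _) (map_one _), Matrix.map_mul] at k3

variable (S : Spl L E' ρ)

theorem ci_mul (A : Type) [CommRing A] {I J M : Type} [Fintype J] (X : Matrix I J ℤ)
    (Y : Matrix J M ℤ) : ci A X * ci A Y = ci A (X * Y) := Matrix.map_mul.symm

theorem rel {A : Type} [CommRing A] (lam : Matrix ρ E' A) :
    S.pi lam * ci A S.b2 = 1 ∧ S.pi lam * S.eta lam = 0 ∧ ci A S.c1 * S.eta lam = 1 ∧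
      ci A S.c1 * ci A S.b2 = 0 ∧ S.eta lam * ci A S.c1 + ci A S.b2 * S.pi lam = 1 := by
  have k0 : ∀ {I J : Type}, ci A (0 : Matrix I J ℤ) = 0 := Matrix.map_zero _ (map_zero _)
  have k1 : ∀ {I : Type} [DecidableEq I], ci A (1 : Matrix I I ℤ) = 1 :=
    Matrix.map_one _ (map_zero _) (map_one _)
  have k2 : ci A S.b1 * ci A S.c1 + ci A S.b2 * ci A S.c2 = 1 := by
    rw [ci_mul, ci_mul, ← k1, ← S.tot]
    exact (Matrix.map_add _ (map_add _) _ _).symm
  have k3 : ci A S.c1 * ci A S.b2 = 0 := by rw [ci_mul, S.c1b2, k0]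
  have k4 : ci A S.c1 * S.eta lam = 1 := by
    rw [Spl.eta, Matrix.mul_sub, ← Matrix.mul_assoc, k3, ci_mul, S.c1b1, k1, Matrix.zero_mul,
      sub_zero]
  refine ⟨?_, ?_, k4, k3, ?_⟩
  · rw [Spl.pi, Matrix.add_mul, Matrix.mul_assoc, k3, ci_mul, S.c2b2, k1, Matrix.mul_zero, add_zero]
  · rw [Spl.pi, Matrix.add_mul, Matrix.mul_assoc, k4, Spl.eta, Matrix.mul_sub, ← Matrix.mul_assoc,
      ci_mul, ci_mul, S.c2b1, S.c2b2, k0, k1, Matrix.one_mul, Matrix.mul_one, zero_sub,
      neg_add_cancel]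
  · rw [← k2, Spl.pi, Spl.eta, Matrix.sub_mul, Matrix.mul_add, Matrix.mul_assoc]
    abel

theorem fix_pi {lam : Matrix ρ E' (WittVector p K)} (g : WittVector p K →+* WittVector p K') :
    (S.pi lam).map g = S.pi (lam.map g) := by
  rw [Spl.pi, Matrix.map_add _ (map_add _), Matrix.map_mul, ci_map, ci_map, Spl.pi]

theorem fix_eta {lam : Matrix ρ E' (WittVector p K)} (g : WittVector p K →+* WittVector p K') :
    (S.eta lam).map g = S.eta (lam.map g) := by
  rw [Spl.eta, Matrix.map_sub _ (map_sub _), Matrix.map_mul, ci_map, ci_map, Spl.eta]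

theorem si_fix {I J : Type} {M : Matrix I J (WittVector p K)} (hM : M.map (si p K) = M) (n : ℕ)
    (i : I) (j : J) : (si p K ^ n) (M i j) = M i j := by
  induction n with
  | zero => rfl
  | succ n ih =>
    rw [pow_succ', RingHom.mul_def, RingHom.comp_apply, ih]
    exact congrFun (congrFun hM i) j

theorem mul_si {I J : Type} [Fintype J] {M : Matrix I J (WittVector p K)}
    (hM : M.map (si p K) = M) (a : J → WittVector p K) :
    M * (of fun i (j : Fin h) => (si p K ^ (j : ℕ)) (a i)) =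
      of fun i (j : Fin h) => (si p K ^ (j : ℕ)) ((M *ᵥ a) i) := by
  refine Matrix.ext fun i j => ?_
  simp only [Matrix.mul_apply, of_apply, mulVec, dotProduct, map_sum, map_mul, si_fix hM]

/-- the lattice in the kernel -/
theorem red {v : LV p E h K} (hv : v.IsZ F) {lam : Matrix ρ E' (WittVector p K)}
    (l1 : lam.map (si p K) = lam) (l2 : F.MW 0 lam)
    {G : Matrix (E ⊕ Fin h) (E' ⊕ Fin h) (WittVector p K)}
    {H : Matrix (E' ⊕ Fin h) (E ⊕ Fin h) (WittVector p K)} (hG : F.MW 0 G) (hH : F.MW 0 H)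
    {P : Matrix ρ (E ⊕ Fin h) (WittVector p K)} {Q : Matrix (E ⊕ Fin h) ρ (WittVector p K)}
    (hP : P = fromCols (S.pi lam) 0) (hQ : Q = fromRows (ci _ S.b2) 0)
    (h1 : G * H + v.ν * Q * (P * v.μ) = 1) (h2 : H * (v.ν * Q) = 0) (h3 : P * v.μ * G = 0) :
    ∃ v' : LV p E' h K, v'.IsZ F ∧ v'.a = ci _ S.c1 *ᵥ v.a := by
  obtain ⟨r1, r2, r3, r4, r5⟩ := rel S lam
  have s1 : (S.pi lam).map (si p K) = S.pi lam := by rw [fix_pi, l1]
  have s2 : (S.eta lam).map (si p K) = S.eta lam := by rw [fix_eta, l1]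
  have s3 : (ci (WittVector p K) S.c1).map (si p K) = ci _ S.c1 := ci_map _ _
  have s4 : (ci (WittVector p K) S.b2).map (si p K) = ci _ S.b2 := ci_map _ _
  have m1 : F.MW 0 (S.eta lam) := fun i j =>
    sub_mem (mw_ci _ i j) (by simpa using ((mw_ci S.b2).mul l2) i j)
  have m2 : F.MW 0 (ci (WittVector p K) S.c1) := mw_ci _
  generalize S.pi lam = π at *
  generalize S.eta lam = η at *
  generalize ci (WittVector p K) S.c1 = c at *
  generalize ci (WittVector p K) S.b2 = b at *
  obtain ⟨A, hA⟩ : ∃ A : Matrix (E ⊕ Fin h) (E' ⊕ Fin h) (WittVector p K),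
    A = fromBlocks η 0 0 1 := ⟨_, rfl⟩
  obtain ⟨B, hB⟩ : ∃ B : Matrix (E' ⊕ Fin h) (E ⊕ Fin h) (WittVector p K),
    B = fromBlocks c 0 0 1 := ⟨_, rfl⟩
  have t1 : B * A = 1 := by simp [hA, hB, fromBlocks_multiply, r3]
  have t2 : A * B = 1 - Q * P := by
    rw [eq_sub_iff_add_eq, hA, hB, hP, hQ, fromRows_mul_fromCols, ← fromBlocks_one, ← r5]
    simp [fromBlocks_multiply, fromBlocks_add]
  have t3 : B * Q = 0 := by simp [hB, hQ, fromBlocks_mul_fromRows, r4]
  have t4 : P.map (si p K) = P := by rw [hP, fromCols_map, s1, Matrix.map_zero _ (map_zero _)]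
  have t5 : A.map (si p K) = A := by
    simp only [hA, fromBlocks_map, s2, Matrix.map_zero _ (map_zero (si p K)),
      Matrix.map_one _ (map_zero (si p K)) (map_one _)]
  have t6 : B.map (si p K) = B := by
    simp only [hB, fromBlocks_map, s3, Matrix.map_zero _ (map_zero (si p K)),
      Matrix.map_one _ (map_zero (si p K)) (map_one _)]
  have t7 : A * V0 p E' h (WittVector p K) = V0 p E h (WittVector p K) * A := by simp [hA, V0, fromBlocks_multiply]
  have t8 : A * B0 p E' h (WittVector p K) = B0 p E h (WittVector p K) * A := by simp [hA, B0, fromBlocks_multiply]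
  have t9 : A * (B * v.μ * G) = v.μ * G := by
    rw [Matrix.mul_assoc, ← Matrix.mul_assoc, t2, Matrix.sub_mul, Matrix.one_mul, Matrix.mul_assoc,
      ← Matrix.mul_assoc P, h3, Matrix.mul_zero, sub_zero]
  have t10 : ∀ a : E → WittVector p K, Ua h (c *ᵥ a) * B = B * Ua h a := fun a => by
    simp [hB, Ua, fromBlocks_multiply, mul_si s3, -RingHom.coe_pow]
  have t11 : A * Ua h (c *ᵥ v.a) = Ua h v.a * A -
      Q * fromCols (0 : Matrix ρ E' (WittVector p K))
        (of fun i (j : Fin h) => (si p K ^ (j : ℕ)) ((π *ᵥ v.a) i)) := by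
    rw [eq_sub_iff_add_eq, hA, hQ, fromRows_mul_fromCols]
    simp only [Ua, fromBlocks_multiply, fromBlocks_add, Matrix.mul_one, Matrix.mul_zero,
      Matrix.zero_mul, Matrix.one_mul, add_zero, zero_add, ← mul_si s1, ← mul_si s3,
      ← Matrix.mul_assoc, ← Matrix.add_mul, r5]
  refine ⟨⟨c *ᵥ v.a, true, B * v.μ * G, H * v.ν * A, 0, 0⟩, ⟨fun i => ?_, rfl, ?_, ?_, ?_, ?_, ?_⟩,
    rfl⟩
  · have k : Dop p K h ((c *ᵥ v.a) i) = ∑ e, c i e * Dop p K h (v.a e) := by
      simp only [Dop_apply, mulVec, dotProduct, map_sum, map_mul, si_fix s3, mul_sub,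
        Finset.sum_sub_distrib, mul_left_comm]
    exact k ▸ sum_mem fun e _ => Fil.WS_mul_zero (m2 i e) (hv.isA e)
  · show B * v.μ * G * (H * v.ν * A) = 1
    have k : G * H = 1 - v.ν * Q * (P * v.μ) := eq_sub_of_add_eq h1
    calc _ = B * v.μ * (G * H) * v.ν * A := by simp only [Matrix.mul_assoc]
      _ = B * (v.μ * v.ν) * A - B * (v.μ * v.ν) * Q * (P * v.μ) * v.ν * A := by
        simp only [k, Matrix.mul_sub, Matrix.sub_mul, Matrix.mul_assoc, Matrix.one_mul]
      _ = 1 := by simp [hv.inv, t1, t3]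
  · have k := (hH.mul hv.hA).mul (mw_si hG)
    rw [add_zero, add_zero] at k
    refine (congrArg (F.MW _) ?_).mp k
    show H * (v.ν * V0 p E h (WittVector p K) * v.μ.map (si p K)) * G.map (si p K) =
      H * v.ν * A * V0 p E' h (WittVector p K) * (B * v.μ * G).map (si p K)
    have k1 := congrArg (fun M => M.map (si p K)) t9
    simp only [Matrix.map_mul (L := A), Matrix.map_mul (L := v.μ), t5] at k1
    rw [Matrix.mul_assoc (H * v.ν), t7, Matrix.mul_assoc (H * v.ν), Matrix.mul_assoc (V0 p E h (WittVector p K)),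
      k1]
    simp only [Matrix.mul_assoc]
  · have k := ((mw_si hH).mul hv.hB).mul hG
    rw [add_zero, add_zero] at k
    refine (congrArg (F.MW _) ?_).mp k
    show H.map (si p K) * (v.ν.map (si p K) * B0 p E h (WittVector p K) * v.μ) * G =
      (H * v.ν * A).map (si p K) * B0 p E' h (WittVector p K) * (B * v.μ * G)
    rw [Matrix.map_mul, Matrix.map_mul, t5, Matrix.mul_assoc _ A, t8, Matrix.mul_assoc _ (_ * A),
      Matrix.mul_assoc (B0 p E h (WittVector p K)), t9]
    simp only [Matrix.mul_assoc]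
  · have k := ((hB ▸ mw_blk m2 : F.MW 0 B).mul hv.b1).mul hG
    rw [add_zero, zero_add] at k
    refine (congrArg (F.MW _) ?_).mp k
    show B * (Ua h (-v.a) * v.μ) * G = Ua h (-(c *ᵥ v.a)) * (B * v.μ * G)
    rw [← mulVec_neg, ← Matrix.mul_assoc, ← Matrix.mul_assoc, ← Matrix.mul_assoc, t10]
  · have k := (hH.mul hv.b2).mul (hA ▸ mw_blk m1 : F.MW 0 A)
    rw [add_zero, zero_add] at k
    refine (congrArg (F.MW _) ?_).mp k
    show H * (v.ν * Ua h v.a) * A = H * v.ν * A * Ua h (c *ᵥ v.a)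
    rw [Matrix.mul_assoc _ A, t11, Matrix.mul_sub, ← Matrix.mul_assoc _ Q, Matrix.mul_assoc H _ Q,
      h2, Matrix.zero_mul, sub_zero]
    simp only [Matrix.mul_assoc]

end Bas

variable {p : ℕ} [hp : Fact p.Prime]

open Bas in
theorem bas (h : PIN p) : BAS p := by
  intro E E' ρ _ _ _ _ _ _ L S n K _ _ F v lam _ hF hv hl hw
  let e : E ⊕ Fin n ≃ (E' ⊕ Fin n) ⊕ ρ := (S.e.sumCongr (.refl _)).trans
    ((Equiv.sumAssoc _ _ _).trans (((Equiv.refl _).sumCongr (Equiv.sumComm _ _)).trans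
      (Equiv.sumAssoc _ _ _).symm))
  obtain ⟨Φ, hΦ⟩ := mw_lift (h E ρ n K F v (S.pi lam) hF hv (by rw [fix_pi, hl.fix])
    (fun i j => add_mem (mw_ci _ i j) (by simpa using (hl.mem.mul (mw_ci S.c1)) i j)) hw)
  obtain ⟨Eg, hE⟩ := mw_lift (F := F) (M := v.ν * fromRows (ci (WittVector p K) S.b2)
    (0 : Matrix (Fin n) ρ (WittVector p K))) fun i j => by
      simp only [Matrix.mul_apply, Fintype.sum_sum_type, fromRows_apply_inl, fromRows_apply_inr,
        Matrix.zero_apply, mul_zero, Finset.sum_const_zero, add_zero]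
      exact sum_mem fun a _ => Fil.WS_mul_zero ((eps E n K F v hF hv).1 i a) (mw_ci _ a j)
  have h1 : Φ * Eg = 1 := by
    apply Matrix.map_injective (WittVector.map_injective (p := p) F.zero.subtype
      Subtype.val_injective)
    dsimp only
    rw [Matrix.map_mul, hΦ, hE, Matrix.map_one _ (map_zero _) (map_one _), Matrix.mul_assoc,
      ← Matrix.mul_assoc v.μ, hv.inv, Matrix.one_mul, fromCols_mul_fromRows, (rel S lam).1,
      Matrix.mul_zero, add_zero]
  obtain ⟨D, _, _, h2, X, Y, h3⟩ := cover e (Φ := Φ.map WittVector.constantCoeff)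
    (G := Eg.map WittVector.constantCoeff)
    (by rw [← Matrix.map_mul, h1, Matrix.map_one _ (map_zero _) (map_one _)])
  refine ⟨D, _, _, h2, fun K' _ _ F' f ψ hf hψ hc => ?_⟩
  have : Pf p F'.zero := Pf.subring _ fun x hx => F'.root (t := 0) (by
    rw [rt_pow, mul_zero]
    exact hx)
  let ψ₀ : D →+* F'.zero := ψ.codRestrict _ hψ
  let g := wm p (ψ₀.comp (algebraMap F.zero D))
  have k1 : ∀ {I J : Type} (M : Matrix I J (WittVector p F.zero)),
      (M.map g).map (wm p F'.zero.subtype) = (M.map (wm p F.zero.subtype)).map (wm p f) :=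
    fun M => Matrix.ext fun i j => WittVector.ext fun m => hc _
  obtain ⟨G, H, k2, k3, k4⟩ := lift e h1 h3 ψ₀
  have k5 : ((Φ.map g).map (wm p F'.zero.subtype)) =
      fromCols (S.pi (lam.map (wm p f))) (0 : Matrix ρ (Fin n) (WittVector p K')) *
        (v.map f).μ := by
    rw [k1, hΦ, Matrix.map_mul, fromCols_map, fix_pi, Matrix.map_zero _ (map_zero _)]
    rfl
  have k6 : ((Eg.map g).map (wm p F'.zero.subtype)) = (v.map f).ν *
      fromRows (ci (WittVector p K') S.b2) (0 : Matrix (Fin n) ρ (WittVector p K')) := by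
    rw [k1, hE, Matrix.map_mul, fromRows_map, ci_map, Matrix.map_zero _ (map_zero _)]
    rfl
  rw [show (fun e => wm p f (v.a e)) = (v.map f).a from rfl]
  refine red S (isZ_map hf hv) (lam := lam.map (wm p f)) ?_ (mw_map hf hl.mem) (mw_sub G) (mw_sub H)
    rfl rfl ?_ ?_ ?_
  · conv_rhs => rw [← hl.fix]
    exact Matrix.ext fun i j => (wm_si f _).symm
  · rw [← k5, ← k6, ← Matrix.map_mul, ← Matrix.map_mul, ← Matrix.map_add _ (map_add _), k2,
      Matrix.map_one _ (map_zero _) (map_one _)]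
  · rw [← k6, ← Matrix.map_mul, k3, Matrix.map_zero _ (map_zero _)]
  · rw [← k5, ← Matrix.map_mul, k4, Matrix.map_zero _ (map_zero _)]

end P261.C1
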