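import Vale.Agent.P261Z.C1.Sys

/-!
# P261Z, block C1: the completion of a perfect ring at a finitely generated ideal is perfect
-/

noncomputable section

namespace P261.C1

namespace CplAux

open AdicCompletion

variable {p : ℕ} [hp : Fact p.Prime] {C : Type} [CommRing C] (I : Ideal C)

theorem exists_rep (x : AdicCompletion I C) (L : ℕ) :
    ∃ c : C, ∀ N ≤ L, evalₐ I N x = Ideal.Quotient.mk (I ^ N) c := by
  obtain ⟨r, rfl⟩ := mk_surjective I C x
  exact ⟨r L, fun N hN => by rw [evalₐ_mk]; exact (Ideal.mk_eq_mk I hN r).symm⟩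

theorem exists_le [Pf p C] (hI : I.FG) (n : ℕ) : ∃ N, I ^ N ≤ (I ^ n).comap (rt p C) :=
  Ideal.exists_pow_le_of_le_radical_of_fg (fun g hg => ⟨p * n, by
    rw [Ideal.mem_comap, pow_mul, map_pow, rt_pow']
    exact Ideal.pow_mem_pow hg n⟩) hI

theorem pf [Pf p C] (hI : I.FG) : Pf p (AdicCompletion I C) := by
  choose N hN using exists_le (p := p) I hI
  let r : ∀ n, AdicCompletion I C →+* C ⧸ I ^ n := fun n =>
    (Ideal.quotientMap (I ^ n) (rt p C) (hN n)).comp (evalₐ I (N n) : AdicCompletion I C →+* _)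
  have hr : ∀ (n : ℕ) (x : AdicCompletion I C) (c : C),
      evalₐ I (N n) x = Ideal.Quotient.mk _ c → r n x = Ideal.Quotient.mk _ (rt p C c) := by
    intro n x c h
    change Ideal.quotientMap (I ^ n) (rt p C) (hN n) (evalₐ I (N n) x) = _
    rw [h, Ideal.quotientMap_mk]
  let R : AdicCompletion I C →+* AdicCompletion I C := liftRingHom I r fun {m n} hle => by
    ext1 x
    obtain ⟨c, hc⟩ := exists_rep I x (max (N m) (N n))
    rw [RingHom.comp_apply, hr m x c (hc _ (le_max_left _ _)), hr n x c (hc _ (le_max_right _ _))]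
    rfl
  have h1 : ∀ x, R x ^ p = x := fun x => ext_evalₐ fun n => by
    obtain ⟨c, hc⟩ := exists_rep I x (max n (N n))
    rw [map_pow, evalₐ_liftRingHom, hr n x c (hc _ (le_max_right _ _)), ← map_pow, rt_pow,
      hc _ (le_max_left _ _)]
  have h2 : ∀ x, R (x ^ p) = x := fun x => ext_evalₐ fun n => by
    obtain ⟨c, hc⟩ := exists_rep I x (max n (N n))
    rw [evalₐ_liftRingHom, hr n _ (c ^ p) (by rw [map_pow, hc _ (le_max_right _ _), map_pow]), rt_pow',
      hc _ (le_max_left _ _)]
  exact { char := (Ch.of_hom (p := p) (algebraMap C (AdicCompletion I C))).char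
          bij := Function.bijective_iff_has_inverse.2 ⟨R, h2, h1⟩ }

end CplAux

variable (p : ℕ) [hp : Fact p.Prime]

theorem cpl : CPL p := by
  intro C ι _ _ _ g
  have hI : (Ideal.span (Set.range g)).FG := Submodule.fg_span (Set.finite_range g)
  refine ⟨AdicCompletion (Ideal.span (Set.range g)) C, inferInstance, inferInstance, CplAux.pf _ hI,
    AdicCompletion.isAdicComplete_self _ hI, fun d => ?_, fun c hc => ?_⟩
  · obtain ⟨c, hc⟩ := Ideal.Quotient.mk_surjective (AdicCompletion.evalOneₐ _ d)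
    refine ⟨c, ?_⟩
    rw [← AdicCompletion.ker_evalOneₐ_eq_map _ hI, RingHom.mem_ker, map_sub, sub_eq_zero]
    exact hc.symm
  · rw [← AdicCompletion.ker_evalOneₐ_eq_map _ hI] at hc
    exact Ideal.Quotient.eq_zero_iff_mem.1 hc

end P261.C1
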