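import Vale.Agent.P261Z.L.Pow
import Vale.Agent.P261Z.L.Spec

/-!
# P261Z, block C1: splittings along a subspace; the algebraic statements
-/

noncomputable section

open Matrix

namespace P261.C1

variable {p : ℕ} [hp : Fact p.Prime]

/-- an integral basis of `ℤ ^ E` which is adapted to the subspace `L` -/
structure Spl {E : Type} [Fintype E] [DecidableEq E] (L : Sbs p E) (E' ρ : Type) [Fintype E']
    [DecidableEq E'] [Fintype ρ] [DecidableEq ρ] where
  /-- a basis of `L` -/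
  b1 : Matrix E E' ℤ
  /-- a basis of a complement -/
  b2 : Matrix E ρ ℤ
  /-- the first coordinates -/
  c1 : Matrix E' E ℤ
  /-- the second coordinates -/
  c2 : Matrix ρ E ℤ
  /-- the index sets -/
  e : E ≃ E' ⊕ ρ
  c1b1 : c1 * b1 = 1
  c1b2 : c1 * b2 = 0
  c2b1 : c2 * b1 = 0
  c2b2 : c2 * b2 = 1
  tot : b1 * c1 + b2 * c2 = 1
  mem : ∀ l, l ∈ L ↔ c2.map (Int.castRingHom (ZMod p)) *ᵥ l = 0

/-- an integer matrix with entries in a ring -/
abbrev ci (A : Type) [CommRing A] {I J : Type} (M : Matrix I J ℤ) : Matrix I J A :=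
  M.map (Int.castRingHom A)

section defs

variable {E E' ρ : Type} [Fintype E] [DecidableEq E] [Fintype E'] [DecidableEq E'] [Fintype ρ]
  [DecidableEq ρ] {L : Sbs p E} {h : ℕ} {K : Type} [CommRing K]

/-- the projection to the complement -/
def Spl.pi (S : Spl L E' ρ) {A : Type} [CommRing A] (lam : Matrix ρ E' A) : Matrix ρ E A :=
  ci A S.c2 + lam * ci A S.c1

/-- a basis of the kernel of the projection -/
def Spl.eta (S : Spl L E' ρ) {A : Type} [CommRing A] (lam : Matrix ρ E' A) : Matrix E E' A :=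
  ci A S.b1 - ci A S.b2 * lam

/-- the parameters of the projections -/
structure IsLam [Pf p K] (F : Fil p K) {I J : Type} (lam : Matrix I J (WittVector p K)) : Prop where
  fix : lam.map (si p K) = lam
  mem : F.MW 0 lam
  zero : ∀ i j, (lam i j).coeff 0 = 0

/-- all entries have weight at most one -/
def W1 (F : Fil p K) {I : Type} (x : I → WittVector p K) : Prop := ∀ i, x i ∈ F.WL 1

/-- the coordinates of the `ε_l`, `l ∈ U`, generate the unit ideal -/
def UI (F : Fil p K) (v : LV p E h K) (U : Sbs p E) : Prop :=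
  ∃ φ : (E → ZMod p) → E ⊕ Fin h → K, (∀ l i, φ l i ∈ F.F 0) ∧ (∀ l i, l ∉ U → φ l i = 0) ∧
    ∑ l, ∑ i, φ l i * v.eb l i = 1

variable (p) in
/-- the Frobenius linear operator on row vectors -/
def Tp {D I : Type} [CommRing D] [Fintype I] (A : Matrix I I D) (φ : I → D) : I → D :=
  fun i => (φ ᵥ* A) i ^ p

end defs

variable (p)

/-- adapted bases exist -/
def SPL : Prop := ∀ (E : Type) [Fintype E] [DecidableEq E] (L : Sbs p E),
  ∃ c r : ℕ, Nonempty (Spl L (Fin c) (Fin r))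

/-- lattices are unique -/
def OKZ : Prop := ∀ (E : Type) [Fintype E] [DecidableEq E] (h : ℕ) (K : Type) [CommRing K] [Pf p K]
  (F : Fil p K) (v v' : LV p E h K), F.Closed → v.IsZ F → v'.IsZ F → W1 F (v.a - v'.a) → v.Ok F v'

/-- a fixed projection which is bounded on the lift is integral on the lattice -/
def PIN : Prop := ∀ (E ρ : Type) [Fintype E] [DecidableEq E] (h : ℕ) (K : Type) [CommRing K]
  [Pf p K] (F : Fil p K) (v : LV p E h K) (π : Matrix ρ E (WittVector p K)), F.Closed → v.IsZ F →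
  π.map (si p K) = π → F.MW 0 π → W1 F (π *ᵥ v.a) →
  F.MW 0 (fromCols π (0 : Matrix ρ (Fin h) (WittVector p K)) * v.μ)

/-- linear forms -/
def FORMS : Prop := ∀ (E : Type) [Fintype E] [DecidableEq E] (h : ℕ) (K : Type) [CommRing K]
  [Pf p K] (F : Fil p K),
  (∀ (v : LV p E h K) (𝒰 : Set (Sbs p E)), v.IsJ F 𝒰 → ∀ U ∈ 𝒰, UI F v U) ∧
  (∀ (v : LV p E h K) (𝒰 : Set (Sbs p E)), v.IsZ F → (∀ U ∈ 𝒰, UI F v U) →
    ∃ s : LV p E h K, s.IsZ F ∧ s.IsJ F 𝒰 ∧ s.ix = 0 ∧ s.a = v.a) ∧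
  (∀ (v u : LV p E h K) (U : Sbs p E), v.IsZ F → u.IsZ F → u.Ok F v → UI F u U → UI F v U) ∧
  (∀ (v : LV p E h K) (U : Sbs p E) (l : E → ZMod p) (i : E ⊕ Fin h) (y : K), l ∈ U →
    y ∈ F.F 0 → v.eb l i * y = 1 → UI F v U) ∧
  ∃ s : LV p E h K, s.IsZ F ∧ s.a = 0 ∧ ∀ U : Sbs p E, U ≠ ⊥ → UI F s U

/-- row vectors which vanish on the fixed vectors are nilpotent -/
def FIX : Prop := ∀ (E : Type) [Fintype E] [DecidableEq E] (h : ℕ) (K : Type) [CommRing K] [Pf p K]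
  (C : Subring K) (v : LV p E h K) (A : Matrix (E ⊕ Fin h) (E ⊕ Fin h) C) (ε : E → E ⊕ Fin h → C),
  1 ≤ h → v.μ * v.ν = 1 → (∀ i j, (A i j : K) = (v.mA i j).coeff 0) →
  (∀ e i, (ε e i : K) = (v.ν i (Sum.inl e)).coeff 0) → ∀ (J : Ideal C) (φ : E ⊕ Fin h → C),
    (∀ e, φ ⬝ᵥ ε e ∈ J) → ∀ i, (Tp p A)^[Fintype.card E + h] φ i ∈ J

/-- an étale equation over a complete perfect ring -/
def SOL : Prop := ∀ (D I : Type) [CommRing D] [Pf p D] [Fintype I] [DecidableEq I] (J : Ideal D)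
  [IsAdicComplete J D] (A : Matrix I I (WittVector p D)) (N : ℕ),
  (∀ i j, (Tp p (A.map fun x => x.coeff 0))^[N] (Pi.single i 1) j ∈ J) →
  ∀ b : I → WittVector p D, ∃ Ψ : I → WittVector p D, ∀ i, Ψ i - sg p D ((Ψ ᵥ* A) i) = b i

/-- left inverses can be found at the closed points -/
def LINV : Prop := ∀ (D I ρ : Type) [CommRing D] [Fintype I] [Fintype ρ] [DecidableEq ρ]
  (X : Matrix I ρ D) (J : Ideal D), (∀ m : Ideal D, m.IsMaximal → J ≤ m → ∀ y : ρ → D,
    (∀ i, (X *ᵥ y) i ∈ m) → ∀ j, y j ∈ m) → ∃ B : Matrix ρ I D,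
      ∀ j j', (B * X - 1 : Matrix ρ ρ D) j j' ∈ J

/-- fixed vectors which are independent over the prime field are independent -/
def IND : Prop := ∀ (κ I ρ : Type) [Field κ] [Pf p κ] [Fintype I] [Fintype ρ] (A : Matrix I I κ)
  (X : Matrix I ρ κ), A * X.map (rt p κ) = X →
  (∀ l : ρ → ZMod p, (X *ᵥ fun j => ((l j).val : κ)) = 0 → l = 0) → ∀ y : ρ → κ, X *ᵥ y = 0 → y = 0

/-- the projection exists over the completion along the stratum -/
def LAMEX : Prop := ∀ (E E' ρ : Type) [Fintype E] [DecidableEq E] [Fintype E'] [DecidableEq E']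
  [Fintype ρ] [DecidableEq ρ] (L : Sbs p E) (S : Spl L E' ρ) (h : ℕ) (K : Type) [CommRing K]
  [Pf p K] (F : Fil p K) (v : LV p E h K), 1 ≤ h → F.Closed → v.IsZ F →
  (∀ U, L < U → UI F v U) → ∀ (D : Type) [CommRing D] [Pf p D] (J : Ideal D) [IsAdicComplete J D]
    (χ : F.zero →+* D), (∀ l ∈ L, ∀ i, ∀ y : F.zero, (y : K) = v.eb l i → χ y ∈ J) →
    ∀ (K' : Type) [CommRing K'] [Pf p K'] (F' : Fil p K') (f : K →+* K') (ψ : D →+* K'),
      F'.Closed → Fil.Maps f F F' → (∀ d, ψ d ∈ F'.F 0) → (∀ y : F.zero, ψ (χ y) = f y) →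
      ∃ lam : Matrix ρ E' (WittVector p K'), IsLam F' lam ∧
        W1 F' (S.pi lam *ᵥ fun e => wm p f (v.a e))

/-- ordinary lattices are standard -/
def STD : Prop := ∀ (E : Type) [Fintype E] [DecidableEq E] (h : ℕ) (K : Type) [CommRing K]
  [Pf p K] (F : Fil p K) (v : LV p E h K), 1 ≤ h → F.Closed → v.IsZ F →
  (∀ U : Sbs p E, U ≠ ⊥ → UI F v U) → W1 F v.a

/-- the projection is unique along the stratum -/
def UNI : Prop := ∀ (E E' ρ : Type) [Fintype E] [DecidableEq E] [Fintype E'] [DecidableEq E']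
  [Fintype ρ] [DecidableEq ρ] (L : Sbs p E) (S : Spl L E' ρ) (h : ℕ) (K : Type) [CommRing K]
  [Pf p K] (F : Fil p K) (v : LV p E h K) (lam lam' : Matrix ρ E' (WittVector p K)), 1 ≤ h →
  F.Closed → v.IsZ F → IsLam F lam → IsLam F lam' → W1 F (S.pi lam *ᵥ v.a) →
  W1 F (S.pi lam' *ᵥ v.a) → ∀ (i : ρ) (j : E') (n : ℕ) (y : K), y ∈ F.F 0 →
    ((lam - lam') i j).coeff n * y = 1 → UI F v L

/-- a basis of the kernel of the projection exists after a faithfully flat extension -/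
def BAS : Prop := ∀ (E E' ρ : Type) [Fintype E] [DecidableEq E] [Fintype E'] [DecidableEq E']
  [Fintype ρ] [DecidableEq ρ] (L : Sbs p E) (S : Spl L E' ρ) (h : ℕ) (K : Type) [CommRing K]
  [Pf p K] (F : Fil p K) (v : LV p E h K) (lam : Matrix ρ E' (WittVector p K)), 1 ≤ h →
  F.Closed → v.IsZ F → IsLam F lam → W1 F (S.pi lam *ᵥ v.a) →
  ∃ (D : Type) (_ : CommRing D) (_ : Algebra F.zero D), Module.FaithfullyFlat F.zero D ∧
    ∀ (K' : Type) [CommRing K'] [Pf p K'] (F' : Fil p K') (f : K →+* K') (ψ : D →+* K'),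
      Fil.Maps f F F' → (∀ d, ψ d ∈ F'.F 0) → (∀ y : F.zero, ψ (algebraMap F.zero D y) = f y) →
      ∃ v' : LV p E' h K', v'.IsZ F' ∧ v'.a = ci _ S.c1 *ᵥ fun e => wm p f (v.a e)

/-- the block lattice -/
def BLK : Prop := ∀ (E E' ρ : Type) [Fintype E] [DecidableEq E] [Fintype E'] [DecidableEq E']
  [Fintype ρ] [DecidableEq ρ] (L : Sbs p E) (S : Spl L E' ρ) (h : ℕ) (K : Type) [CommRing K]
  [Pf p K] (F : Fil p K) (v' : LV p E' h K) (lam : Matrix ρ E' (WittVector p K)),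
  v'.IsZ F → IsLam F lam → ∃ s : LV p E h K, s.IsZ F ∧ s.a = S.eta lam *ᵥ v'.a ∧
    (∀ U, ¬U ≤ L → UI F s U) ∧ (UI F s L ↔ UI F v' ⊤)

/-- the parameters form a perfect affine scheme -/
def BASE : Prop := ∀ (k : Type) [Field k] (B : Type) [CommRing B] [Algebra k B] [Pf p B]
  (I J : Type), ∃ (B₁ : Type) (_ : CommRing B₁) (_ : Algebra k B₁) (_ : Pf p B₁)
    (fx : ∀ T : FP p k, (PF.base p k B₁).obj T → (PF.base p k B).obj T)
    (fl : ∀ T : FP p k, (PF.base p k B₁).obj T → Matrix I J T.W)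
    (bw : ∀ T : FP p k, (PF.base p k B).obj T → Matrix I J T.W → (PF.base p k B₁).obj T),
    (∀ T y, IsLam T.F (fl T y)) ∧
    (∀ (T T' : FP p k) (φ : T.Hom T') y,
      fx T' ((PF.base p k B₁).map φ y) = (PF.base p k B).map φ (fx T y)) ∧
    (∀ (T T' : FP p k) (φ : T.Hom T') y,
      fl T' ((PF.base p k B₁).map φ y) = (fl T y).map φ.w) ∧
    (∀ (T T' : FP p k) (φ : T.Hom T') x lam, IsLam T.F lam →
      bw T' ((PF.base p k B).map φ x) (lam.map φ.w) = (PF.base p k B₁).map φ (bw T x lam)) ∧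
    ∀ T x lam, IsLam T.F lam → fx T (bw T x lam) = x ∧ fl T (bw T x lam) = lam

end P261.C1
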