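import Vale.Agent.P261Z.C1.Defs
import Vale.Agent.P261Z.L.FV

/-!
# P261Z, block C1: row vectors which vanish on the fixed vectors are nilpotent
-/

noncomputable section

open Matrix

namespace P261.C1

variable {p : ℕ} [hp : Fact p.Prime]

section gen

variable {D D' I ι : Type} [CommRing D] [CommRing D'] [Fintype I]

omit hp in
theorem Tp_map (f : D →+* D') (A : Matrix I I D) (φ : I → D) (i : I) :
    f (Tp p A φ i) = Tp p (A.map f) (fun j => f (φ j)) i := by
  simp [Tp, vecMul, dotProduct]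

omit hp in
theorem Tp_iter_map (f : D →+* D') (A : Matrix I I D) (k : ℕ) (φ : I → D) (i : I) :
    f ((Tp p A)^[k] φ i) = (Tp p (A.map f))^[k] (fun j => f (φ j)) i := by
  induction k generalizing i with
  | zero => rfl
  | succ k ih =>
    rw [Function.iterate_succ_apply', Function.iterate_succ_apply', Tp_map, funext ih]

theorem Tp_row [Ch p D] (A : Matrix I I D) (X : Matrix ι I D) (j : ι) :
    Tp p A (X j) = ((X * A).map (fr p D)) j := rfl

theorem Tp_vecMul [Ch p D] [Fintype ι] (A : Matrix I I D) (ψ : ι → D) (X : Matrix ι I D) :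
    Tp p A (ψ ᵥ* X) = (fun j => ψ j ^ p) ᵥ* Matrix.of fun j => Tp p A (X j) := by
  funext i
  have h1 : Tp p A (ψ ᵥ* X) i = fr p D (∑ j, ψ j * (X * A) j i) := by
    rw [Tp, vecMul_vecMul]
    rfl
  rw [h1, map_sum]
  exact Finset.sum_congr rfl fun j _ => map_mul _ _ _

theorem Tp_iter_vecMul [Ch p D] [Fintype ι] (A : Matrix I I D) (k : ℕ) (ψ : ι → D)
    (X : Matrix ι I D) :
    (Tp p A)^[k] (ψ ᵥ* X) = (fun j => ψ j ^ p ^ k) ᵥ* Matrix.of fun j => (Tp p A)^[k] (X j) := by
  induction k with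
  | zero => simp only [pow_zero, pow_one, Function.iterate_zero, id]; rfl
  | succ k ih =>
    simp only [Function.iterate_succ_apply', ih, Tp_vecMul, ← pow_mul, ← pow_succ]
    rfl

end gen

variable {E : Type} [Fintype E] [DecidableEq E] {h : ℕ} {K : Type} [CommRing K] [Pf p K]

theorem Tp_iter_row {μ ν : Matrix (E ⊕ Fin h) (E ⊕ Fin h) K} (hv : μ * ν = 1) (k : ℕ)
    (j : E ⊕ Fin h) :
    (Tp p (ν * V0 p E h K * μ.map (rt p K)))^[k] (μ j) = (V0 p E h K ^ k * μ) j := by
  induction k with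
  | zero => simp
  | succ k ih =>
    have h2 : (V0 p E h K ^ (k + 1)).map (fr p K) = V0 p E h K ^ (k + 1) := by
      rw [← RingHom.mapMatrix_apply, map_pow, RingHom.mapMatrix_apply, V0_map]
    have h3 : (μ.map (rt p K)).map (fr p K) = μ := Matrix.ext fun _ _ => fr_rt _
    rw [Function.iterate_succ_apply', ih, Tp_row, ← Matrix.mul_assoc, ← Matrix.mul_assoc,
      Matrix.mul_assoc _ μ, hv, Matrix.mul_one, ← pow_succ, Matrix.map_mul, h2, h3]

theorem Tp_iter_eq {μ ν : Matrix (E ⊕ Fin h) (E ⊕ Fin h) K} (hv : μ * ν = 1) {k : ℕ} (hk : h ≤ k)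
    (φ : E ⊕ Fin h → K) (i : E ⊕ Fin h) :
    (Tp p (ν * V0 p E h K * μ.map (rt p K)))^[k] φ i =
      ∑ e, (φ ᵥ* ν) (Sum.inl e) ^ p ^ k * μ (Sum.inl e) i := by
  have h1 : φ = (φ ᵥ* ν) ᵥ* μ := by rw [vecMul_vecMul, mul_eq_one_comm.1 hv, vecMul_one]
  conv_lhs => rw [h1, Tp_iter_vecMul]
  simp only [Tp_iter_row hv, Fv.V0_pow (p := p) hk]
  generalize φ ᵥ* ν = ψ
  simp [vecMul, dotProduct, Matrix.mul_apply, Fintype.sum_sum_type, Matrix.one_apply]

theorem fix : FIX p := by
  intro E _ _ h K _ _ C v A ε _ hv hA hε J φ hφ i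
  have h1 : v.μ.map WittVector.constantCoeff * v.ν.map WittVector.constantCoeff = 1 := by
    rw [← Matrix.map_mul, hv, Matrix.map_one _ (map_zero _) (map_one _)]
  have h2 : A.map C.subtype = v.ν.map WittVector.constantCoeff * V0 p E h K *
      (v.μ.map WittVector.constantCoeff).map (rt p K) := by
    rw [show A.map C.subtype = v.mA.map WittVector.constantCoeff from Matrix.ext hA, LV.mA,
      Matrix.map_mul, Matrix.map_mul, V0_map]
    rfl
  rw [add_comm]
  refine Fv.rec_mem (p := p) C J (fun e => (v.μ (Sum.inl e) i).coeff 0) Finset.univ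
    (fun e => (φ ⬝ᵥ ε e) ^ p ^ h) (fun e => J.pow_mem_of_mem (hφ e) _ (pow_pos p_pos _))
    (fun k => (Tp p A)^[h + k] φ i) fun k => ?_
  refine (Tp_iter_map C.subtype A (h + k) φ i).trans ?_
  rw [h2, Tp_iter_eq h1 (Nat.le_add_right h k)]
  refine Finset.sum_congr rfl fun e _ => ?_
  rw [SubmonoidClass.coe_pow, ← pow_mul, ← pow_add]
  congr 2
  simp [vecMul, dotProduct, hε]

end P261.C1
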