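import Vale.Agent.P261Z.C1.Step
import Vale.Agent.P261Z.C1.Spl

/-!
# P261Z, block C1: the induction over the subspaces
-/

noncomputable section

open Matrix

namespace P261.C1

variable {p : ℕ} [hp : Fact p.Prime] {k : Type} [Field k]

namespace Ind

variable {E : Type} [Fintype E] [DecidableEq E] {h : ℕ} {B : Type} [CommRing B] [Algebra k B]
  [Pf p B]

theorem ok_of (hO : OKZ p) {T : FP p k} {s u v : LV p E h T.K} (hs : s.IsZ T.F) (hu : u.IsZ T.F)
    (e : s.a = v.a) (hv : v.Ok T.F u) : s.Ok T.F u ∧ u.Ok T.F s :=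
  ⟨hO E h T.K T.F s u T.cl hs hu fun i => by
    rw [Pi.sub_apply, e]
    exact hv.a i, hO E h T.K T.F u s T.cl hu hs fun i => by
    rw [Pi.sub_apply, e, ← neg_sub]
    exact neg_mem (hv.a i)⟩

theorem isZ {𝒰 𝒰' : Set (Sbs p E)} {T : FP p k} {v : LV p E h T.K} (b : Bool)
    (hv : (bif b then sJ k h 𝒰' else sJ k h 𝒰).c.P (T := T) v) : v.IsZ T.F := by
  cases b <;> exact hv.1

/-- a lattice outside of more loci gives a section -/
theorem sec (hS : SECLOC p k) (hR : RPL p k) (hO : OKZ p) (hF : FORMS p) (hh : 1 ≤ h)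
    {𝒰 𝒰' : Set (Sbs p E)} (hU : 𝒰 ⊆ 𝒰') :
    (LF2 (PF.base p k B) (sJ k h 𝒰) (sJ k h 𝒰') .red .on).AAc := by
  have hr := hR E h B Bool (fun b => bif b then 𝒰' else 𝒰) hh
  have e : (fun b : Bool => cJ k h (bif b then 𝒰' else 𝒰)) =
      fun b : Bool => (bif b then sJ k h 𝒰' else sJ k h 𝒰).c := funext fun b => by cases b <;> rfl
  rw [e] at hr
  refine hS _ Bool _ _ (fun b => b = false) hr (fun c hc => hc ▸ rfl) fun m T z _ => .here ?_
  obtain ⟨v, hv⟩ := Option.isSome_iff_exists.1 ((z.map (.id T)).on true 0 rfl)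
  generalize z.map (.id T) = y at hv
  have h1 := (y.col _ _ _ hv).1
  obtain ⟨s, s1, s2, s3, s4⟩ := (hF E h T.K T.F).2.1 v 𝒰 h1.1 fun U hU' =>
    (hF E h T.K T.F).1 v 𝒰' h1.2.1 U (hU hU')
  refine ⟨false, rfl, s, ⟨s1, s2, s3⟩, ⟨trivial, fun c i u hu => ?_⟩,
    (ok_of hO s1 s1 s4 (ok_of hO s1 h1.1 s4 (y.ok _ _ _ _ _ _ hv hv)).2).1,
    fun T' g c u _ hu hz => ?_⟩
  · exact (ok_of hO s1 (isZ c (y.col _ _ _ hu).1) s4 (y.ok _ _ _ _ _ _ hv hu)).symm
  · refine ok_of hO (v := v.map g.r) (s1.map g) (isZ c hu) (funext fun i => ?_)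
      (hz.2 true 0 _ (congrArg (Option.map _) hv)).1
    exact congrArg (wm p g.r) (congrFun s4 i)

/-- the ordinary locus -/
theorem bot (hS : SECLOC p k) (hR : RPL p k) (hO : OKZ p) (hF : FORMS p) (hD : STD p)
    (hh : 1 ≤ h) : (LF1 (PF.base p k B) (sJ k h {U : Sbs p E | U ≠ ⊥}) .red).AAc := by
  refine hS _ Unit _ _ (fun _ => True) (hR E h B Unit (fun _ => {U | U ≠ ⊥}) hh) (fun _ _ => rfl)
    fun m T z _ => .here ?_
  generalize z.map (.id T) = y
  obtain ⟨v, v1, v2, v3⟩ := (hF E h T.K T.F).2.2.2.2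
  obtain ⟨s, s1, s2, s3, s4⟩ := (hF E h T.K T.F).2.1 v {U | U ≠ ⊥} v1 v3
  refine ⟨(), trivial, s, ⟨s1, s2, s3⟩, ⟨trivial, fun c i u hu => ?_⟩,
    hO E h T.K T.F s s T.cl s1 s1 fun i => by rw [sub_self]; exact zero_mem _,
    fun T' g c u _ hu _ => ?_⟩
  · rw [y.off c i rfl] at hu
    cases hu
  · have h0 : (s.map g.r).a = 0 := funext fun i => by
      show wm p g.r (s.a i) = 0
      rw [s4, v2]
      exact map_zero _
    have h1 := hD E h T'.K T'.F u hh T'.cl hu.1 ((hF E h T'.K T'.F).1 u _ hu.2.1)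
    exact ⟨hO E h T'.K T'.F (s.map g.r) u T'.cl (s1.map g) hu.1 fun i => by
      rw [h0, zero_sub]
      exact neg_mem (h1 i), hO E h T'.K T'.F u (s.map g.r) T'.cl hu.1 (s1.map g) fun i => by
      rw [h0, sub_zero]
      exact h1 i⟩

theorem tog1 (hT : TOG p k) (X : PF p k) (c c' : SC p k E h) (m : Mode) {q : ℕ} (hq : 1 ≤ q) :
    ((LF2 X c c' .on m).Good q → (LF2 X c c' .red m).Good q → (LF2 X c c' .off m).Good q) ∧
    ((LF2 X c c' .off m).Good q → (LF2 X c c' .red m).Good q → (LF2 X c c' .on m).Good q) ∧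
    ((LF2 X c c' .off m).Good q → (LF2 X c c' .on m).Good q → (LF2 X c c' .red m).Good q) :=
  hT _ _ _ _ _ _ _ _ false q hq rfl rfl rfl fun b hb => by
    cases b
    exacts [absurd rfl hb, ⟨rfl, rfl⟩]

theorem tog2 (hT : TOG p k) (X : PF p k) (c c' : SC p k E h) (m : Mode) {q : ℕ} (hq : 1 ≤ q) :
    ((LF2 X c c' m .on).Good q → (LF2 X c c' m .red).Good q → (LF2 X c c' m .off).Good q) ∧
    ((LF2 X c c' m .off).Good q → (LF2 X c c' m .red).Good q → (LF2 X c c' m .on).Good q) ∧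
    ((LF2 X c c' m .off).Good q → (LF2 X c c' m .on).Good q → (LF2 X c c' m .red).Good q) :=
  hT _ _ _ _ _ _ _ _ true q hq rfl rfl rfl fun b hb => by
    cases b
    exacts [⟨rfl, rfl⟩, absurd rfl hb]

variable {E' ρ : Type} [Fintype E'] [DecidableEq E'] [Fintype ρ] [DecidableEq ρ] {L : Sbs p E}

theorem nonempty (S : Spl L E' ρ) (hL : L ≠ ⊥) : Nonempty E' := by
  by_contra hE
  rw [not_nonempty_iff] at hE
  refine hL ((Submodule.eq_bot_iff _).2 fun l hl => ?_)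
  have h1 := congrArg (fun M => M.map (Int.castRingHom (ZMod p)) *ᵥ l) S.tot
  have h2 : S.b1 * S.c1 = 0 := Matrix.ext fun i j => by simp [Matrix.mul_apply]
  simp only [h2, zero_add, Matrix.map_mul, ← Matrix.mulVec_mulVec, (S.mem l).1 hl,
    Matrix.mulVec_zero, Matrix.map_one _ (map_zero _) (map_one _), Matrix.one_mulVec] at h1
  exact h1.symm

theorem card_lt (S : Spl L E' ρ) (hL : L ≠ ⊤) : Fintype.card E' < Fintype.card E := by
  have : Nonempty ρ := by
    by_contra hE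
    rw [not_nonempty_iff] at hE
    exact hL (Submodule.eq_top_iff'.2 fun l => (S.mem l).2 (Subsingleton.elim _ _))
  rw [Fintype.card_congr S.e, Fintype.card_sum]
  exact Nat.lt_add_of_pos_right Fintype.card_pos

end Ind

open Ind

/-- the induction over the subspaces and over the rank -/
theorem ind_step (hT : TOG p k) (hS : SECLOC p k) (hR : RPL p k) (hX : REIDX p k)
    (hA : ∀ (A : FA.{1} p k) (q : ℕ), A.AAc → A.Good q) (hs : STEP p k) : StC1 p k := by
  have hP : SPL p := spl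
  have hO : OKZ p := okz
  have hF : FORMS p := forms
  have hD : STD p := std (lamex fix sol linv ind) hP
  intro hZ E _ _ _ h
  induction hn : Fintype.card E using Nat.strong_induction_on generalizing E with
  | _ n ih =>
  intro B _ _ _ hh
  have hq : 1 ≤ p ^ h := Nat.one_le_pow _ _ hp.out.pos
  have : NeZero p := ⟨hp.out.ne_zero⟩
  have : Finite (Sbs p E) := Finite.of_injective _ SetLike.coe_injective
  have key : ∀ (N : ℕ) (𝒰 : Set (Sbs p E)), 𝒰ᶜ.ncard = N → IsUpperSet 𝒰 → ⊤ ∈ 𝒰 → ⊥ ∉ 𝒰 →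
      (LF1 (PF.base p k B) (sJ k h 𝒰) .red).Good (p ^ h) := by
    intro N
    induction N using Nat.strong_induction_on with
    | _ N ihN =>
    intro 𝒰 hN hu ht hb
    by_cases h0 : {U | U ≠ ⊥ ∧ U ∉ 𝒰}.Nonempty
    · obtain ⟨L, hL⟩ := Set.Finite.exists_maximal (Set.toFinite _) h0
      have h1 : ∀ U, L < U → U ∈ 𝒰 := fun U hU => by
        by_contra hU'
        exact hU.not_ge (hL.2 ⟨ne_bot_of_gt hU, hU'⟩ hU.le)
      obtain ⟨c, r, ⟨S⟩⟩ := hP E L
      have := nonempty S hL.1.1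
      have h2 := hs E _ _ L S h B 𝒰 hh h1 (fun U hU hle => hL.1.2 (hu hle hU)) fun B₁ _ _ _ =>
        ih _ (hn ▸ card_lt S fun e => hL.1.2 (e ▸ ht)) (Fin c) rfl B₁ hh
      have h3 := ihN _ (hN ▸ Set.ncard_lt_ncard ⟨Set.compl_subset_compl.2 (Set.subset_insert L 𝒰),
        fun hc => hc hL.1.2 (Set.mem_insert L 𝒰)⟩) (insert L 𝒰) rfl (by
          rintro U U' hle (rfl | hU)
          · exact hle.eq_or_lt.imp Eq.symm (h1 U')
          · exact Or.inr (hu hle hU)) (Or.inr ht) (by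
          rintro (e | e)
          exacts [hL.1.1 e.symm, hb e])
      exact (hX E h _ _ _ .red _).1.2 ((tog2 hT _ _ _ .red hq).1
        (hA _ _ (sec hS hR hO hF hh (Set.subset_insert L 𝒰)))
        ((tog1 hT _ _ _ .red hq).2.2 ((hX E h _ _ _ .red _).2.1 h3) h2))
    · have e : 𝒰 = {U | U ≠ ⊥} := Set.ext fun U =>
        ⟨fun hU e => hb (e ▸ hU), fun hU => by_contra fun hU' => h0 ⟨U, hU, hU'⟩⟩
      rw [e]
      exact hA _ _ (bot hS hR hO hF hD hh)
  have h1 := key _ {⊤} rfl (fun _ _ hle e => top_le_iff.1 (e ▸ hle)) rfl bot_ne_top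
  exact (tog1 hT _ _ _ .red hq).2.1 ((hX E h _ _ _ .red _).2.1 h1)
    ((tog2 hT _ _ _ .red hq).2.2 ((hX E h _ _ _ .red _).1.1 (hZ E h B hh))
      (hA _ _ (sec hS hR hO hF hh (Set.empty_subset _))))

end P261.C1
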