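import Vale.Agent.P261Z.C1.Defs
import Vale.Agent.P261Z.L.FV
import Vale.Agent.P261Z.B.Contr

/-!
# P261Z, block C1: the projection over the completion along a stratum
-/

set_option linter.unusedSectionVars false

noncomputable section

open Matrix

namespace P261.C1

variable {p : ℕ} [hp : Fact p.Prime]

namespace Lam

section basic

variable {A B : Type} [CommRing A] [CommRing B] {I J M : Type}

theorem ci_map (f : A →+* B) (X : Matrix I J ℤ) : (ci A X).map f = ci B X := by
  ext i j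
  simp

theorem ci_mul [Fintype J] (X : Matrix I J ℤ) (Y : Matrix J M ℤ) :
    ci A (X * Y) = ci A X * ci A Y := Matrix.map_mul

theorem ci_one [DecidableEq I] : ci A (1 : Matrix I I ℤ) = 1 :=
  Matrix.map_one _ (map_zero _) (map_one _)

theorem ci_zero : ci A (0 : Matrix I J ℤ) = 0 := Matrix.map_zero _ (map_zero _)

variable (p A) in
/-- the map from the prime field -/
def zh [Ch p A] : ZMod p →+* A :=
  haveI := ringChar.charP A
  ZMod.castHom ((ringChar.spec A p).1 Ch.char) A

theorem zh_val [Ch p A] (l : ZMod p) : zh p A l = (l.val : A) := by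
  rw [ZMod.natCast_val]
  rfl

/-- the first digit -/
abbrev cc : WittVector p A →+* A := WittVector.constantCoeff

theorem Tp_map [Fintype I] (g : A →+* B) (X : Matrix I I A) (N : ℕ) (φ : I → A) :
    g ∘ (Tp p X)^[N] φ = (Tp p (X.map g))^[N] (g ∘ φ) := by
  induction N generalizing φ with
  | zero => rfl
  | succ N ih =>
    rw [Function.iterate_succ_apply, Function.iterate_succ_apply, ih]
    congr 1
    funext i
    show g (_ ^ p) = _ ^ p
    rw [map_pow, RingHom.map_vecMul]

theorem Tp_iter [Pf p A] [Fintype I] [DecidableEq I] [Fintype J] {Y : Matrix I I A}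
    {X : Matrix I J A} (Z : Matrix J I A) (hX : Y * X.map (rt p A) = X) (N : ℕ) (φ : I → A)
    (hφ : (φ ᵥ* (1 - X * Z)) ᵥ* X = 0) :
    (Tp p ((1 - X * Z) * Y))^[N + 1] φ = (Tp p Y)^[N + 1] (φ ᵥ* (1 - X * Z)) := by
  have h0 : ∀ φ : I → A, Tp p ((1 - X * Z) * Y) φ = Tp p Y (φ ᵥ* (1 - X * Z)) := fun φ => by
    funext i
    rw [Tp, Tp, vecMul_vecMul]
  induction N generalizing φ with
  | zero => exact h0 φ
  | succ N ih =>
    have h1 : Tp p Y (φ ᵥ* (1 - X * Z)) ᵥ* X = 0 := by
      funext j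
      have e : X = (X.map (rt p A)).map (fr p A) := by
        ext i j
        simp
      have := RingHom.map_vecMul (fr p A) (X.map (rt p A)) (φ ᵥ* (1 - X * Z) ᵥ* Y) j
      rw [← e, vecMul_vecMul _ Y, hX, hφ, Pi.zero_apply, map_zero] at this
      exact this.symm
    have h2 : Tp p Y (φ ᵥ* (1 - X * Z)) ᵥ* (1 - X * Z) = Tp p Y (φ ᵥ* (1 - X * Z)) := by
      rw [vecMul_sub, vecMul_one, ← vecMul_vecMul, h1, zero_vecMul, sub_zero]
    rw [Function.iterate_succ_apply, h0, ih _ (by rw [h2, h1]), h2,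
      ← Function.iterate_succ_apply]

theorem map_sg_mul [Pf p A] [Fintype I] [Fintype J] {Y : Matrix I I (WittVector p A)}
    {X : Matrix I J (WittVector p A)} (hX : Y * X.map (si p A) = X)
    (Z : Matrix M I (WittVector p A)) : (Z * Y).map (sg p A) * X = (Z * X).map (sg p A) := by
  have e : X = (X.map (si p A)).map (sg p A) := by
    ext i j
    simp
  conv_lhs => rw [e, ← Matrix.map_mul, Matrix.mul_assoc, hX]

/-- a left inverse over the Witt vectors -/
theorem linv_lift [Pf p A] [Fintype I] [Fintype J] [DecidableEq J] {T : Ideal A}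
    (hT : T ≤ (⊥ : Ideal A).jacobson) (X : Matrix I J (WittVector p A)) (Z : Matrix J I A)
    (h : (Z * X.map cc).map (Ideal.Quotient.mk T) = 1) : ∃ Z' : Matrix J I (WittVector p A),
      Z' * X = 1 ∧ (Z'.map cc).map (Ideal.Quotient.mk T) = Z.map (Ideal.Quotient.mk T) := by
  have e0 : (Z.map (tm p)).map cc = Z := by
    ext i j
    simp
  have e1 : (Z.map (tm p) * X).map cc = Z * X.map cc := by rw [Matrix.map_mul, e0]
  have h1 : IsUnit (Z.map (tm p) * X).det := by
    refine isUnit_of_coeff ?_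
    change IsUnit (cc _)
    rw [RingHom.map_det, RingHom.mapMatrix_apply, e1]
    have h2 : (Z * X.map cc).det - 1 ∈ T := by
      rw [← Ideal.Quotient.eq, RingHom.map_det, RingHom.mapMatrix_apply, h, det_one, map_one]
    simpa using Ideal.mem_jacobson_bot.1 (hT h2) 1
  have h3 := Matrix.nonsing_inv_mul _ h1
  refine ⟨(Z.map (tm p) * X)⁻¹ * Z.map (tm p), by rw [Matrix.mul_assoc, h3], ?_⟩
  have h4 := congrArg (fun Y => (Y.map cc).map (Ideal.Quotient.mk T)) h3
  simp only [Matrix.map_mul (f := cc), Matrix.map_mul (f := Ideal.Quotient.mk T), e0,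
    Matrix.map_one _ (map_zero _) (map_one _)] at h4 h ⊢
  rw [h, Matrix.mul_one] at h4
  rw [h4, Matrix.one_mul]

/-- a fixed left inverse -/
theorem phi_ex (h2 : SOL p) [Pf p A] [Fintype I] [DecidableEq I] [Fintype J] [DecidableEq J]
    (T : Ideal A) [IsAdicComplete T A] {Y : Matrix I I (WittVector p A)}
    {X : Matrix I J (WittVector p A)} {Z : Matrix J I (WittVector p A)}
    (hX : Y * X.map (si p A) = X) (hZ : Z * X = 1) {N : ℕ}
    (hN : ∀ i j, (Tp p (((1 - X * Z) * Y).map cc))^[N] (Pi.single i 1) j ∈ T) :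
    ∃ Φ : Matrix J I (WittVector p A), Φ * X = 1 ∧ (Φ * Y).map (sg p A) = Φ := by
  choose Ψ hΨ using fun r => h2 A I T ((1 - X * Z) * Y) N hN (((Z * Y).map (sg p A) - Z) r)
  have h1 : Matrix.of Ψ - (Matrix.of Ψ * (1 - X * Z) * Y).map (sg p A) =
      (Z * Y).map (sg p A) - Z := by
    rw [Matrix.mul_assoc]
    exact Matrix.ext fun r i => hΨ r i
  have h3 : Matrix.of Ψ * X = 0 := by
    have := congrArg (· * X) h1
    simp only [Matrix.sub_mul, map_sg_mul hX] at this
    rwa [hZ, Matrix.mul_assoc, Matrix.sub_mul, Matrix.mul_assoc, hZ, Matrix.one_mul,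
      Matrix.mul_one, sub_self, Matrix.mul_zero, Matrix.map_zero _ (map_zero _), sub_zero,
      Matrix.map_one _ (map_zero _) (map_one _), sub_self] at this
  rw [Matrix.mul_sub, ← Matrix.mul_assoc, h3, Matrix.zero_mul, sub_zero, Matrix.mul_one] at h1
  refine ⟨Z + Matrix.of Ψ, by rw [Matrix.add_mul, hZ, h3, add_zero], ?_⟩
  rw [Matrix.add_mul, Matrix.map_add _ (map_add _), ← sub_eq_sub_iff_add_eq_add.1 h1, add_comm]

theorem fix_zero {T : Ideal A} (hT : T ≤ (⊥ : Ideal A).jacobson) {t : A} (ht : t ∈ T)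
    (h : t ^ p = t) : t = 0 := by
  obtain ⟨d, hd⟩ : ∃ d, p = d + 2 := ⟨p - 2, (Nat.sub_add_cancel hp.out.two_le).symm⟩
  refine (Ideal.mem_jacobson_bot.1 (hT ht) (-t ^ d)).mul_left_eq_zero.1 ?_
  rw [hd] at h
  linear_combination -h

end basic

variable {E E' ρ : Type} [Fintype E] [DecidableEq E] [Fintype E'] [DecidableEq E'] [Fintype ρ]
  [DecidableEq ρ] {L : Sbs p E} (S : Spl L E' ρ) {h : ℕ}

theorem tot (A : Type) [CommRing A] : ci A S.b1 * ci A S.c1 + ci A S.b2 * ci A S.c2 = 1 := by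
  rw [← ci_mul, ← ci_mul, ← Matrix.map_add _ (map_add _), S.tot]
  exact ci_one

theorem b1_mem (j : E') : (fun e => (S.b1 e j : ZMod p)) ∈ L := by
  refine (S.mem _).2 (funext fun r => ?_)
  have := congrFun (congrFun (ci_mul (A := ZMod p) S.c2 S.b1) r) j
  rw [S.c2b1, ci_zero] at this
  exact this.symm

theorem indep (h4 : IND p) {κ I : Type} [Field κ] [Pf p κ] [Fintype I] {Y : Matrix I I κ}
    {ε : Matrix I E κ} (hf : Y * ε.map (rt p κ) = ε) (hL : ∀ l ∈ L, ε *ᵥ (zh p κ ∘ l) = 0)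
    (hU : ∀ U, L < U → ∃ l ∈ U, ε *ᵥ (zh p κ ∘ l) ≠ 0) :
    ∀ y, (ε * ci κ S.b2) *ᵥ y = 0 → y = 0 := by
  refine h4 κ I ρ Y _ (by rw [Matrix.map_mul, ci_map, ← Matrix.mul_assoc, hf]) fun l hl => ?_
  let U : Sbs p E :=
    { carrier := {u | ε *ᵥ (zh p κ ∘ u) = 0}
      add_mem' := fun {u u'} hu hu' => by
        have e : zh p κ ∘ (u + u') = zh p κ ∘ u + zh p κ ∘ u' := funext fun _ => map_add _ _ _
        show ε *ᵥ _ = 0
        rw [e, mulVec_add, hu, hu', add_zero]
      zero_mem' := hL 0 L.zero_mem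
      smul_mem' := fun c u hu => by
        have e : zh p κ ∘ (c • u) = zh p κ c • zh p κ ∘ u := funext fun _ => map_mul _ _ _
        show ε *ᵥ _ = 0
        rw [e, mulVec_smul, hu, smul_zero] }
  have h1 : L = U := by
    refine (show L ≤ U from hL).eq_or_lt.resolve_right fun h => ?_
    obtain ⟨u, hu, h0⟩ := hU U h
    exact h0 hu
  have h2 : ci (ZMod p) S.b2 *ᵥ l ∈ U := by
    have e : zh p κ ∘ (ci (ZMod p) S.b2 *ᵥ l) = ci κ S.b2 *ᵥ fun j => ((l j).val : κ) := by
      funext i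
      rw [Function.comp_apply, RingHom.map_mulVec, ci_map]
      congr 1
      exact funext fun j => zh_val _
    show ε *ᵥ _ = 0
    rw [e, mulVec_mulVec, hl]
  rw [← h1, S.mem] at h2
  have h3 := ci_mul (A := ZMod p) S.c2 S.b2
  rw [S.c2b2, ci_one] at h3
  rwa [mulVec_mulVec, ← h3, one_mulVec] at h2

section fin

variable {K : Type} [CommRing K] [Pf p K] {F : Fil p K} {v : LV p E h K}

/-- the coordinates of the fixed vectors -/
def ep (v : LV p E h K) : Matrix (E ⊕ Fin h) E (WittVector p K) :=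
  Matrix.of fun i e => v.ν i (Sum.inl e)

theorem ep_fix (hv : v.μ * v.ν = 1) : v.mA * (ep v).map (si p K) = ep v := by
  refine Matrix.ext fun i e => ?_
  have := Fv.fix hv 1 i e
  rw [twPow, twPow, Matrix.map_one _ (map_zero _) (map_one _), Matrix.mul_one, pow_one] at this
  exact this.symm

theorem bound (hh : 1 ≤ h) (hF : F.Closed) (hv : v.μ * v.ν = 1) (hA : v.IsA F)
    (hb : F.MW 3 (v.ν * Ua h v.a)) {Φ : Matrix ρ (E ⊕ Fin h) (WittVector p K)} (h0 : F.MW 0 Φ)
    (hΦ : (Φ * v.mA).map (sg p K) = Φ) (hπ : F.MW 0 (Φ * ep v)) : W1 F ((Φ * ep v) *ᵥ v.a) := by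
  have h1 : Φ.map (si p K) = Φ * v.mA := by
    conv_lhs => rw [← hΦ]
    exact Matrix.ext fun i j => si_sg _
  have h2 : (Φ * v.ν).map (si p K) = Φ * v.ν * V0 p E h (WittVector p K) := by
    rw [Matrix.map_mul, h1, LV.mA, Matrix.mul_assoc, Matrix.mul_assoc, ← Matrix.map_mul, hv,
      Matrix.map_one _ (map_zero _) (map_one _), Matrix.mul_one, Matrix.mul_assoc]
  have h3 : (Φ * ep v).map (si p K) = Φ * ep v := by
    rw [Matrix.map_mul, h1, Matrix.mul_assoc, ep_fix hv]
  have h4 := h0.mul hb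
  have h5 : ∀ r e, (Φ * ep v) r e = (Φ * v.ν) r (Sum.inl e) := fun _ _ => rfl
  rw [← Matrix.mul_assoc] at h4
  generalize Φ * v.ν = P at h2 h4 h5
  generalize Φ * ep v = π at h3 h5 hπ
  intro r
  have h6 : ∀ j : Fin h, si p K (P r (Sum.inr j)) = ∑ i : Fin h, P r (Sum.inr i) *
      if (i : ℕ) = j + 1 then 1 else if (i : ℕ) = 0 ∧ (j : ℕ) + 1 = h then
        (p : WittVector p K) else 0 := fun j => by
    have := congrFun (congrFun h2 r) (Sum.inr j)
    rw [Matrix.mul_apply, Fintype.sum_sum_type] at this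
    simpa only [V0, fromBlocks_apply₁₂, fromBlocks_apply₂₂, Matrix.zero_apply, mul_zero,
      Finset.sum_const_zero, zero_add, Matrix.of_apply, Matrix.map_apply] using this
  have h7 : ∀ (n : ℕ) (hn : n < h), P r (Sum.inr ⟨n, hn⟩) =
      (si p K ^ n) (P r (Sum.inr ⟨0, hh⟩)) := by
    intro n
    induction n with
    | zero => exact fun _ => rfl
    | succ n ih =>
      intro hn
      rw [pow_succ', RingHom.mul_def, RingHom.comp_apply, ← ih (by omega), h6,
        Finset.sum_eq_single ⟨n + 1, hn⟩ (fun i _ hi => by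
          rw [if_neg fun e => hi (Fin.ext e), if_neg fun e => by have := e.2; simp at this; omega,
            mul_zero]) (by simp), if_pos rfl, mul_one]
  have h8 : P r (Sum.inr ⟨0, hh⟩) = 0 := by
    obtain ⟨n, rfl⟩ : ∃ n, h = n + 1 := ⟨h - 1, by omega⟩
    refine (Dop_bijective (n + 1)).1 ?_
    rw [map_zero, Dop_apply, pow_succ', RingHom.mul_def, RingHom.comp_apply,
      ← h7 n n.lt_succ_self, h6, Finset.sum_eq_single ⟨0, hh⟩ (fun i _ hi => by
        rw [if_neg fun e => by have := i.2; simp at e; omega, if_neg fun e => hi (Fin.ext e.1),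
          mul_zero]) (by simp), if_neg (by simp), if_pos ⟨rfl, rfl⟩, mul_comm, sub_self]
  have h9 : (P * Ua h v.a) r (Sum.inr ⟨0, hh⟩) = (π *ᵥ v.a) r := by
    rw [Matrix.mul_apply, Fintype.sum_sum_type]
    simp only [Ua, fromBlocks_apply₁₂, fromBlocks_apply₂₂, Matrix.of_apply, pow_zero,
      RingHom.coe_one, id, ← h5, Matrix.one_apply, mul_ite, mul_one, mul_zero,
      Finset.sum_ite_eq', Finset.mem_univ, if_true, h8, add_zero]
    rfl
  refine hF.B2 hh (Fil.WL.lin (h9 ▸ h4 r _)) zero_le_one ?_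
  have h10 : ∀ e n, (si p K ^ n) (π r e) = π r e := fun e n => by
    induction n with
    | zero => rfl
    | succ n ih =>
      rw [pow_succ', RingHom.mul_def, RingHom.comp_apply, ih]
      exact congrFun (congrFun h3 r) e
  show Dop p K h (∑ e, π r e * v.a e) ∈ _
  rw [map_sum]
  refine sum_mem fun e _ => ?_
  have e1 : Dop p K h (π r e * v.a e) = π r e * Dop p K h (v.a e) := by
    rw [Dop_apply, Dop_apply, map_mul, h10]
    ring
  rw [e1]
  exact Fil.WS_mul_zero (hπ r e) (hA e)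

variable {K' : Type} [CommRing K'] [Pf p K'] {F' : Fil p K'} {f : K →+* K'}

theorem mA_map (f : K →+* K') : (v.map f).mA = v.mA.map (wm p f) := by
  rw [LV.mA, LV.mA, Matrix.map_mul, Matrix.map_mul, V0_map]
  congr 1
  exact Matrix.ext fun i j => (wm_si f _).symm

theorem Ua_map (f : K →+* K') : Ua h (v.map f).a = (Ua h v.a).map (wm p f) := by
  refine Matrix.ext fun i j => ?_
  rcases i with i | i <;> rcases j with j | j
  · simp [Ua, Matrix.one_apply, apply_ite (wm p f)]
  · exact (wm_si_pow f _ _).symm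
  · exact (map_zero (wm p f)).symm
  · simp [Ua, Matrix.one_apply, apply_ite (wm p f)]

theorem bound' (hh : 1 ≤ h) (hF : F'.Closed) (hf : Fil.Maps f F F') (hv : v.IsZ F)
    {Φ : Matrix ρ (E ⊕ Fin h) (WittVector p K')} (h0 : F'.MW 0 Φ)
    (hΦ : (Φ * v.mA.map (wm p f)).map (sg p K') = Φ) (hπ : F'.MW 0 (Φ * (ep v).map (wm p f))) :
    W1 F' ((Φ * (ep v).map (wm p f)) *ᵥ fun e => wm p f (v.a e)) := by
  refine bound (v := v.map f) hh hF ?_ (fun e => ?_) (fun i j => ?_) h0 (by rwa [mA_map]) hπ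
  · have := congrArg (fun M => M.map (wm p f)) hv.inv
    simp only [Matrix.map_mul, Matrix.map_one _ (map_zero _) (map_one _)] at this
    exact this
  · have := Fil.WS_map hf (hv.isA e)
    rwa [wm_Dop] at this
  · have := Fil.WS_map hf (hv.b2 i j)
    rwa [← Matrix.map_apply (f := wm p f), Matrix.map_mul, ← Ua_map] at this

theorem lift_W {I J : Type} {X : Matrix I J (WittVector p K)} (hX : F.MW 0 X) :
    ∃ Y : Matrix I J (WittVector p F.zero), Y.map (wm p F.zero.subtype) = X := by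
  have : ∀ i j, X i j ∈ wsub F.zero := fun i j => mem_wsub.2 fun n => by
    have := Fil.mem_WL.1 (hX i j) n
    rwa [mul_zero] at this
  choose Y hY using this
  exact ⟨Matrix.of Y, Matrix.ext hY⟩

theorem wm_inj {I J : Type} {X Y : Matrix I J (WittVector p F.zero)}
    (h : X.map (wm p F.zero.subtype) = Y.map (wm p F.zero.subtype)) : X = Y :=
  Matrix.ext fun i j => WittVector.map_injective _ Subtype.val_injective (congrFun (congrFun h i) j)

theorem map_si {I J : Type} (f : K →+* K') (X : Matrix I J (WittVector p K)) :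
    (X.map (si p K)).map (wm p f) = (X.map (wm p f)).map (si p K') :=
  Matrix.ext fun _ _ => wm_si f _

theorem map_sg {I J : Type} (f : K →+* K') (X : Matrix I J (WittVector p K)) :
    (X.map (sg p K)).map (wm p f) = (X.map (wm p f)).map (sg p K') :=
  Matrix.ext fun _ _ => wm_sg f _

/-- the left inverse modulo the ideal of the stratum -/
theorem linv0 (h3 : LINV) (h4 : IND p) [Pf p F.zero] (hU : ∀ U, L < U → UI F v U)
    {Y : Matrix (E ⊕ Fin h) (E ⊕ Fin h) F.zero} {ε : Matrix (E ⊕ Fin h) E F.zero}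
    (hf : Y * ε.map (rt p F.zero) = ε) (he : ∀ l i, ((ε *ᵥ (zh p F.zero ∘ l)) i : K) = v.eb l i)
    (T : Ideal F.zero) (hT : ∀ l ∈ L, ∀ i, (ε *ᵥ (zh p F.zero ∘ l)) i ∈ T) :
    ∃ Z : Matrix ρ (E ⊕ Fin h) F.zero,
      ∀ j j', (Z * (ε * ci F.zero S.b2) - 1 : Matrix ρ ρ F.zero) j j' ∈ T :=
  h3 F.zero _ ρ (ε * ci F.zero S.b2) T fun m hm hTm y hy j => by
    let _ := Ideal.Quotient.field m
    have : Pf p (F.zero ⧸ m) := Pf.quotient m fun x hx => hm.isPrime.mem_of_pow_mem p hx
    have e : ∀ l i, (ε.map (Ideal.Quotient.mk m) *ᵥ (zh p (F.zero ⧸ m) ∘ l)) i =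
        Ideal.Quotient.mk m ((ε *ᵥ (zh p F.zero ∘ l)) i) := fun l i => by
      rw [RingHom.map_mulVec]
      congr 1
      funext e
      simp only [Function.comp_apply, zh_val, map_natCast]
    have := indep S h4 (Y := Y.map (Ideal.Quotient.mk m)) (ε := ε.map (Ideal.Quotient.mk m))
      (by
        conv_rhs => rw [← hf, Matrix.map_mul]
        congr 1
        exact Matrix.ext fun i e => (map_rt (Ideal.Quotient.mk m) (ε i e)).symm)
      (fun l hl => funext fun i => by
        rw [e]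
        exact Ideal.Quotient.eq_zero_iff_mem.2 (hTm (hT l hl i)))
      (fun U hLU => by
        obtain ⟨φ, h1, h2, h3⟩ := hU U hLU
        by_contra hc
        push Not at hc
        refine hm.ne_top ((Ideal.eq_top_iff_one m).2 ?_)
        have e1 : (1 : F.zero) = ∑ l, ∑ i, ⟨φ l i, h1 l i⟩ * (ε *ᵥ (zh p F.zero ∘ l)) i := by
          refine Subtype.ext ?_
          push_cast
          simp only [he]
          exact h3.symm
        rw [e1]
        refine m.sum_mem fun l _ => m.sum_mem fun i _ => ?_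
        by_cases hl : l ∈ U
        · refine m.mul_mem_left _ (Ideal.Quotient.eq_zero_iff_mem.1 ?_)
          rw [← e, hc l hl, Pi.zero_apply]
        · have e2 : (⟨φ l i, h1 l i⟩ : F.zero) = 0 := Subtype.ext (h2 l i hl)
          rw [e2, zero_mul]
          exact m.zero_mem)
      (Ideal.Quotient.mk m ∘ y) (funext fun i => by
        have := Ideal.Quotient.eq_zero_iff_mem.2 (hy i)
        rwa [RingHom.map_mulVec, Matrix.map_mul, ci_map] at this)
    exact Ideal.Quotient.eq_zero_iff_mem.1 (congrFun this j)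

/-- the fixed left inverse over the completion -/
theorem phi_ex' (h2 : SOL p) {I : Type} [Fintype I] [DecidableEq I] (J : Ideal K')
    [IsAdicComplete J K'] (χ : K →+* K') {Y : Matrix I I (WittVector p K)}
    {X : Matrix I ρ (WittVector p K)} (hX : Y * X.map (si p K) = X) {Z : Matrix ρ I K}
    (hZ : (Z * X.map cc).map ((Ideal.Quotient.mk J).comp χ) = 1) {N : ℕ}
    (hN : ∀ r i, (Tp p (Y.map cc))^[N + 1] ((1 - X.map cc * Z : Matrix I I K) r) i ∈ J.comap χ) :
    ∃ Φ : Matrix ρ I (WittVector p K'), Φ * X.map (wm p χ) = 1 ∧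
      (Φ * Y.map (wm p χ)).map (sg p K') = Φ := by
  have hX' : Y.map (wm p χ) * (X.map (wm p χ)).map (si p K') = X.map (wm p χ) := by
    rw [← map_si, ← Matrix.map_mul, hX]
  obtain ⟨Z', h1, h3⟩ := linv_lift (IsAdicComplete.le_jacobson_bot J) (X.map (wm p χ)) (Z.map χ)
    (by rw [← hZ, Matrix.map_mul, Matrix.map_mul]; rfl)
  refine phi_ex h2 J hX' h1 (N := N + 1) fun i j => ?_
  have h4 := congrArg (·.map cc) h1
  have h5 := congrArg (·.map cc) hX'
  simp only [Matrix.map_mul, Matrix.map_one _ (map_zero _) (map_one _)] at h4 h5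
  rw [Matrix.map_mul, Matrix.map_sub _ (map_sub _), Matrix.map_mul,
    Matrix.map_one _ (map_zero _) (map_one _), Tp_iter (X := (X.map (wm p χ)).map cc) _ h5 _ _ (by
      rw [vecMul_vecMul, Matrix.sub_mul, Matrix.mul_assoc, h4, Matrix.one_mul, Matrix.mul_one,
        sub_self, vecMul_zero]), single_one_vecMul, ← Ideal.Quotient.eq_zero_iff_mem]
  have h6 := congrFun (Tp_map (p := p) ((Ideal.Quotient.mk J).comp χ) (Y.map cc) (N + 1)
    ((1 - X.map cc * Z : Matrix I I K) i)) j
  refine (congrFun (Tp_map (p := p) (Ideal.Quotient.mk J) _ (N + 1) _) j).trans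
    (Eq.trans ?_ (h6.symm.trans (Ideal.Quotient.eq_zero_iff_mem.2 (hN i j))))
  have h7 : (1 - (X.map (wm p χ)).map cc * Z'.map cc : Matrix I I K').map (Ideal.Quotient.mk J) =
      (1 - X.map cc * Z : Matrix I I K).map ((Ideal.Quotient.mk J).comp χ) := by
    simp only [Matrix.map_sub _ (map_sub _), Matrix.map_mul, h3,
      Matrix.map_one _ (map_zero _) (map_one _)]
    rfl
  exact congrFun (congrArg (Tp p ((Y.map cc).map ((Ideal.Quotient.mk J).comp χ)))^[N + 1]
    (congrFun h7 i)) j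

end fin

end Lam

open Lam

theorem lamex (h1 : FIX p) (h2 : SOL p) (h3 : LINV) (h4 : IND p) : LAMEX p := by
  intro E E' ρ _ _ _ _ _ _ L S h K _ _ F v hh hF hv hU D _ _ J _ χ hχ K' _ _ F' f ψ hF' hf hψ hc
  have : Pf p F.zero := Pf.subring _ fun x hx => F.root (t := 0) (by
    rw [rt_pow, mul_zero]
    exact hx)
  obtain ⟨A, hA⟩ := lift_W hv.hA
  obtain ⟨ε, hε⟩ := lift_W (X := ep v) fun i e => (eps E h K F v hF hv).1 i e
  have hfix : A * ε.map (si p F.zero) = ε :=
    wm_inj (by rw [Matrix.map_mul, map_si, hA, hε, ep_fix hv.inv])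
  have hε0 : ∀ e i, ((ε.map cc i e : F.zero) : K) = (v.ν i (Sum.inl e)).coeff 0 := fun e i =>
    congrArg (WittVector.coeff · 0) (congrFun (congrFun hε i) e)
  have he : ∀ l i, ((ε.map cc *ᵥ (zh p F.zero ∘ l)) i : K) = v.eb l i := fun l i => by
    simp only [mulVec, dotProduct, LV.eb, Function.comp_apply, zh_val]
    push_cast
    exact Finset.sum_congr rfl fun e _ => by rw [hε0, mul_comm]
  have hT : ∀ l ∈ L, ∀ i, (ε.map cc *ᵥ (zh p F.zero ∘ l)) i ∈ J.comap χ := fun l hl i =>
    hχ l hl i _ (he l i)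
  obtain ⟨Z, hZ⟩ := linv0 S h3 h4 hU (Y := A.map cc) (by
    conv_rhs => rw [← hfix, Matrix.map_mul]
    rfl) he _ hT
  have hZ' : (Z * (ε * ci (WittVector p F.zero) S.b2).map cc).map
      ((Ideal.Quotient.mk J).comp χ) = 1 := by
    rw [Matrix.map_mul (f := cc), ci_map, ← sub_eq_zero, ← Matrix.map_one
      ((Ideal.Quotient.mk J).comp χ) (map_zero _) (map_one _), ← Matrix.map_sub _ (map_sub _)]
    exact Matrix.ext fun j j' => Ideal.Quotient.eq_zero_iff_mem.2 (hZ j j')
  have hb : ∀ i j, ((ε * ci (WittVector p F.zero) S.b1).map cc) i j ∈ J.comap χ := fun i j => by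
    have e : zh p F.zero ∘ (fun e => (S.b1 e j : ZMod p)) = fun e => (S.b1 e j : F.zero) :=
      funext fun e => map_intCast _ _
    have := hT _ (b1_mem S j) i
    rw [e] at this
    rwa [Matrix.map_mul, ci_map]
  have hfx : ∀ {M : Type} (b : Matrix E M ℤ), A * (ε * ci (WittVector p F.zero) b).map
      (si p F.zero) = ε * ci (WittVector p F.zero) b := fun b => by
    rw [Matrix.map_mul, ci_map, ← Matrix.mul_assoc, hfix]
  obtain ⟨N, hN⟩ : ∃ N, Fintype.card E + h = N + 1 := ⟨Fintype.card E + h - 1, by omega⟩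
  obtain ⟨Φ, hΦ1, hΦ2⟩ := phi_ex' h2 J χ (hfx S.b2) hZ' (N := N) fun r i => by
    rw [← hN]
    refine h1 E h K F.zero v (A.map cc) (fun e i => ε.map cc i e) hh hv.inv (fun i j =>
      congrArg (WittVector.coeff · 0) (congrFun (congrFun hA i) j)) hε0 _ _ (fun e => ?_) i
    have e1 : ((ε * ci (WittVector p F.zero) S.b1).map cc).map ((Ideal.Quotient.mk J).comp χ) = 0 :=
      Matrix.ext fun i j => Ideal.Quotient.eq_zero_iff_mem.2 (hb i j)
    have e2 : ((1 - (ε * ci (WittVector p F.zero) S.b2).map cc * Z) * ε.map cc).map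
        ((Ideal.Quotient.mk J).comp χ) = 0 := by
      conv_lhs => rw [Matrix.map_mul]; rhs; rw [← Matrix.mul_one ε, ← tot S, Matrix.mul_add,
        ← Matrix.mul_assoc, ← Matrix.mul_assoc]
      generalize ε * ci (WittVector p F.zero) S.b1 = X1 at e1
      generalize ε * ci (WittVector p F.zero) S.b2 = X2 at hZ'
      simp only [Matrix.map_add _ (map_add _), Matrix.map_sub _ (map_sub _), Matrix.map_mul, e1,
        Matrix.map_one _ (map_zero _) (map_one _), Matrix.zero_mul, zero_add] at hZ' ⊢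
      rw [← Matrix.mul_assoc, Matrix.sub_mul, Matrix.mul_assoc _ (Z.map _), hZ', Matrix.one_mul,
        Matrix.mul_one, sub_self, Matrix.zero_mul]
    exact (Ideal.Quotient.eq_zero_iff_mem (I := J)).1 (congrFun (congrFun e2 r) e)
  obtain ⟨lam, hl⟩ : ∃ lam, lam = Φ * (ε * ci (WittVector p F.zero) S.b1).map (wm p χ) := ⟨_, rfl⟩
  have hl1 : lam.map (sg p D) = lam := by
    rw [hl, ← map_sg_mul (Y := A.map (wm p χ)) (by rw [← map_si, ← Matrix.map_mul, hfx]), hΦ2]
  have hl2 : lam.map (si p D) = lam := by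
    conv_lhs => rw [← hl1]
    exact Matrix.ext fun i j => si_sg _
  have hW : ∀ {I J : Type} (Y : Matrix I J (WittVector p D)), F'.MW 0 (Y.map (wm p ψ)) :=
    fun Y i j => Fil.mem_WL.2 fun n => by
      rw [mul_zero]
      exact hψ _
  have hm : ∀ {I J : Type} (Y : Matrix I J (WittVector p F.zero)),
      (Y.map (wm p F.zero.subtype)).map (wm p f) = (Y.map (wm p χ)).map (wm p ψ) :=
    fun Y => Matrix.ext fun i j => wm_congr (f := f.comp _) (g := ψ.comp χ)
      (fun y => (hc y).symm) _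
  have hπ : Φ.map (wm p ψ) * (ep v).map (wm p f) = (Φ * ε.map (wm p χ)).map (wm p ψ) := by
    rw [← hε, hm, Matrix.map_mul]
  refine ⟨lam.map (wm p ψ), ⟨by rw [← map_si, hl2], hW _, fun i j => ?_⟩, ?_⟩
  · show ψ ((lam i j).coeff 0) = 0
    rw [fix_zero (IsAdicComplete.le_jacobson_bot J) (t := (lam i j).coeff 0) ?_
      (congrArg (WittVector.coeff · 0) (congrFun (congrFun hl1 i) j)), map_zero]
    change cc (lam i j) ∈ J
    rw [hl, Matrix.mul_apply, map_sum]
    exact J.sum_mem fun l _ => by rw [map_mul]; exact J.mul_mem_left _ (hb l j)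
  · have := bound' hh hF' hf hv (hW Φ) (by rw [← hA, hm, ← Matrix.map_mul, ← map_sg, hΦ2])
      (hπ ▸ hW _)
    have e : Φ * ε.map (wm p χ) = S.pi lam := by
      rw [Matrix.map_mul, ci_map, ← Matrix.mul_assoc] at hl hΦ1
      rw [← Matrix.mul_one (Φ * _), ← tot S, Matrix.mul_add, ← Matrix.mul_assoc,
        ← Matrix.mul_assoc, ← hl, hΦ1, Matrix.one_mul, add_comm, Spl.pi]
    rwa [hπ, e, Spl.pi, Matrix.map_add _ (map_add _), Matrix.map_mul, ci_map, ci_map] at this

theorem std (h : LAMEX p) (h2 : SPL p) : STD p := by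
  intro E _ _ n K _ _ F v hh hF hv hU
  obtain ⟨c, r, ⟨S⟩⟩ := h2 E ⊥
  have : Pf p F.zero := Pf.subring _ fun x hx => F.root (t := 0) (by
    rw [rt_pow, mul_zero]
    exact hx)
  obtain ⟨lam, -, h3⟩ := h E _ _ ⊥ S n K F v hh hF hv (fun U hU' => hU U hU'.ne') F.zero ⊥
    (RingHom.id _) (fun l hl i y hy => by
      rw [Submodule.mem_bot] at hl
      refine Ideal.mem_bot.2 (Subtype.ext ?_)
      rw [RingHom.id_apply, hy, hl]
      simp [LV.eb]) K F (RingHom.id K) F.zero.subtype hF (fun _ _ h => h) (fun d => d.2)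
      fun _ => rfl
  have h4 : IsEmpty (Fin c) := ⟨fun j => by
    have h5 := congrFun (congrFun (ci_mul (A := ZMod p) S.c1 S.b1) j) j
    have h6 := (Submodule.mem_bot _).1 (b1_mem S j)
    rw [S.c1b1, ci_one, Matrix.one_apply_eq] at h5
    exact one_ne_zero (h5.trans
      (Finset.sum_eq_zero fun e _ => mul_eq_zero_of_right _ (congrFun h6 e)))⟩
  have h5 : ci (WittVector p K) S.b2 * S.pi lam = 1 := by
    rw [← tot S, Spl.pi, Subsingleton.elim lam 0, Subsingleton.elim (ci _ S.b1) 0,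
      Matrix.zero_mul, Matrix.zero_mul, add_zero, zero_add]
  rw [show (fun e => wm p (RingHom.id K) (v.a e)) = v.a from
    funext fun _ => WittVector.ext fun _ => rfl] at h3
  intro e
  have h6 : v.a = ci (WittVector p K) S.b2 *ᵥ (S.pi lam *ᵥ v.a) := by
    rw [mulVec_mulVec, h5, one_mulVec]
  rw [h6]
  show ∑ j, (S.b2 e j : WittVector p K) * (S.pi lam *ᵥ v.a) j ∈ _
  exact (F.WL 1).sum_mem fun j _ => Fil.WS_mul_zero (Fil.WL_intCast (S.b2 e j)) (h3 j)

end P261.C1
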