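import Vale.Agent.P261Z.C1.Sys
import Vale.Agent.P261Z.C1.Okz
import Vale.Agent.P261Z.C1.Blk
import Vale.Agent.P261Z.L.FV

/-!
# P261Z, block C1: local sections
-/

noncomputable section

open Matrix

namespace P261.C1

variable {p : ℕ} [hp : Fact p.Prime] {k : Type} [Field k]

section w1

variable {K : Type} [CommRing K] {F : Fil p K} {I J : Type} {x y : I → WittVector p K}

theorem W1.zero : W1 F (0 : I → WittVector p K) := fun _ => zero_mem _

theorem W1.add (hx : W1 F x) (hy : W1 F y) : W1 F (x + y) := fun i => add_mem (hx i) (hy i)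

theorem W1.swap (hx : W1 F (x - y)) : W1 F (y - x) := fun i => by
  have := neg_mem (hx i)
  rwa [Pi.sub_apply, neg_sub] at this

theorem W1.trans {z : I → WittVector p K} (hx : W1 F (x - y)) (hy : W1 F (y - z)) :
    W1 F (x - z) := by
  have := hx.add hy
  rwa [sub_add_sub_cancel] at this

theorem W1.mulVec [Fintype I] {M : Matrix J I (WittVector p K)} (hM : F.MW 0 M) (hx : W1 F x) :
    W1 F (M *ᵥ x) := fun j => sum_mem fun i _ => Fil.WS_mul_zero (hM j i) (hx i)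

theorem pf_zero [Pf p K] (F : Fil p K) : Pf p F.zero :=
  Pf.subring _ fun x hx => F.root (by rwa [rt_pow, mul_zero])

theorem IsLam.pow [Pf p K] {lam : Matrix I J (WittVector p K)} (H : IsLam F lam) (i : I) (j : J) :
    sg p K (lam i j) = lam i j := by
  have e : si p K (lam i j) = lam i j := congrFun (congrFun H.fix i) j
  conv_lhs => rw [← e]
  exact sg_si _

end w1

variable {E E' ρ : Type} [Fintype E] [DecidableEq E] [Fintype E'] [DecidableEq E'] [Fintype ρ]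
  [DecidableEq ρ] {L : Sbs p E} {h : ℕ} {S : Spl L E' ρ}

section ok

variable {K : Type} [CommRing K] {F : Fil p K} {s u y : VP p E E' ρ h K}

theorem VP.Ok.symm (H : VP.Ok S F u y) : VP.Ok S F y u :=
  ⟨fun h1 h2 => (H.aa h2 h1).swap, H.al, H.la, fun h1 h2 h3 => (H.ll h2 h1 h3.symm).symm⟩

variable (S) in
/-- the data of `s` are a part of the data of `y` -/
structure Weak (s y : VP p E E' ρ h K) : Prop where
  l : s.HasL → y.HasL ∧ s.l = y.l
  a : s.HasA → y.HasA ∧ s.a S = y.a S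

theorem Weak.ok (hw : Weak S s y) (H : VP.Ok S F u y) : VP.Ok S F u s where
  aa h1 h2 := (hw.a h2).2 ▸ H.aa h1 (hw.a h2).1
  la h1 h2 := (hw.a h2).2 ▸ H.la h1 (hw.a h2).1
  al h1 h2 := (hw.l h1).2 ▸ H.al (hw.l h1).1 h2
  ll h1 h2 h3 := (hw.l h2).2 ▸ H.ll h1 (hw.l h2).1 (h3.imp id fun h => (hw.a h).1)

theorem Weak.map {K' : Type} [CommRing K'] (f : K →+* K') (hw : Weak S s y) :
    Weak S (s.map f) (y.map f) where
  l h1 := by
    have := hw.l ((VP.hasL_map _ _).1 h1)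
    rw [VP.hasL_map, VP.l_map, VP.l_map, this.2]
    exact ⟨this.1, rfl⟩
  a h1 := by
    have := hw.a ((VP.hasA_map _ _).1 h1)
    rw [VP.hasA_map, VP.a_map, VP.a_map, this.2]
    exact ⟨this.1, rfl⟩

variable [Pf p K] {l : Matrix ρ E' (WittVector p K)}

theorem ok_lam (hl : IsLam F l) (hy : y.HasA) (h0 : W1 F (S.pi l *ᵥ y.a S)) (H : VP.Ok S F u y)
    (hu : u.HasL → ¬u.HasA) : VP.Ok S F u (.lam l) where
  aa _ h2 := h2.elim
  la _ h2 := h2.elim
  al _ h2 := by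
    have := h0.add ((H.aa h2 hy).mulVec (Blk.dat S hl).mπ)
    rwa [← mulVec_add, add_sub_cancel] at this
  ll h1 _ h3 := (h3.elim (hu h1) id).elim

theorem ok_par (hl : IsLam F l) {v : LV p E' h K} (h0 : W1 F (y.a S - S.eta l *ᵥ v.a))
    (hy : y.HasA) (H : VP.Ok S F u y) (H' : VP.Ok S F u (.lam l)) (hu : u.HasL → u.l = l) :
    VP.Ok S F u (.par l v) where
  aa h1 _ := (H.aa h1 hy).trans h0
  la h1 _ := by
    rw [hu h1, VP.a, mulVec_mulVec, (Blk.dat S hl).πη, zero_mulVec]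
    exact W1.zero
  al _ h2 := H'.al trivial h2
  ll h1 _ _ := hu h1

theorem ok_par_self (hl : IsLam F l) (v : LV p E' h K) : VP.Ok S F (.par l v) (.par l v) := by
  have : W1 F (S.pi l *ᵥ (S.eta l *ᵥ v.a)) := by
    rw [mulVec_mulVec, (Blk.dat S hl).πη, zero_mulVec]
    exact W1.zero
  exact ⟨fun _ _ => by rw [sub_self]; exact W1.zero, fun _ _ => this, fun _ _ => this,
    fun _ _ _ => rfl⟩

theorem w1_eta (hl : IsLam F l) {a : E → WittVector p K} (h0 : W1 F (S.pi l *ᵥ a)) :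
    W1 F (a - S.eta l *ᵥ (ci _ S.c1 *ᵥ a)) := by
  have D := Blk.dat S hl
  have := h0.mulVec D.mb
  rwa [mulVec_mulVec, eq_sub_of_add_eq' D.tot, sub_mulVec, one_mulVec, ← mulVec_mulVec] at this

end ok

variable {X : PF p k} {𝒰 : Set (Sbs p E)} {md : D5 → Mode} {R : D5 → Prop} {m : ℕ} {T : FP p k}

variable (h S X 𝒰 md m T) in
/-- configurations -/
abbrev Cf : Type := (SP h S X).Conf (c5 k E' ρ h L 𝒰) md m T

variable (R) in
/-- sections -/
abbrev Sc (z : Cf h S X 𝒰 md m T) : Prop := Sec (SP h S X) (c5 k E' ρ h L 𝒰) md R m T z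

theorem w_map {T' : FP p k} (g : T.Hom T') {z : Cf h S X 𝒰 md m T} {c : D5} {i : Fin m}
    {y : VP p E E' ρ h T.K} (hy : z.w c i = some y) : (z.map g).w c i = some (y.map g.r) :=
  congrArg (Option.map _) hy

theorem sec_of_weak (z : Cf h S X 𝒰 md m T) {c₀ : D5} {i : Fin m} {y : VP p E E' ρ h T.K}
    (hy : z.w c₀ i = some y) {c : D5} (hc : R c) {s : VP p E E' ρ h T.K}
    (hs : (c5 k E' ρ h L 𝒰 c).P s) (hw : Weak S s y) : Sc R z := by
  refine ⟨c, hc, s, hs, ⟨trivial, fun c' j u hu => ?_⟩, ?_, fun T' g c' u _ _ hu => ?_⟩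
  · have := hw.ok (z.ok c' j u c₀ i y hu hy)
    exact ⟨this, this.symm⟩
  · exact hw.ok (hw.ok (z.ok _ _ _ _ _ _ hy hy)).symm
  · have := (hw.map g.r).ok (hu.2 c₀ i _ (w_map g hy)).2
    exact ⟨this.symm, this⟩

theorem get_on (z : Cf h S X 𝒰 md m T) {c : D5} (hc : md c = .on) (i : Fin m) :
    ∃ y, z.w c i = some y ∧ (c5 k E' ρ h L 𝒰 c).P y := by
  obtain ⟨y, hy⟩ := Option.isSome_iff_exists.1 (z.on c i hc)
  exact ⟨y, hy, (z.col c i y hy).1⟩

theorem exists_cJ {v : LV p E h T.K} (hv : v.IsZ T.F) {𝒱 : Set (Sbs p E)}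
    (hU : ∀ U ∈ 𝒱, UI T.F v U) : ∃ s : LV p E h T.K, (cJ k h 𝒱).P s ∧ s.a = v.a := by
  obtain ⟨s, h1, h2, h3, h4⟩ := (forms E h T.K T.F).2.1 v 𝒱 hv hU
  exact ⟨s, ⟨h1, h2, h3⟩, h4⟩

theorem ui_of_cJ {v : LV p E h T.K} {𝒱 : Set (Sbs p E)} (hv : (cJ k h 𝒱).P v) :
    ∀ U ∈ 𝒱, UI T.F v U := (forms E h T.K T.F).1 v 𝒱 hv.2.1

theorem sec_pos (z : Cf h S X 𝒰 md m T) {c₀ : D5} {i : Fin m} {y : VP p E E' ρ h T.K}
    (hy : z.w c₀ i = some y) (hA : y.HasA) {v : LV p E h T.K} (hv : v.IsZ T.F)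
    (ha : v.a = y.a S) (hU : ∀ U ∈ 𝒰, UI T.F v U) :
    (R .P → Sc R z) ∧ (R .Q → UI T.F v L → Sc R z) := by
  refine ⟨fun hR => ?_, fun hR hL => ?_⟩
  · obtain ⟨s, h1, h2⟩ := exists_cJ hv hU
    exact sec_of_weak z hy hR ⟨s, rfl, h1⟩ ⟨False.elim, fun _ => ⟨hA, h2.trans ha⟩⟩
  · obtain ⟨s, h1, h2⟩ := exists_cJ (𝒱 := insert L 𝒰) hv fun U hU' => hU'.elim
      (fun e => e ▸ hL) (hU U)
    exact sec_of_weak z hy hR ⟨s, rfl, h1⟩ ⟨False.elim, fun _ => ⟨hA, h2.trans ha⟩⟩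

theorem sec_Q (z : Cf h S X 𝒰 md m T) {i : Fin m} {v : LV p E h T.K}
    (hy : z.w .P i = some (.pos v)) (hR : R .Q) (hL : UI T.F v L) : Sc R z := by
  obtain ⟨_, e, hv⟩ := (z.col _ _ _ hy).1
  cases e
  exact (sec_pos z hy trivial hv.1 rfl (ui_of_cJ hv)).2 hR hL

omit [Fintype ρ] [DecidableEq ρ] in
theorem not_par {c : D5} (h1 : c ≠ .Z) (h2 : c ≠ .J) {u : VP p E E' ρ h T.K}
    (hu : (c5 k E' ρ h L 𝒰 c).P u) : u.HasL → ¬u.HasA := by
  cases c
  · obtain ⟨_, rfl, -⟩ := hu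
    exact fun _ => id
  · obtain ⟨_, rfl, -⟩ := hu
    exact False.elim
  · obtain ⟨_, rfl, -⟩ := hu
    exact False.elim
  · exact (h1 rfl).elim
  · exact (h2 rfl).elim

theorem ne_off {z : Cf h S X 𝒰 md m T} {c c' : D5} {i : Fin m} {u : VP p E E' ρ h T.K}
    (hu : z.w c i = some u) (hc : md c' = .off) : c ≠ c' := by
  rintro rfl
  rw [z.off c i hc] at hu
  cases hu

/-- projections exist along the stratum -/
theorem locA1 (h1 : LAMEX p) (h2 : CPL p) (hh : 1 ≤ h) (hU : ∀ U, L < U → U ∈ 𝒰)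
    (hP : md .P = .on) (hZ : md .Z = .off) (hJ : md .J = .off) (rl : R .l) (rQ : R .Q)
    (rZ : ¬R .Z) (rJ : ¬R .J) (z : Cf h S X 𝒰 md (m + 1) T) :
    FLoc T fun _ f => Sc R (z.map f) := by
  obtain ⟨_, hy, v, rfl, hv⟩ := get_on z hP 0
  have := pf_zero T.F
  let g : L × (E ⊕ Fin h) → T.F.zero := fun q =>
    ⟨v.eb q.1 q.2, (eps E h T.K T.F v T.cl hv.1).2 _ _⟩
  obtain ⟨D, _, _, _, hc, hs, hi⟩ := h2 T.F.zero _ g
  refine .iso _ g D hs hi (fun T' f _ o => .here ?_) fun T' f _ ⟨q, t, ht, e⟩ => .here ?_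
  · obtain ⟨l, hl, h0⟩ := h1 E E' ρ L S h T.K T.F v hh T.cl hv.1
      (fun U hU' => ui_of_cJ hv U (hU U hU')) D ((Ideal.span (Set.range g)).map (algebraMap _ D))
      (algebraMap _ D)
      (fun l hl i y hy => Ideal.mem_map_of_mem _ (Ideal.subset_span ⟨(⟨l, hl⟩, i),
        Subtype.ext hy.symm⟩)) T'.K T'.F f.r o.ψ T'.cl f.maps o.mem o.alg
    have hy' := w_map f hy
    show Sc R (z.map f)
    refine ⟨.l, rl, .lam l, ⟨l, rfl, hl⟩, ⟨trivial, fun c j u hu => ?_⟩,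
      ⟨False.elim, fun _ => False.elim, fun _ => False.elim, fun _ _ _ => rfl⟩,
      fun T'' g c u hc hu' hu => ?_⟩
    · have := ok_lam hl (y := .pos (v.map f.r)) trivial h0 ((z.map f).ok _ _ _ _ _ _ hu hy')
        (not_par (ne_off hu hZ) (ne_off hu hJ) ((z.map f).col _ _ _ hu).1)
      exact ⟨this, this.symm⟩
    · have h0' := h0.map g
      rw [mulVec_map, Spl.pi_map] at h0'
      have := ok_lam (hl.map g) (y := .pos ((v.map f.r).map g.r)) trivial h0'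
        (hu.2 _ _ _ (w_map g hy')).2
        (not_par (fun e => rZ (e ▸ hc)) (fun e => rJ (e ▸ hc)) hu')
      exact ⟨this.symm, this⟩
  · show Sc R (z.map f)
    refine sec_Q _ (w_map f hy) rQ ((forms E h T'.K T'.F).2.2.2.1 _ L q.1 q.2 t q.1.2 ht ?_)
    rw [LV.eb_map]
    exact e

theorem locA2' (h1 : BAS p) (hh : 1 ≤ h) (hP : md .P = .on) (hZ : md .Z = .off)
    (hJ : md .J = .off) (rl : ¬R .l) (rZ : R .Z) (z : Cf h S X 𝒰 md (m + 1) T)
    {l : Matrix ρ E' T.W} (hl : IsLam T.F l) (hz : ∀ i, z.w .l i = some (.lam l)) :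
    FLoc T fun _ f => Sc R (z.map f) := by
  obtain ⟨_, hy, v, rfl, hv⟩ := get_on z hP 0
  have h0 : W1 T.F (S.pi l *ᵥ v.a) := (z.ok _ _ _ _ _ _ (hz 0) hy).la trivial trivial
  obtain ⟨D, _, _, hD, H⟩ := h1 E E' ρ L S h T.K T.F v l hh T.cl hv.1 hl h0
  refine .ff D fun T' f _ o => .here ?_
  obtain ⟨v', hv', ha⟩ := H T'.K T'.F f.r o.ψ f.maps o.mem o.alg
  obtain ⟨s, hs, hs'⟩ := exists_cJ (𝒱 := ∅) hv' fun _ => False.elim
  have hl' := hl.map f
  have hy' := w_map f hy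
  have hz' := fun i => w_map f (hz i)
  have h2 : W1 T'.F ((v.map f.r).a - S.eta (l.map f.w) *ᵥ s.a) := by
    rw [hs', ha]
    exact w1_eta hl' (((z.map f).ok _ _ _ _ _ _ (hz' 0) hy').la trivial trivial)
  show Sc R (z.map f)
  refine ⟨.Z, rZ, .par (l.map f.w) s, ⟨_, _, rfl, hl', hs⟩, ⟨trivial, fun c j u hu => ?_⟩,
    ok_par_self hl' s, fun T'' g c u hc hu' hu => ?_⟩
  · have := ok_par hl' (y := .pos (v.map f.r)) h2 trivial ((z.map f).ok _ _ _ _ _ _ hu hy')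
      ((z.map f).ok _ _ _ _ _ _ hu (hz' 0)) fun hL => by
        have hu' := ((z.map f).col _ _ _ hu).1
        cases c
        · cases hu.symm.trans (hz' j)
          rfl
        · obtain ⟨_, rfl, -⟩ := hu'
          exact hL.elim
        · obtain ⟨_, rfl, -⟩ := hu'
          exact hL.elim
        · exact (ne_off hu hZ rfl).elim
        · exact (ne_off hu hJ rfl).elim
    exact ⟨this, this.symm⟩
  · have h4 : W1 T''.F (((v.map f.r).map g.r).a -
        S.eta ((l.map f.w).map g.w) *ᵥ (s.map g.r).a) := fun e => by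
      have h3 := g.wl (h2 e)
      rw [Pi.sub_apply, map_sub, congrFun (mulVec_map g.w (S.eta (l.map f.w)) s.a) e,
        Spl.eta_map] at h3
      exact h3
    have h5 := (hu.2 _ _ _ (w_map g (hz' 0))).2
    have := ok_par (hl'.map g) (y := .pos ((v.map f.r).map g.r)) h4 trivial
      (hu.2 _ _ _ (w_map g hy')).2 h5 fun hL => h5.ll hL trivial (Or.inl (by
        cases c
        · exact (rl hc).elim
        · obtain ⟨_, rfl, -⟩ := hu'
          trivial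
        · obtain ⟨_, rfl, -⟩ := hu'
          trivial
        · obtain ⟨_, _, rfl, -⟩ := hu'
          trivial
        · obtain ⟨_, _, rfl, -⟩ := hu'
          trivial))
    exact ⟨this.symm, this⟩

/-- bases exist along the stratum -/
theorem locA2 (h1 : BAS p) (h2 : UNI p) (hh : 1 ≤ h) (hl : md .l = .on) (hP : md .P = .on)
    (hZ : md .Z = .off) (hJ : md .J = .off) (rl : ¬R .l) (rQ : R .Q) (rZ : R .Z)
    (z : Cf h S X 𝒰 md (m + 1) T) : FLoc T fun _ f => Sc R (z.map f) := by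
  have : ∀ i, ∃ l, z.w .l i = some (.lam l) ∧ IsLam T.F l := fun i => by
    obtain ⟨_, hy, l, rfl, H⟩ := get_on z hl i
    exact ⟨l, hy, H⟩
  choose l hz H using this
  let t : Fin (m + 1) × ρ × E' × ℕ → T.K := fun q => ((l q.1 - l 0) q.2.1 q.2.2.1).coeff q.2.2.2
  have t0 : ∀ q, t q ∈ T.F.F 0 := fun q => by
    have := Fil.mem_WL.1 (((H q.1).mem.sub (H 0).mem) q.2.1 q.2.2.1) q.2.2.2
    rwa [mul_zero] at this
  have tp : ∀ q, t q ^ p = t q := fun q => by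
    have : sg p T.K ((l q.1 - l 0) q.2.1 q.2.2.1) = (l q.1 - l 0) q.2.1 q.2.2.1 := by
      rw [Matrix.sub_apply, map_sub, (H q.1).pow, (H 0).pow]
    exact congrArg (fun x => x.coeff q.2.2.2) this
  refine .idem _ t t0 tp (fun T' f _ e => ?_) fun T' f _ ⟨q, hq⟩ => .here ?_
  · refine (locA2' h1 hh hP hZ hJ rl rZ (z.map f) ((H 0).map f) fun i => ?_).mono
      fun T'' g hg => ?_
    · refine (w_map f (hz i)).trans (congrArg (fun l => some (VP.lam l)) ?_)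
      refine Matrix.ext fun a b => sub_eq_zero.1 ?_
      show f.w _ - f.w _ = 0
      rw [← map_sub]
      exact WittVector.ext fun n => (e (i, a, b, n)).trans (WittVector.zero_coeff p _ n).symm
    · exact (congrArg (Sc R) (((SP h S X).conf _ md _).map_comp g f z)).mpr hg
  · obtain ⟨_, hy, v, rfl, hv⟩ := get_on z hP 0
    show Sc R (z.map f)
    have hy' := w_map f hy
    have hz' := fun i => w_map f (hz i)
    have e : f.f (t q) * f.f (t q) ^ (p - 2) = 1 := by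
      refine hq.mul_left_cancel ?_
      rw [← pow_succ', ← pow_succ', mul_one, show p - 2 + 1 + 1 = p by
        have := hp.out.two_le; omega, ← map_pow, tp]
    refine sec_Q _ hy' rQ (h2 E E' ρ L S h T'.K T'.F _ _ _ hh T'.cl (hv.1.map f) ((H q.1).map f)
      ((H 0).map f) (((z.map f).ok _ _ _ _ _ _ (hz' q.1) hy').la trivial trivial)
      (((z.map f).ok _ _ _ _ _ _ (hz' 0) hy').la trivial trivial) q.2.1 q.2.2.1 q.2.2.2
      (f.f (t q) ^ (p - 2)) (T'.F.zero.pow_mem (f.mem _ _ (t0 q)) _) ?_)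
    rw [← e, ← Matrix.map_sub _ (map_sub f.w)]
    rfl

theorem secA3 (hZ : md .Z = .on) (rl : R .l) (z : Cf h S X 𝒰 md (m + 1) T) : Sc R z := by
  obtain ⟨_, hy, l, v, rfl, hl, -⟩ := get_on z hZ 0
  exact sec_of_weak z hy rl ⟨l, rfl, hl⟩ ⟨fun _ => ⟨trivial, rfl⟩, False.elim⟩

theorem secA4 (hU : ∀ U ∈ 𝒰, ¬U ≤ L) (hZ : md .Z = .on) (rP : R .P)
    (z : Cf h S X 𝒰 md (m + 1) T) : Sc R z := by
  obtain ⟨_, hy, l, v, rfl, hl, hv⟩ := get_on z hZ 0
  obtain ⟨s, h1, h2, h3, -⟩ := blk E E' ρ L S h T.K T.F v l hv.1 hl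
  exact (sec_pos z hy trivial h1 h2 fun U hU' => h3 U (hU U hU')).1 rP

theorem secA5 (hU : ∀ U ∈ 𝒰, ¬U ≤ L) (hJ : md .J = .on) (rQ : R .Q)
    (z : Cf h S X 𝒰 md (m + 1) T) : Sc R z := by
  obtain ⟨_, hy, l, v, rfl, hl, hv⟩ := get_on z hJ 0
  obtain ⟨s, h1, h2, h3, h4⟩ := blk E E' ρ L S h T.K T.F v l hv.1 hl
  exact (sec_pos z hy trivial h1 h2 fun U hU' => h3 U (hU U hU')).2 rQ
    (h4.2 (ui_of_cJ hv ⊤ rfl))

theorem secA6 (hQ : md .Q = .on) (hZ : md .Z = .on) (rJ : R .J) (z : Cf h S X 𝒰 md (m + 1) T) :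
    Sc R z := by
  obtain ⟨_, hy, l, v, rfl, hl, hv⟩ := get_on z hZ 0
  obtain ⟨_, hx, u, rfl, hu⟩ := get_on z hQ 0
  obtain ⟨s, h1, h2, -, h4⟩ := blk E E' ρ L S h T.K T.F v l hv.1 hl
  have h5 : u.Ok T.F s := okz E h T.K T.F u s T.cl hu.1 h1
    (h2 ▸ (z.ok _ _ _ _ _ _ hx hy).aa trivial trivial)
  have h6 := h4.1 ((forms E h T.K T.F).2.2.1 s u L h1 hu.1 h5 (ui_of_cJ hu L (Or.inl rfl)))
  obtain ⟨w, h7, h8⟩ := exists_cJ (𝒱 := {⊤}) hv.1 fun U hU => hU ▸ h6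
  exact sec_of_weak z hy rJ ⟨l, w, rfl, hl, h7⟩
    ⟨fun _ => ⟨trivial, rfl⟩, fun _ => ⟨trivial, congrArg (S.eta l *ᵥ ·) h8⟩⟩

end P261.C1
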