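import Vale.Agent.P261Z.C1.Defs

/-!
# P261Z, block C1: étale equations, left inverses, independence
-/

noncomputable section

open Matrix

namespace P261.C1

variable {p : ℕ} [hp : Fact p.Prime]

namespace SolH

/-- successive approximation -/
theorem onto {R I : Type} [CommRing R] (J : Ideal R) [IsAdicComplete J R]
    (Φ : (I → R) →+ (I → R)) (h1 : ∀ n x, (∀ i, x i ∈ J ^ n) → ∀ i, Φ x i ∈ J ^ n)
    (h2 : ∀ n b, (∀ i, b i ∈ J ^ n) → ∃ y, (∀ i, y i ∈ J ^ n) ∧ ∀ i, (b - Φ y) i ∈ J ^ (n + 1))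
    (b : I → R) : ∃ x, Φ x = b := by
  choose! y h3 h4 using h2
  let s : ℕ → I → R := fun n => Nat.rec 0 (fun n x => x + y n (b - Φ x)) n
  have h5 : ∀ n i, (b - Φ (s n)) i ∈ J ^ n := fun n => by
    induction n with
    | zero => simp
    | succ n ih =>
      rw [show s (n + 1) = s n + y n (b - Φ (s n)) from rfl, map_add, ← sub_sub]
      exact h4 n _ ih
  have h6 : ∀ i, ∃ l, ∀ n, s n i ≡ l [SMOD (J ^ n • ⊤ : Submodule R R)] := fun i =>
    IsPrecomplete.prec' _ fun {m n} h => by
      rw [SModEq.sub_mem, smul_eq_mul, Ideal.mul_top]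
      induction n, h using Nat.le_induction with
      | base => simp
      | succ n hn ih =>
        rw [show s (n + 1) i = s n i + y n (b - Φ (s n)) i from rfl, ← sub_sub]
        exact sub_mem ih (Ideal.pow_le_pow_right hn (h3 n _ (h5 n) i))
  choose x hx using h6
  simp only [SModEq.sub_mem, smul_eq_mul, Ideal.mul_top] at hx
  refine ⟨x, funext fun i => (IsHausdorff.eq_iff_smodEq (I := J)).2 fun n => ?_⟩
  rw [SModEq.sub_mem, smul_eq_mul, Ideal.mul_top, ← neg_mem_iff]
  have h7 := add_mem (h5 n i) (h1 n (s n - x) (hx · n) i)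
  rwa [map_sub, Pi.sub_apply, Pi.sub_apply, sub_add_sub_cancel, ← neg_sub] at h7

variable {D I : Type} [CommRing D] [Pf p D] [Fintype I]

/-- the operator as an additive map -/
def Te (A : Matrix I I D) : (I → D) →+ (I → D) :=
  AddMonoidHom.mk' (Tp p A) fun x y => funext fun i => by
    simp only [Tp, add_vecMul, Pi.add_apply, add_pow_p]

omit [Pf p D] in
theorem tp_mem (A : Matrix I I D) {Q : Ideal D} (n : ℕ) {x : I → D} (h : ∀ i, x i ∈ Q) :
    ∀ i, (Tp p A)^[n] x i ∈ Q := by
  induction n with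
  | zero => exact h
  | succ n ih =>
    intro i
    rw [Function.iterate_succ_apply']
    exact Q.pow_mem_of_mem (Q.sum_mem fun j _ => Q.mul_mem_right _ (ih j)) _ p_pos

theorem tp_sum [DecidableEq I] (A : Matrix I I D) (n : ℕ) (x : I → D) :
    (Tp p A)^[n] x = ∑ j, x j ^ p ^ n • (Tp p A)^[n] (Pi.single j 1) := by
  induction n with
  | zero => simpa using pi_eq_sum_univ' x
  | succ n ih =>
    simp only [Function.iterate_succ_apply']
    rw [ih]
    refine (map_sum (Te A) _ _).trans (Finset.sum_congr rfl fun j _ => funext fun i => ?_)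
    simp only [Te, AddMonoidHom.mk'_apply, Tp, smul_vecMul, Pi.smul_apply, smul_eq_mul, mul_pow,
      pow_succ, pow_mul]

theorem sol0 [DecidableEq I] (J : Ideal D) [IsAdicComplete J D] (A : Matrix I I D) (N : ℕ)
    (h : ∀ i j, (Tp p A)^[N] (Pi.single i 1) j ∈ J) (b : I → D) : ∃ x, x - Tp p A x = b := by
  refine onto J (AddMonoidHom.id _ - Te A) (fun n x hx i => sub_mem (hx i) (tp_mem A 1 hx i))
    (fun n b hb => ⟨∑ j ∈ Finset.range N, (Tp p A)^[j] b, fun i => ?_, fun i => ?_⟩) b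
  · rw [Finset.sum_apply]
    exact sum_mem fun j _ => tp_mem A j hb i
  · have e : ∀ j, (AddMonoidHom.id (I → D) - Te A : _ →+ _) ((Tp p A)^[j] b) =
        (Tp p A)^[j] b - (Tp p A)^[j + 1] b := fun j => by
      rw [Function.iterate_succ_apply']
      rfl
    simp only [map_sum, e, Finset.sum_range_sub' fun j => (Tp p A)^[j] b, Function.iterate_zero,
      id, sub_sub_cancel]
    rw [tp_sum, Finset.sum_apply, pow_succ]
    exact sum_mem fun j _ => Ideal.mul_mem_mul
      (Ideal.pow_mem_of_mem _ (hb j) _ (pow_pos p_pos _)) (h j i)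

omit [Pf p D] [Fintype I] in
theorem mem_pw {n : ℕ} {x : I → WittVector p D} :
    (∀ i, x i ∈ Ideal.span {(p : WittVector p D)} ^ n) ↔ ∃ y, x = p ^ n • y := by
  simp only [Ideal.span_singleton_pow, Ideal.mem_span_singleton, dvd_def, Classical.skolem,
    funext_iff, nsmul_eq_mul, Nat.cast_pow]
  rfl

end SolH

open SolH

theorem sol : SOL p := by
  intro D I _ _ _ _ J _ A N h b
  rcases subsingleton_or_nontrivial D with _ | _
  · exact ⟨0, fun i => WittVector.ext fun _ => Subsingleton.elim _ _⟩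
  have : CharP D p := Ch.charP
  have : PerfectRing D p := Pf.perfectRing
  let Φ : (I → WittVector p D) →+ (I → WittVector p D) :=
    AddMonoidHom.mk' (fun Ψ i => Ψ i - sg p D ((Ψ ᵥ* A) i)) fun x y => funext fun i => by
      simp only [add_vecMul, Pi.add_apply, map_add]
      ring
  obtain ⟨x, hx⟩ := onto (Ideal.span {(p : WittVector p D)}) Φ (fun n x hx => by
    obtain ⟨y, rfl⟩ := mem_pw.1 hx
    exact mem_pw.2 ⟨_, map_nsmul Φ _ _⟩) (fun n b hb => by
    obtain ⟨c, rfl⟩ := mem_pw.1 hb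
    obtain ⟨y, hy⟩ := sol0 J _ N h fun i => (c i).coeff 0
    refine ⟨p ^ n • fun i => tm p (y i), mem_pw.2 ⟨_, rfl⟩, fun i => ?_⟩
    rw [map_nsmul, ← smul_sub, Pi.smul_apply, nsmul_eq_mul, Nat.cast_pow, pow_succ]
    refine Ideal.mul_mem_mul (Ideal.pow_mem_pow (Ideal.mem_span_singleton_self _) _)
      ((WittVector.mem_span_p_iff_coeff_zero_eq_zero _).2 ?_)
    let k : WittVector p D →+* D := WittVector.constantCoeff
    change k (c i - (tm p (y i) - sg p D (∑ j, tm p (y j) * A j i))) = 0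
    rw [map_sub, map_sub, sub_eq_zero, show ∀ z, k (sg p D z) = k z ^ p from fun _ => rfl, map_sum]
    simp only [map_mul]
    exact (congrFun hy i).symm) b
  exact ⟨x, congrFun hx⟩

theorem linv : LINV := by
  intro D I ρ _ _ _ _ X J h
  have := Classical.decEq I
  have e : LinearMap.range X.vecMulLinear ⊔ Submodule.pi Set.univ (fun _ : ρ => J) = ⊤ := by
    refine (eq_top_or_exists_le_coatom _).resolve_right fun ⟨Q, hQ, hle⟩ => ?_
    obtain ⟨m, hm, ⟨φ⟩⟩ := isSimpleModule_iff_quot_maximal.1 (isSimpleModule_iff_isCoatom.2 hQ)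
    let f := φ.toLinearMap ∘ₗ Q.mkQ
    have h0 : ∀ v ∈ Q, f v = 0 := fun v hv =>
      φ.map_eq_zero_iff.2 ((Submodule.Quotient.mk_eq_zero Q).2 hv)
    choose y hy using fun j => Ideal.Quotient.mk_surjective (f (Pi.single j 1))
    have h1 : ∀ v, f v = Ideal.Quotient.mk m (v ⬝ᵥ y) := fun v => by
      conv_lhs => rw [pi_eq_sum_univ' v]
      simp only [map_sum, map_smul, ← hy, dotProduct, map_mul]
      rfl
    obtain ⟨v, hv⟩ := (φ.surjective.comp Q.mkQ_surjective) 1
    have h2 : Ideal.Quotient.mk m (v ⬝ᵥ y) = 1 := (h1 v).symm.trans hv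
    have h3 := h m hm (fun a ha => ?_) y fun i => ?_
    · refine hm.ne_top ((Ideal.eq_top_iff_one m).2 (Ideal.Quotient.eq_zero_iff_mem.1 ?_))
      rw [map_one, ← h2, Ideal.Quotient.eq_zero_iff_mem]
      exact m.sum_mem fun j _ => m.mul_mem_left _ (h3 j)
    · have := h0 (a • v) (hle (Submodule.mem_sup_right fun j _ => J.mul_mem_right _ ha))
      rwa [h1, smul_dotProduct, smul_eq_mul, map_mul, h2, mul_one,
        Ideal.Quotient.eq_zero_iff_mem] at this
    · have := h0 _ (hle (Submodule.mem_sup_left ⟨Pi.single i 1, rfl⟩))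
      rwa [h1, vecMulLinear_apply, single_one_vecMul, Ideal.Quotient.eq_zero_iff_mem] at this
  choose u hu w hw k using fun j : ρ =>
    Submodule.mem_sup.1 (e.ge (Submodule.mem_top (x := (Pi.single j 1 : ρ → D))))
  choose B hB using hu
  refine ⟨of B, fun j j' => ?_⟩
  rw [← neg_mem_iff, show -(of B * X - 1 : Matrix ρ ρ D) j j' = w j j' from ?_]
  · exact hw j j' trivial
  · rw [eq_sub_of_add_eq' (k j), ← hB, Matrix.sub_apply, neg_sub, Pi.sub_apply, Matrix.one_apply,
      Pi.single_apply]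
    simp only [eq_comm]
    rfl

theorem ind : IND p := by
  intro κ I ρ _ _ _ _ A X hA h y
  classical
  have : CharP κ p := Ch.charP
  induction hn : (Finset.univ.filter fun j => y j ≠ 0).card using Nat.strong_induction_on
    generalizing y with
  | _ n ih =>
  intro hy
  by_contra h0
  obtain ⟨j, hj⟩ := Function.ne_iff.1 h0
  have h1 : X *ᵥ ((y j)⁻¹ • y) = 0 := by rw [mulVec_smul, hy, smul_zero]
  have h2 : ((y j)⁻¹ • y) j = 1 := inv_mul_cancel₀ hj
  have h3 : ∀ i, y i = 0 → ((y j)⁻¹ • y) i = 0 := fun i e => by simp [e]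
  generalize (y j)⁻¹ • y = z at h1 h2 h3
  have h4 : X *ᵥ (rt p κ ∘ z) = 0 := by
    rw [← hA, ← mulVec_mulVec, show X.map (rt p κ) *ᵥ (rt p κ ∘ z) = 0 from funext fun i => by
      rw [← RingHom.map_mulVec, h1, Pi.zero_apply, map_zero], mulVec_zero]
  have h5 : z - rt p κ ∘ z = 0 := by
    refine ih _ (hn ▸ Finset.card_lt_card ⟨fun i => ?_, fun k => ?_⟩) _ rfl
      (by rw [mulVec_sub, h1, h4, sub_zero])
    · simp only [Finset.mem_filter, Finset.mem_univ, true_and]
      exact mt fun e => by simp [h3 i e]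
    · simpa [h2] using k (Finset.mem_filter.2 ⟨Finset.mem_univ j, hj⟩)
  have h6 : ∀ i, ∃ l : ZMod p, (l.val : κ) = z i := fun i => by
    obtain ⟨l, hl⟩ : z i ∈ (ZMod.castHom (m := p) dvd_rfl κ).fieldRange := by
      rw [ZMod.fieldRange_castHom_eq_bot, Subfield.mem_bot_iff_pow_eq_self κ p]
      exact (congrArg (· ^ p) (congrFun (sub_eq_zero.1 h5) i)).trans (rt_pow _)
    exact ⟨l, (ZMod.natCast_val l).trans hl⟩
  choose l hl using h6
  have h7 := hl j
  rw [h l (by rw [funext hl, h1]), h2] at h7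
  simp at h7

end P261.C1
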