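import Vale.Agent.P261Z.C1.Defs
import Vale.Agent.P261Z.L.FV
import Vale.Agent.P261Z.W.Hull

/-!
# P261Z, block C1: uniqueness of the projection along the stratum
-/

noncomputable section

open Matrix

namespace P261.C1

variable {p : ℕ} [hp : Fact p.Prime]

namespace Un

theorem core {D I ρ : Type} [CommRing D] [Pf p D] [Fintype I] (A : Matrix I I (WittVector p D))
    (G : Matrix I ρ (WittVector p D)) (H : ∀ φ : I → D, φ ᵥ* G.map WittVector.constantCoeff = 0 →
      Tp p (A.map WittVector.constantCoeff) φ = φ → φ = 0) (ψ : I → WittVector p D)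
    (h1 : ∀ i, sg p D ((ψ ᵥ* A) i) = ψ i) (h2 : ψ ᵥ* G = 0) : ψ = 0 := by
  refine funext fun i => Cg.ext fun n => ?_
  induction n generalizing ψ i with
  | zero => exact fun _ h => absurd h (Nat.not_lt_zero _)
  | succ n ih =>
    have h3 := H (WittVector.constantCoeff ∘ ψ) (funext fun r => by
      rw [← RingHom.map_vecMul, h2]
      exact map_zero _) (funext fun j => by
      rw [Tp, ← RingHom.map_vecMul]
      exact congrArg (·.coeff 0) (h1 j))
    have h4 : ψ = (p : WittVector p D) • fun j => dv (ψ j) :=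
      funext fun j => (p_mul_dv (congrFun h3 j)).symm
    have h5 := (ih (fun j => dv (ψ j)) (fun j => p_mul_inj ?_) (funext fun r => p_mul_inj ?_) i).p_mul
    · rwa [p_mul_dv (congrFun h3 i), Pi.zero_apply, mul_zero] at h5
    · have := h1 j
      rwa [h4, smul_vecMul, Pi.smul_apply, smul_eq_mul, map_mul, map_natCast] at this
    · have := congrFun h2 r
      rw [h4, smul_vecMul] at this
      exact this.trans (mul_zero _).symm

omit hp in
theorem Tp_map {C D I : Type} [CommRing C] [CommRing D] [Fintype I] (f : C →+* D)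
    (A : Matrix I I C) (N : ℕ) (φ : I → C) :
    f ∘ (Tp p A)^[N] φ = (Tp p (A.map f))^[N] (f ∘ φ) :=
  Function.Semiconj.iterate_right (f := fun φ : I → C => f ∘ φ) (fun φ => funext fun i => by
    simp only [Tp, Function.comp_apply, map_pow, RingHom.map_vecMul]) N φ

omit hp in
theorem ci_map {A B I J : Type} [CommRing A] [CommRing B] (f : A →+* B) (M : Matrix I J ℤ) :
    (ci A M).map f = ci B M := Matrix.ext fun _ _ => map_intCast f _

theorem pi_map {E E' ρ : Type} [Fintype E] [DecidableEq E] [Fintype E'] [DecidableEq E']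
    [Fintype ρ] [DecidableEq ρ] {L : Sbs p E} (S : Spl L E' ρ) {A B : Type} [CommRing A]
    [CommRing B] (f : A →+* B) (lam : Matrix ρ E' A) : (S.pi lam).map f = S.pi (lam.map f) := by
  rw [Spl.pi, Spl.pi, Matrix.map_add _ (map_add f), Matrix.map_mul, ci_map, ci_map]

theorem MW_iff {K I J : Type} [CommRing K] {F : Fil p K} {M : Matrix I J (WittVector p K)} :
    F.MW 0 M ↔ ∃ M₀ : Matrix I J (WittVector p F.zero), M₀.map (wm p F.zero.subtype) = M := by
  refine ⟨fun h => ?_, fun ⟨M₀, h⟩ i j => Fil.mem_WL.2 fun n => ?_⟩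
  · choose M₀ h₀ using fun i j => (mem_wsub (S := F.zero)).2 fun n =>
      F.mem_zero.2 (by simpa using Fil.mem_WL.1 (h i j) n)
    exact ⟨M₀, Matrix.ext h₀⟩
  · rw [mul_zero, ← h]
    exact ((M₀ i j).coeff n).2

theorem map_inj {K I J : Type} [CommRing K] {C : Subring K}
    {M M' : Matrix I J (WittVector p C)} (h : M.map (wm p C.subtype) = M'.map (wm p C.subtype)) :
    M = M' := Matrix.ext fun i j =>
  WittVector.map_injective C.subtype Subtype.val_injective (congrFun (congrFun h i) j)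

theorem val_cast {K : Type} [CommRing K] [Ch p K] (z : ℤ) : (((z : ZMod p).val : ℕ) : K) = z := by
  rw [← Int.cast_natCast, ZMod.val_intCast, Int.emod_def]
  push_cast
  rw [Ch.char, zero_mul, sub_zero]

theorem proj {E ρ : Type} [Fintype E] [DecidableEq E] {h : ℕ} {K : Type} [CommRing K] [Pf p K]
    {v : LV p E h K} (hv : v.μ * v.ν = 1) {π : Matrix ρ E (WittVector p K)}
    (hπ : π.map (si p K) = π) :
    (fromCols π (0 : Matrix ρ (Fin h) (WittVector p K)) * v.μ * v.mA).map (sg p K) =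
      fromCols π (0 : Matrix ρ (Fin h) (WittVector p K)) * v.μ ∧
    fromCols π (0 : Matrix ρ (Fin h) (WittVector p K)) * v.μ *
      (Matrix.of fun i e => v.ν i (Sum.inl e)) = π := by
  have h1 : fromCols π (0 : Matrix ρ (Fin h) (WittVector p K)) * v.μ * v.ν = fromCols π 0 := by
    rw [Matrix.mul_assoc, hv, Matrix.mul_one]
  refine ⟨?_, Matrix.ext fun r e => congrFun (congrFun h1 r) (Sum.inl e)⟩
  have h2 : (fromCols π (0 : Matrix ρ (Fin h) (WittVector p K))).map (si p K) = fromCols π 0 := by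
    rw [fromCols_map, hπ, Matrix.map_zero _ (map_zero _)]
  rw [LV.mA, ← Matrix.mul_assoc, ← Matrix.mul_assoc, h1, V0, fromCols_mul_fromBlocks]
  simp only [Matrix.mul_one, Matrix.mul_zero, Matrix.zero_mul, add_zero]
  conv_lhs => rw [← h2, ← Matrix.map_mul]
  exact Matrix.ext fun _ _ => sg_si _

theorem nil {E E' ρ : Type} [Fintype E] [DecidableEq E] [Fintype E'] [DecidableEq E']
    [Fintype ρ] [DecidableEq ρ] {L : Sbs p E} (S : Spl L E' ρ) {C D J : Type} [CommRing C]
    [CommRing D] [Fintype J] {f : C →+* D} (hf : Function.Surjective f) {A : Matrix J J C}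
    {N : Matrix J E C} {n : ℕ}
    (h : ∀ φ : J → C, (∀ e, f ((φ ᵥ* N) e) = 0) → ∀ i, f ((Tp p A)^[n] φ i) = 0)
    (h0 : N.map f * ci D S.b1 = 0) (φ : J → D) (e1 : φ ᵥ* (N * ci C S.b2).map f = 0)
    (e2 : Tp p (A.map f) φ = φ) : φ = 0 := by
  obtain ⟨φ, rfl⟩ := hf.comp_left φ
  rw [Matrix.map_mul, ci_map] at e1
  have e3 : (f ∘ φ) ᵥ* N.map f = 0 := by
    rw [← Matrix.mul_one (N.map f), ← Matrix.map_one (Int.castRingHom D) (map_zero _) (map_one _),
      ← S.tot, Matrix.map_add _ (map_add _), Matrix.map_mul, Matrix.map_mul, Matrix.mul_add,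
      ← Matrix.mul_assoc, h0, Matrix.zero_mul, zero_add, ← Matrix.mul_assoc, ← vecMul_vecMul, e1,
      zero_vecMul]
  exact (Function.iterate_fixed e2 n).symm.trans ((Tp_map f A n φ).symm.trans
    (funext (h φ fun e => (f.map_vecMul N φ e).trans (congrFun e3 e))))

theorem ui {E : Type} [Fintype E] [DecidableEq E] {h : ℕ} {K : Type} [CommRing K] {F : Fil p K}
    {v : LV p E h K} {L : Sbs p E} [DecidablePred (· ∈ L)] (a : ∀ l i, v.eb l i ∈ F.F 0)
    (h1 : (1 : F.zero) ∈ (Ideal.span (Set.range fun t : (E → ZMod p) × (E ⊕ Fin h) =>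
      if t.1 ∈ L then (⟨v.eb t.1 t.2, a _ _⟩ : F.zero) else 0)).radical) : UI F v L := by
  obtain ⟨m, hm⟩ := h1
  rw [one_pow] at hm
  obtain ⟨c, hc⟩ := Ideal.mem_span_range_iff_exists_fun.1 hm
  refine ⟨fun l i => if l ∈ L then c (l, i) else 0, fun l i => ?_, fun l i hl => if_neg hl, ?_⟩
  · dsimp only
    split_ifs
    exacts [(c _).2, zero_mem _]
  · have := congrArg F.zero.subtype hc
    rw [map_sum, map_one, Fintype.sum_prod_type] at this
    refine (Finset.sum_congr rfl fun l _ => Finset.sum_congr rfl fun i _ => ?_).trans this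
    by_cases hl : l ∈ L <;> simp [hl]

end Un

open Un in
theorem uni (h1 : FIX p) (h2 : PIN p) : UNI p := by
  classical
  intro E E' ρ _ _ _ _ _ _ L S h K _ _ F v lam lam' hh hF hv hl hl' w w' i j n y hy e
  have : Pf p F.zero := Pf.subring _ fun x hx => F.mem_zero.2 (F.root (by
    rw [rt_pow, mul_zero]
    exact hx))
  obtain ⟨a1, a2⟩ := eps E h K F v hF hv
  let g : (E → ZMod p) × (E ⊕ Fin h) → F.zero := fun t =>
    if t.1 ∈ L then ⟨v.eb t.1 t.2, a2 _ _⟩ else 0
  let I : Ideal F.zero := (Ideal.span (Set.range g)).radical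
  have : Pf p (F.zero ⧸ I) := Pf.quot_radical _
  obtain ⟨l, rfl⟩ := MW_iff.1 hl.mem
  obtain ⟨l', rfl⟩ := MW_iff.1 hl'.mem
  have b1 := (pi_map S _ _).trans (congrArg S.pi hl.fix)
  have b2 := (pi_map S _ _).trans (congrArg S.pi hl'.fix)
  obtain ⟨Φ, c1⟩ := MW_iff.1 (h2 E ρ h K F v _ hF hv b1 (MW_iff.2 ⟨_, pi_map S _ _⟩) w)
  obtain ⟨Φ', c2⟩ := MW_iff.1 (h2 E ρ h K F v _ hF hv b2 (MW_iff.2 ⟨_, pi_map S _ _⟩) w')
  obtain ⟨A, c3⟩ := MW_iff.1 hv.hA
  obtain ⟨N, c4⟩ := MW_iff.1 (show F.MW 0 (Matrix.of fun i e => v.ν i (Sum.inl e)) from a1)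
  have d0 : ∀ {Ψ : Matrix ρ (E ⊕ Fin h) (WittVector p F.zero)} 
      {m : Matrix ρ E' (WittVector p F.zero)},
      (S.pi (m.map (wm p F.zero.subtype))).map (si p K) = S.pi (m.map (wm p F.zero.subtype)) →
      Ψ.map (wm p F.zero.subtype) = fromCols (S.pi (m.map (wm p F.zero.subtype)))
        (0 : Matrix ρ (Fin h) (WittVector p K)) * v.μ →
      (Ψ * A).map (sg p _) = Ψ ∧ Ψ * N = S.pi m := fun {Ψ m} b c => by
    obtain ⟨d1, d2⟩ := proj hv.inv b
    rw [← c, ← c3, ← Matrix.map_mul] at d1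
    rw [← c, ← c4, ← Matrix.map_mul, ← pi_map] at d2
    exact ⟨map_inj ((Matrix.ext fun _ _ => wm_sg _ _).trans d1), map_inj d2⟩
  have d1 : ((Φ - Φ') * A).map (sg p _) = Φ - Φ' := by
    rw [Matrix.sub_mul, Matrix.map_sub _ (map_sub _), (d0 b1 c1).1, (d0 b2 c2).1]
  have d2 : (Φ - Φ') * N = (l - l') * ci (WittVector p F.zero) S.c1 := by
    rw [Matrix.sub_mul, (d0 b1 c1).2, (d0 b2 c2).2, Spl.pi, Spl.pi, Matrix.sub_mul]
    abel
  have d3 : (Φ - Φ') * (N * ci (WittVector p F.zero) S.b2) = 0 := by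
    rw [← Matrix.mul_assoc, d2, Matrix.mul_assoc, ← Matrix.map_mul, S.c1b2,
      Matrix.map_zero _ (map_zero _), Matrix.mul_zero]
  have d4 : (Φ - Φ') * (N * ci (WittVector p F.zero) S.b1) = l - l' := by
    rw [← Matrix.mul_assoc, d2, Matrix.mul_assoc, ← Matrix.map_mul, S.c1b1,
      Matrix.map_one _ (map_zero _) (map_one _), Matrix.mul_one]
  have d5 : ∀ i e, (((N i e).coeff 0 : F.zero) : K) = (v.ν i (Sum.inl e)).coeff 0 := fun i e =>
    congrArg (·.coeff 0) (congrFun (congrFun c4 i) e)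
  let χ : WittVector p F.zero →+* F.zero ⧸ I := (Ideal.Quotient.mk I).comp WittVector.constantCoeff
  have d6 : N.map χ * ci (F.zero ⧸ I) S.b1 = 0 := by
    rw [← ci_map χ, ← Matrix.map_mul]
    ext i j
    have hm : (fun e => (S.b1 e j : ZMod p)) ∈ L := (S.mem _).2 (funext fun r => by
      have := congrArg (fun M => M.map (Int.castRingHom (ZMod p)) r j) S.c2b1
      simp only [Matrix.map_mul, Matrix.map_zero _ (map_zero _)] at this
      exact this)
    refine Ideal.Quotient.eq_zero_iff_mem.2 (Ideal.le_radical (Ideal.subset_span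
      ⟨(fun e => (S.b1 e j : ZMod p), i), (if_pos hm).trans (Subtype.ext ?_)⟩))
    simp only [LV.eb, val_cast, Matrix.mul_apply, map_sum, map_mul, Matrix.map_apply,
      eq_intCast, map_intCast, WittVector.constantCoeff_apply]
    push_cast
    exact Finset.sum_congr rfl fun e _ => by rw [d5, mul_comm]
  have d7 := core (A.map (wm p (Ideal.Quotient.mk I)))
    ((N * ci (WittVector p F.zero) S.b2).map (wm p (Ideal.Quotient.mk I))) (fun φ e1 e2 => ?_)
    (wm p (Ideal.Quotient.mk I) ∘ (Φ - Φ') i) (fun k => ?_) (funext fun r => ?_)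
  · have d8 : wm p (Ideal.Quotient.mk I) ((l - l') i j) = 0 := by
      rw [← d4, Matrix.mul_apply', ← Matrix.vecMul, RingHom.map_vecMul, d7, zero_vecMul]
      rfl
    have d9 : ((l - l') i j).coeff n ∈ I := Ideal.Quotient.eq_zero_iff_mem.1
      ((congrArg (·.coeff n) d8).trans (WittVector.zero_coeff _ _ _))
    rw [← Matrix.map_sub _ (map_sub _)] at e
    have e1 : ((l - l') i j).coeff n * ⟨y, hy⟩ = 1 := Subtype.ext e
    exact ui a2 ((congrArg (· ∈ I) e1).mp (I.mul_mem_right _ d9))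
  · refine nil S (Ideal.Quotient.mk_surjective (I := I)) (A := A.map WittVector.constantCoeff)
      (N := N.map WittVector.constantCoeff) (n := Fintype.card E + h) (fun φ hφ i => ?_) d6 φ ?_ e2
    · exact Ideal.Quotient.eq_zero_iff_mem.2 (h1 E h K F.zero v _ (fun e i => (N i e).coeff 0) hh
        hv.inv (fun i j => congrArg (·.coeff 0) (congrFun (congrFun c3 i) j)) (fun e i => d5 i e) I
        φ (fun e => Ideal.Quotient.eq_zero_iff_mem.1 (hφ e)) i)
    · rw [← ci_map (WittVector.constantCoeff (p := p) (R := F.zero)), ← Matrix.map_mul]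
      exact e1
  · rw [← RingHom.map_vecMul, ← wm_sg]
    exact congrArg _ (congrFun (congrFun d1 i) k)
  · rw [← RingHom.map_vecMul]
    exact (congrArg _ (congrFun (congrFun d3 i) r)).trans (map_zero _)

end P261.C1
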