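import Vale.Agent.P261Z.C1.Loc
import Vale.Agent.P261Z.C1.Fix
import Vale.Agent.P261Z.C1.Sol
import Vale.Agent.P261Z.C1.Lam
import Vale.Agent.P261Z.C1.Uni
import Vale.Agent.P261Z.C1.Bas
import Vale.Agent.P261Z.C1.Cpl

/-!
# P261Z, block C1: the local term along one stratum
-/

noncomputable section

namespace P261.C1

variable (p : ℕ) [hp : Fact p.Prime] (k : Type) [Field k]

/-- the local term along the stratum of `L` -/
def STEP : Prop := ∀ (E E' ρ : Type) [Fintype E] [DecidableEq E] [Fintype E'] [DecidableEq E']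
  [Fintype ρ] [DecidableEq ρ] (L : Sbs p E) (_ : Spl L E' ρ) (h : ℕ) (B : Type) [CommRing B]
  [Algebra k B] [Pf p B] (𝒰 : Set (Sbs p E)), 1 ≤ h → (∀ U, L < U → U ∈ 𝒰) →
  (∀ U ∈ 𝒰, ¬U ≤ L) →
  (∀ (B₁ : Type) [CommRing B₁] [Algebra k B₁] [Pf p B₁],
    (LF2 (PF.base p k B₁) (sZ p k E' h) (sJ k h {⊤}) .on .red).Good (p ^ h)) →
  (LF2 (PF.base p k B) (sJ k h 𝒰) (sJ k h (insert L 𝒰)) .on .red).Good (p ^ h)

variable {p k}

theorem step (hT : TOG p k) (hS : SECLOC p k) (hR : RPP p k) (h0 : RET0 p k) (h6 : RET6 p k)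
    (hA : ∀ (A : FA.{1} p k) (q : ℕ), A.AAc → A.Good q) : STEP p k := by
  intro E E' ρ _ _ _ _ _ _ L S h B _ _ _ 𝒰 hh hU hU' H
  have hq : 1 ≤ p ^ h := Nat.one_le_pow _ _ hp.out.pos
  have ac : ∀ (md : D5 → Mode) (R : D5 → Bool), (∀ c, R c = true → md c = .red) →
      (∀ (m : ℕ) (T : FP p k)
        (z : Cf h S (PF.base p k B) 𝒰 (Sys.drop md fun c => R c = true) (m + 1) T),
        FLoc T fun _ f => Sc (fun c => R c = true) (z.map f)) →
      (PFA h S (PF.base p k B) 𝒰 md).Good (p ^ h) := fun md R h1 h2 =>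
    hA _ _ (hS _ _ _ md _ (hR E E' ρ L S h B 𝒰 hh) h1 fun m T z _ => h2 m T z)
  have tg := fun m₀ m₁ m₂ c => hT (SP h S (PF.base p k B)) (pact h S _) D5 (c5 k E' ρ h L 𝒰)
    (stab_c5 S _ 𝒰) m₀ m₁ m₂ c (p ^ h) hq
  have a1 := ac (d5 .red .on .red .off .off) (d5 true false true false false)
    (fun c => by cases c <;> decide) fun m T z =>
      locA1 (lamex fix sol linv ind) (cpl p) hh hU rfl rfl rfl (by decide) (by decide) (by decide)
        (by decide) z
  have a2 := ac (d5 .on .on .red .red .off) (d5 false false true true false)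
    (fun c => by cases c <;> decide) fun m T z =>
      locA2 (bas pin) (uni fix pin) hh rfl rfl rfl rfl (by decide) (by decide) (by decide) z
  have a3 := ac (d5 .red .on .red .on .off) (d5 true false false false false)
    (fun c => by cases c <;> decide) fun m T z => .here (secA3 rfl (by decide) _)
  have a4 := ac (d5 .off .red .red .on .off) (d5 false true false false false)
    (fun c => by cases c <;> decide) fun m T z => .here (secA4 hU' rfl (by decide) _)
  have a5 := ac (d5 .off .off .red .on .on) (d5 false false true false false)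
    (fun c => by cases c <;> decide) fun m T z => .here (secA5 hU' rfl (by decide) _)
  have a6 := ac (d5 .off .off .on .on .red) (d5 false false false false true)
    (fun c => by cases c <;> decide) fun m T z => .here (secA6 rfl rfl (by decide) _)
  have m6 := h6 E E' ρ L S h B 𝒰 _ H
  have m5 := (tg _ _ (d5 .off .off .red .on .red) .Q rfl rfl rfl
    fun c => by cases c <;> decide).2.2 m6 a6
  have m4 := (tg (d5 .off .off .red .on .off) _ _ .J rfl rfl rfl
    fun c => by cases c <;> decide).1 a5 m5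
  have m3 := (tg _ (d5 .off .on .red .on .off) _ .P rfl rfl rfl
    fun c => by cases c <;> decide).2.1 m4 a4
  have m2 := (tg _ (d5 .on .on .red .on .off) _ .l rfl rfl rfl
    fun c => by cases c <;> decide).2.1 m3 a3
  have m1 := (tg (d5 .on .on .red .off .off) _ _ .Z rfl rfl rfl
    fun c => by cases c <;> decide).1 m2 a2
  have m0 := (tg (d5 .off .on .red .off .off) _ _ .l rfl rfl rfl
    fun c => by cases c <;> decide).1 m1 a1
  exact h0 E E' ρ L S h _ 𝒰 _ m0

end P261.C1
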